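import Mathlib

/-!
# P012 full: `N(b) ≪ log log b`.  Common definitions.
-/

open Finset

namespace Vale.Agent.EgyptF

/-- distance to the nearest integer -/
noncomputable def nd (x : ℝ) : ℝ := |x - round x|

/-- `e(x) = exp(2 π i x)` -/
noncomputable def e (x : ℝ) : ℂ := Complex.exp ((2 * Real.pi * x : ℝ) * Complex.I)

/-- product of the pool elements selected by the 0/1 vector `a` -/
def vv {ι : Type*} [Fintype ι] (p : ι × Bool → ℕ) (a : ι → Bool) : ℕ := ∏ i, p (i, a i)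

lemma nd_nonneg (x : ℝ) : 0 ≤ nd x := abs_nonneg _

lemma nd_le_half (x : ℝ) : nd x ≤ 1 / 2 := abs_sub_round x

lemma nd_le (x : ℝ) (k : ℤ) : nd x ≤ |x - k| := round_le x k

lemma exists_int (x : ℝ) : ∃ k : ℤ, nd x = |x - k| := ⟨round x, rfl⟩

lemma nd_add_int (x : ℝ) (k : ℤ) : nd (x + k) = nd x := by
  unfold nd
  rw [round_add_intCast]
  push_cast
  congr 1
  ring

lemma nd_add (x y : ℝ) : nd (x + y) ≤ nd x + nd y := by
  obtain ⟨k, hk⟩ := exists_int x
  obtain ⟨l, hl⟩ := exists_int y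
  rw [hk, hl]
  calc nd (x + y) ≤ |x + y - ((k + l : ℤ) : ℝ)| := nd_le _ _
    _ = |(x - k) + (y - l)| := by push_cast; congr 1; ring
    _ ≤ _ := abs_add_le _ _

lemma nd_neg (x : ℝ) : nd (-x) = nd x := by
  apply le_antisymm
  · obtain ⟨k, hk⟩ := exists_int x
    rw [hk]
    calc nd (-x) ≤ |-x - ((-k : ℤ) : ℝ)| := nd_le _ _
      _ = |x - k| := by push_cast; rw [← abs_neg]; congr 1; ring
  · obtain ⟨k, hk⟩ := exists_int (-x)
    rw [hk]
    calc nd x ≤ |x - ((-k : ℤ) : ℝ)| := nd_le _ _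
      _ = |-x - k| := by push_cast; rw [← abs_neg]; congr 1; ring

lemma nd_sub (x y : ℝ) : nd (x - y) ≤ nd x + nd y := by
  rw [sub_eq_add_neg]
  exact (nd_add x (-y)).trans_eq (by rw [nd_neg])

lemma nd_le_abs (x : ℝ) : nd x ≤ |x| := by
  have := nd_le x 0
  simpa using this

lemma nd_of_abs_le_half {x : ℝ} (h : |x| ≤ 1 / 2) : nd x = |x| := by
  apply le_antisymm (nd_le_abs x)
  obtain ⟨k, hk⟩ := exists_int x
  rw [hk]
  rcases eq_or_ne k 0 with rfl | hk0
  · simp
  · have h1 : (1 : ℝ) ≤ |(k : ℝ)| := by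
      rw [← Int.cast_abs]
      exact_mod_cast Int.one_le_abs hk0
    have h2 : |(k : ℝ)| ≤ |x| + |x - k| := by
      calc |(k : ℝ)| = |x - (x - k)| := by congr 1; ring
        _ ≤ _ := abs_sub _ _
    linarith

lemma e_add (x y : ℝ) : e (x + y) = e x * e y := by
  unfold e
  rw [← Complex.exp_add]
  congr 1
  push_cast
  ring

lemma e_zero : e 0 = 1 := by simp [e]

lemma e_int (k : ℤ) : e k = 1 := by
  unfold e
  rw [Complex.exp_eq_one_iff]
  exact ⟨k, by push_cast; ring⟩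

lemma e_add_int (x : ℝ) (k : ℤ) : e (x + k) = e x := by rw [e_add, e_int, mul_one]

lemma norm_e (x : ℝ) : ‖e x‖ = 1 := by
  unfold e
  exact Complex.norm_exp_ofReal_mul_I _

lemma e_ne_zero (x : ℝ) : e x ≠ 0 := Complex.exp_ne_zero _

lemma e_neg (x : ℝ) : e (-x) = (starRingEnd ℂ) (e x) := by
  unfold e
  rw [← Complex.exp_conj]
  congr 1
  rw [map_mul, Complex.conj_ofReal, Complex.conj_I]
  push_cast
  ring

lemma e_nat_mul (x : ℝ) (n : ℕ) : e (n * x) = e x ^ n := by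
  induction n with
  | zero => simp [e_zero]
  | succ n ih =>
    rw [pow_succ, ← ih, ← e_add]
    congr 1
    push_cast
    ring

lemma norm_e_sub_one (x : ℝ) : ‖e x - 1‖ = 2 * |Real.sin (Real.pi * x)| := by
  have h : e x - 1 = Complex.exp ((Real.pi * x : ℝ) * Complex.I) * (2 * Complex.I * Real.sin (Real.pi * x)) := by
    have h1 : e x = Complex.exp ((Real.pi * x : ℝ) * Complex.I) * Complex.exp ((Real.pi * x : ℝ) * Complex.I) := by
      unfold e
      rw [← Complex.exp_add]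
      congr 1
      push_cast
      ring
    have h2 : (1 : ℂ) = Complex.exp ((Real.pi * x : ℝ) * Complex.I) * Complex.exp (-((Real.pi * x : ℝ) * Complex.I)) := by
      rw [← Complex.exp_add]
      simp
    have h3 : 2 * Complex.I * (Real.sin (Real.pi * x) : ℂ) =
        Complex.exp ((Real.pi * x : ℝ) * Complex.I) - Complex.exp (-((Real.pi * x : ℝ) * Complex.I)) := by
      rw [Complex.ofReal_sin, Complex.sin]
      have : Complex.I * Complex.I = -1 := Complex.I_mul_I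
      ring_nf
      rw [Complex.I_sq]
      ring
    rw [h3, mul_sub, ← h1, ← h2]
  rw [h, norm_mul, Complex.norm_exp_ofReal_mul_I, one_mul, norm_mul, norm_mul, Complex.norm_I,
    Complex.norm_real]
  simp

lemma norm_e_sub_one_le (x : ℝ) : ‖e x - 1‖ ≤ 2 * Real.pi * |x| := by
  rw [norm_e_sub_one, mul_assoc]
  apply mul_le_mul_of_nonneg_left _ (by norm_num)
  calc |Real.sin (Real.pi * x)| ≤ |Real.pi * x| := Real.abs_sin_le_abs
    _ = Real.pi * |x| := by rw [abs_mul, abs_of_pos Real.pi_pos]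

lemma norm_e_sub_e_le (x y : ℝ) : ‖e x - e y‖ ≤ 2 * Real.pi * |x - y| := by
  have : e x - e y = e y * (e (x - y) - 1) := by
    rw [mul_sub, ← e_add, mul_one]
    congr 2
    ring
  rw [this, norm_mul, norm_e, one_mul]
  exact norm_e_sub_one_le _

lemma four_nd_le (x : ℝ) : 4 * nd x ≤ ‖e x - 1‖ := by
  obtain ⟨k, hk⟩ : ∃ k : ℤ, nd x = |x - k| := exists_int x
  have h1 : e x = e (x - k) := by
    have := e_add_int (x - k) k
    rw [← this]
    congr 1
    ring
  rw [h1, norm_e_sub_one, hk]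
  have h2 : |x - k| ≤ 1 / 2 := hk ▸ nd_le_half x
  have h3 : |Real.pi * (x - k)| ≤ Real.pi / 2 := by
    rw [abs_mul, abs_of_pos Real.pi_pos]
    nlinarith [Real.pi_pos]
  have h4 := Real.mul_abs_le_abs_sin h3
  rw [abs_mul, abs_of_pos Real.pi_pos] at h4
  have h5 : 2 / Real.pi * (Real.pi * |x - k|) = 2 * |x - k| := by
    have := Real.pi_pos.ne'
    field_simp
  rw [h5] at h4
  linarith

/-- geometric sum bound (general starting point) -/
lemma geom_bound (x : ℝ) (L : ℕ) : ‖∑ l ∈ range L, e (l * x)‖ * (2 * nd x) ≤ 1 := by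
  have h1 : (∑ l ∈ range L, e (l * x)) * (e x - 1) = e (L * x) - 1 := by
    simp_rw [e_nat_mul]
    exact geom_sum_mul (e x) L
  have h2 : ‖∑ l ∈ range L, e (l * x)‖ * ‖e x - 1‖ ≤ 2 := by
    rw [← norm_mul, h1]
    calc ‖e (L * x) - 1‖ ≤ ‖e (L * x)‖ + ‖(1 : ℂ)‖ := norm_sub_le _ _
      _ = 2 := by rw [norm_e]; norm_num
  have h3 := four_nd_le x
  have h4 : ‖∑ l ∈ range L, e (l * x)‖ * (4 * nd x) ≤ 2 :=
    (mul_le_mul_of_nonneg_left h3 (norm_nonneg _)).trans h2
  linarith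

end Vale.Agent.EgyptF
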