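import Mathlib
import Vale.Agent.EgyptF.Defs

open Finset

namespace Vale.Agent.EgyptF

lemma row_sum_le (c : ℕ → ℝ) (hc : ∀ d, 0 ≤ c d) (L l : ℕ) (hl : l < L) :
    ∑ l' ∈ (range L).erase l, c ((l : ℤ) - l').natAbs ≤ 2 * ∑ d ∈ Ico 1 L, c d := by
  have hsplit : (range L).erase l = (range L).filter (fun j => j < l) ∪ (range L).filter (fun j => l < j) := by
    ext j
    simp only [mem_erase, mem_range, mem_union, mem_filter]
    omega
  have hdisj : Disjoint ((range L).filter (fun j => j < l)) ((range L).filter (fun j => l < j)) := by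
    rw [Finset.disjoint_left]
    intro j hj hj'
    rw [mem_filter] at hj hj'
    omega
  rw [hsplit, sum_union hdisj, two_mul]
  apply add_le_add
  · have hinj : Set.InjOn (fun j : ℕ => ((l : ℤ) - j).natAbs) ((range L).filter (fun j => j < l) : Finset ℕ) := by
      intro a ha b hb hab
      simp only [coe_filter, mem_range, Set.mem_setOf_eq] at ha hb
      simp only at hab
      omega
    rw [← sum_image (s := (range L).filter (fun j => j < l)) (f := c) hinj]
    apply sum_le_sum_of_subset_of_nonneg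
    · intro d hd
      rw [mem_image] at hd
      obtain ⟨j, hj, rfl⟩ := hd
      rw [mem_filter, mem_range] at hj
      rw [mem_Ico]
      omega
    · intro d _ _; exact hc d
  · have hinj : Set.InjOn (fun j : ℕ => ((l : ℤ) - j).natAbs) ((range L).filter (fun j => l < j) : Finset ℕ) := by
      intro a ha b hb hab
      simp only [coe_filter, mem_range, Set.mem_setOf_eq] at ha hb
      simp only at hab
      omega
    rw [← sum_image (s := (range L).filter (fun j => l < j)) (f := c) hinj]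
    apply sum_le_sum_of_subset_of_nonneg
    · intro d hd
      rw [mem_image] at hd
      obtain ⟨j, hj, rfl⟩ := hd
      rw [mem_filter, mem_range] at hj
      rw [mem_Ico]
      omega
    · intro d _ _; exact hc d

lemma e_sub (x y : ℝ) : e (x - y) = e x * (starRingEnd ℂ) (e y) := by
  rw [sub_eq_add_neg, e_add, e_neg]

lemma norm_sum_e_int {Ω : Type} [Fintype Ω] (x : Ω → ℝ) (a b : ℕ) :
    ‖∑ ω, e (((a : ℝ) - b) * x ω)‖ = ‖∑ ω, e ((((a : ℤ) - b).natAbs : ℕ) * x ω)‖ := by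
  rcases le_total b a with h | h
  · have h1 : ((((a : ℤ) - b).natAbs : ℕ) : ℝ) = (a : ℝ) - b := by
      have : ((a : ℤ) - b).natAbs = a - b := by omega
      rw [this, Nat.cast_sub h]
    rw [h1]
  · have h1 : ((((a : ℤ) - b).natAbs : ℕ) : ℝ) = -((a : ℝ) - b) := by
      have : ((a : ℤ) - b).natAbs = b - a := by omega
      rw [this, Nat.cast_sub h]
      ring
    rw [h1]
    have h2 : ∑ ω, e (-((a : ℝ) - b) * x ω) = (starRingEnd ℂ) (∑ ω, e (((a : ℝ) - b) * x ω)) := by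
      rw [map_sum]
      apply sum_congr rfl
      intro ω _
      rw [neg_mul, e_neg]
    rw [h2]
    exact (RCLike.norm_conj _).symm

theorem fejer_detect {Ω : Type} [Fintype Ω] [Nonempty Ω] (x : Ω → ℝ) (L : ℕ) (η : ℝ) (hη : 0 < η)
    (hL : 2 < L * η ^ 2)
    (hsum : ∑ l ∈ Ico 1 L, ‖∑ ω, e (l * x ω)‖ ≤ (1 / 4) * Fintype.card Ω) :
    ∃ ω, nd (x ω) ≤ η / 2 := by
  by_contra hcon
  push Not at hcon
  set S : ℝ → ℂ := fun t => ∑ l ∈ range L, e (l * t) with hS
  have hup : ∀ ω, ‖S (x ω)‖ ^ 2 * η ^ 2 ≤ 1 := by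
    intro ω
    have h1 := geom_bound (x ω) L
    have h2 := hcon ω
    have h3 : 0 ≤ ‖S (x ω)‖ := norm_nonneg _
    have h4 : ‖S (x ω)‖ * η ≤ 1 :=
      (mul_le_mul_of_nonneg_left (by linarith : η ≤ 2 * nd (x ω)) h3).trans h1
    have h5 : 0 ≤ ‖S (x ω)‖ * η := mul_nonneg h3 hη.le
    nlinarith
  have hcard : (0 : ℝ) < Fintype.card Ω := by
    exact_mod_cast Fintype.card_pos
  have hup2 : (∑ ω, ‖S (x ω)‖ ^ 2) * η ^ 2 ≤ Fintype.card Ω := by
    rw [sum_mul]
    calc ∑ ω, ‖S (x ω)‖ ^ 2 * η ^ 2 ≤ ∑ _ω : Ω, (1 : ℝ) := sum_le_sum fun ω _ => hup ω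
      _ = Fintype.card Ω := by simp
  set c : ℕ → ℝ := fun d => ‖∑ ω, e (d * x ω)‖ with hc
  have hcn : ∀ d, 0 ≤ c d := fun d => norm_nonneg _
  have hlow : (L : ℝ) * Fintype.card Ω - ∑ l ∈ range L, ∑ l' ∈ (range L).erase l, c ((l : ℤ) - l').natAbs ≤
      ∑ ω, ‖S (x ω)‖ ^ 2 := by
    have h1 : ∀ ω, ((‖S (x ω)‖ ^ 2 : ℝ) : ℂ) = ∑ l ∈ range L, ∑ l' ∈ range L, e (((l : ℝ) - l') * x ω) := by
      intro ω
      have : ((‖S (x ω)‖ ^ 2 : ℝ) : ℂ) = S (x ω) * (starRingEnd ℂ) (S (x ω)) := by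
        rw [Complex.mul_conj, Complex.normSq_eq_norm_sq]
      rw [this, hS]
      simp only [map_sum, sum_mul_sum]
      apply sum_congr rfl
      intro l _
      apply sum_congr rfl
      intro l' _
      rw [← e_sub]
      congr 1
      ring
    have h2 : ((∑ ω, ‖S (x ω)‖ ^ 2 : ℝ) : ℂ) = ∑ l ∈ range L, ∑ l' ∈ range L, ∑ ω, e (((l : ℝ) - l') * x ω) := by
      rw [Complex.ofReal_sum]
      simp_rw [h1]
      rw [sum_comm]
      apply sum_congr rfl
      intro l _
      rw [sum_comm]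
    have h3 : ((∑ ω, ‖S (x ω)‖ ^ 2 : ℝ) : ℂ) = (L : ℂ) * Fintype.card Ω +
        ∑ l ∈ range L, ∑ l' ∈ (range L).erase l, ∑ ω, e (((l : ℝ) - l') * x ω) := by
      rw [h2]
      have h4 : ∀ l ∈ range L, ∑ l' ∈ range L, ∑ ω, e (((l : ℝ) - l') * x ω) =
          (Fintype.card Ω : ℂ) + ∑ l' ∈ (range L).erase l, ∑ ω, e (((l : ℝ) - l') * x ω) := by
        intro l hl
        rw [← add_sum_erase _ _ hl]
        congr 1
        simp [e_zero]
      rw [sum_congr rfl h4, sum_add_distrib, sum_const, card_range, nsmul_eq_mul]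
    have h5 : ‖∑ l ∈ range L, ∑ l' ∈ (range L).erase l, ∑ ω, e (((l : ℝ) - l') * x ω)‖ ≤
        ∑ l ∈ range L, ∑ l' ∈ (range L).erase l, c ((l : ℤ) - l').natAbs := by
      refine (norm_sum_le _ _).trans (sum_le_sum fun l _ => (norm_sum_le _ _).trans (sum_le_sum fun l' _ => ?_))
      rw [norm_sum_e_int]
    have h6 := congrArg Complex.re h3
    rw [Complex.ofReal_re, Complex.add_re] at h6
    have h7 : ((L : ℂ) * (Fintype.card Ω : ℂ)).re = (L : ℝ) * Fintype.card Ω := by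
      rw [← Nat.cast_mul, Complex.natCast_re]
      push_cast
      ring
    rw [h7] at h6
    have h8 := Complex.abs_re_le_norm (∑ l ∈ range L, ∑ l' ∈ (range L).erase l, ∑ ω, e (((l : ℝ) - l') * x ω))
    have h9 := neg_abs_le (∑ l ∈ range L, ∑ l' ∈ (range L).erase l, ∑ ω, e (((l : ℝ) - l') * x ω)).re
    linarith
  have hoff : ∑ l ∈ range L, ∑ l' ∈ (range L).erase l, c ((l : ℤ) - l').natAbs ≤
      L * (2 * ((1 / 4) * Fintype.card Ω)) := by
    calc ∑ l ∈ range L, ∑ l' ∈ (range L).erase l, c ((l : ℤ) - l').natAbs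
        ≤ ∑ _l ∈ range L, 2 * ((1 / 4) * (Fintype.card Ω : ℝ)) := by
          apply sum_le_sum
          intro l hl
          refine (row_sum_le c hcn L l (mem_range.1 hl)).trans ?_
          have := hsum
          linarith
      _ = _ := by rw [sum_const, card_range, nsmul_eq_mul]
  have hfin : (L : ℝ) * Fintype.card Ω / 2 ≤ ∑ ω, ‖S (x ω)‖ ^ 2 := by linarith
  have h10 : (L : ℝ) * Fintype.card Ω / 2 * η ^ 2 ≤ Fintype.card Ω :=
    (mul_le_mul_of_nonneg_right hfin (sq_nonneg η)).trans hup2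
  have h11 : (Fintype.card Ω : ℝ) * (L * η ^ 2) ≤ Fintype.card Ω * 2 := by linarith
  have h12 := le_of_mul_le_mul_left h11 hcard
  linarith

end Vale.Agent.EgyptF
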