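import Mathlib
import Vale.Agent.EgyptF.Defs

/-!
# Piece C2. Bilinear bound.

`x1, x2` real valued in `[1,3]` with few near-coincidences:
`#{(ω,ω') : |x(ω) - x(ω')| ≤ 2^{-16k}} ≤ w^6 |Ω|^2 2^{-15k}` for `k ≤ K`.  Then for `w^60 ≤ y ≤ 2^{4K}`:
`‖E e(y x1 x2)‖ ≤ y^{-1/4}`.

Proof.  Let `N = 2^{16 κ}`, `κ` minimal with `N ≥ y^2` (`N ≤ 2^16 y^2`, `κ ≤ K` since `y^2 2^16 ≤ 2^{16 K}`).
`J(ω) = ⌊N x1(ω)⌋ ∈ [N, 3N]`.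
`|E e(y x1 x2) - E e(y (J/N) x2)| ≤ 2π·3 y/N ≤ 20/y`.
`|E_{ω,x2} e(y (J/N) x2)|^2 ≤ (∑_j P(J=j)^2) (∑_{j∈[N,3N]} |E_{x2} e(y (j/N) x2)|^2)`  (Cauchy-Schwarz),
`∑_j P(J=j)^2 = P(J=J') ≤ P(|x1 - x1'| ≤ 1/N) ≤ w^6 2^{-15κ}`,
`∑_j |E_{x2} e(y (j/N) x2)|^2 = E_{x2,x2'} ∑_j e(j y (x2-x2')/N) ≤ E min(2N+1, 1/(2‖y (x2-x2')/N‖))`, and
`‖y Δ/N‖ = y|Δ|/N` (as `|Δ| ≤ 2`, `2y/N ≤ 1/2`) so it is `≤ E min(3N, N/(2 y |Δ|))`; split according to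
`2^{-16(k+1)} < |Δ| ≤ 2^{-16k}`, `k < k₀`, and `|Δ| ≤ 2^{-16 k₀}`, where `2^{16 k₀} ≤ y < 2^{16(k₀+1)}`:
`≤ w^6 3N 2^{-15k₀} + ∑_{k<k₀} w^6 2^{-15k} N 2^{16(k+1)}/(2y) ≤ 2^{18} w^6 N y^{-15/16}`.
Total: `|E e(y (J/N) x2)|^2 ≤ 2^{20} w^{12} N^{1/16} y^{-15/16} ≤ 2^{21} w^{12} y^{-13/16}`, and `w^{12} ≤ y^{1/5}`,
`2^{21}` is negligible (`y ≥ w^60 ≥ 2^{96000}`).
-/

open Finset

namespace Vale.Agent.EgyptF

theorem bil_sum_sq_le {Ω : Type} [Fintype Ω] (x : Ω → ℝ) (α : ℝ) (L : ℕ) :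
    ∑ j ∈ range L, ‖∑ ω, e (j * (α * x ω))‖ ^ 2 ≤
      ∑ p : Ω × Ω, ‖∑ j ∈ range L, e (j * (α * (x p.1 - x p.2)))‖ := by
  have h : ((∑ j ∈ range L, ‖∑ ω, e (j * (α * x ω))‖ ^ 2 : ℝ) : ℂ) =
      ∑ p : Ω × Ω, ∑ j ∈ range L, e (j * (α * (x p.1 - x p.2))) := by
    push_cast
    rw [sum_comm]
    refine sum_congr rfl fun j _ => ?_
    rw [← Complex.mul_conj', map_sum, sum_mul_sum, Fintype.sum_prod_type]
    refine sum_congr rfl fun ω _ => sum_congr rfl fun ω' _ => ?_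
    rw [← e_neg, ← e_add]
    congr 1
    ring
  have h0 : (0 : ℝ) ≤ ∑ j ∈ range L, ‖∑ ω, e (j * (α * x ω))‖ ^ 2 :=
    sum_nonneg fun j _ => sq_nonneg _
  calc ∑ j ∈ range L, ‖∑ ω, e (j * (α * x ω))‖ ^ 2 =
        ‖((∑ j ∈ range L, ‖∑ ω, e (j * (α * x ω))‖ ^ 2 : ℝ) : ℂ)‖ := by
        rw [Complex.norm_real, Real.norm_of_nonneg h0]
    _ = ‖∑ p : Ω × Ω, ∑ j ∈ range L, e (j * (α * (x p.1 - x p.2)))‖ := by rw [h]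
    _ ≤ _ := norm_sum_le _ _

theorem bil_cs_fiber {Ω : Type} [Fintype Ω] (J : Ω → ℕ) (L : ℕ) (hJ : ∀ ω, J ω < L)
    (T : ℕ → ℂ) : ‖∑ ω, T (J ω)‖ ^ 2 ≤
      ((univ.filter (fun p : Ω × Ω => J p.1 = J p.2)).card : ℝ) * ∑ j ∈ range L, ‖T j‖ ^ 2 := by
  classical
  obtain ⟨c, hc⟩ : ∃ c : ℕ → ℝ, c = fun j => ((univ.filter (fun ω => J ω = j)).card : ℝ) :=
    ⟨_, rfl⟩
  have h1 : ∑ ω, T (J ω) = ∑ j ∈ range L, (c j : ℂ) * T j := by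
    rw [← sum_fiberwise_of_maps_to (s := univ) (t := range L) (g := J)
      (fun ω _ => mem_range.mpr (hJ ω))]
    refine sum_congr rfl fun j _ => ?_
    rw [sum_congr rfl (fun ω hω => by rw [(mem_filter.mp hω).2] : ∀ ω ∈ univ.filter (fun ω => J ω = j),
      T (J ω) = T j)]
    rw [sum_const, nsmul_eq_mul, hc]
    push_cast
    rfl
  have h2 : ‖∑ ω, T (J ω)‖ ≤ ∑ j ∈ range L, c j * ‖T j‖ := by
    rw [h1]
    refine (norm_sum_le _ _).trans (le_of_eq (sum_congr rfl fun j _ => ?_))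
    rw [norm_mul, Complex.norm_real, Real.norm_of_nonneg (by rw [hc]; positivity)]
  have h3 : (∑ j ∈ range L, c j ^ 2) =
      ((univ.filter (fun p : Ω × Ω => J p.1 = J p.2)).card : ℝ) := by
    rw [card_eq_sum_card_fiberwise (f := fun p : Ω × Ω => J p.1) (t := range L)
      (fun p _ => mem_coe.mpr (mem_range.mpr (hJ _)))]
    push_cast
    refine sum_congr rfl fun j _ => ?_
    have : (univ.filter (fun p : Ω × Ω => J p.1 = J p.2)).filter (fun p => J p.1 = j) =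
        (univ.filter (fun ω => J ω = j)) ×ˢ (univ.filter (fun ω => J ω = j)) := by
      ext ⟨a, b⟩
      simp only [mem_filter, mem_univ, true_and, mem_product]
      constructor
      · rintro ⟨h1, h2⟩
        exact ⟨h2, h1 ▸ h2⟩
      · rintro ⟨h1, h2⟩
        exact ⟨h1.trans h2.symm, h1⟩
    rw [this, card_product, hc]
    push_cast
    ring
  calc ‖∑ ω, T (J ω)‖ ^ 2 ≤ (∑ j ∈ range L, c j * ‖T j‖) ^ 2 :=
        pow_le_pow_left₀ (norm_nonneg _) h2 2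
    _ ≤ (∑ j ∈ range L, c j ^ 2) * ∑ j ∈ range L, ‖T j‖ ^ 2 := sum_mul_sq_le_sq_mul_sq _ _ _
    _ = _ := by rw [h3]

/-- pointwise bound of the geometric sum -/
theorem bil_point (N y α : ℝ) (L k₀ : ℕ) (hy : 0 < y) (hα : α * N = y) (hN : 0 < N)
    (hαs : α * 4 ≤ 1) (hL : (L : ℝ) ≤ 4 * N) (D : ℝ) (hD : |D| ≤ 2) :
    ‖∑ j ∈ range L, e (j * (α * D))‖ ≤
      4 * N * (if |D| ≤ 1 / 2 ^ (16 * k₀) then 1 else 0) +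
      ∑ k ∈ range k₀, N / (2 * y) * 2 ^ (16 * (k + 1)) * (if |D| ≤ 1 / 2 ^ (16 * k) then 1 else 0) +
      N / (2 * y) := by
  have hα0 : 0 < α := by
    by_contra h
    have : α * N ≤ 0 := mul_nonpos_of_nonpos_of_nonneg (not_lt.mp h) hN.le
    linarith
  obtain ⟨G, hG⟩ : ∃ G, G = ‖∑ j ∈ range L, e (j * (α * D))‖ := ⟨_, rfl⟩
  have hG0 : 0 ≤ G := by rw [hG]; exact norm_nonneg _
  have hG1 : G ≤ 4 * N := by
    rw [hG]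
    refine (norm_sum_le _ _).trans ?_
    simp only [norm_e, sum_const, card_range, nsmul_eq_mul, mul_one]
    exact hL
  have hG2 : G * |D| ≤ N / (2 * y) := by
    have h1 := geom_bound (α * D) L
    rw [← hG, nd_of_abs_le_half (by rw [abs_mul, abs_of_pos hα0]; nlinarith), abs_mul,
      abs_of_pos hα0] at h1
    rw [le_div_iff₀ (by positivity), ← hα]
    have h2 := mul_le_mul_of_nonneg_right h1 hN.le
    calc G * |D| * (2 * (α * N)) = G * (2 * (α * |D|)) * N := by ring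
      _ ≤ 1 * N := h2
      _ = N := one_mul N
  rw [← hG]
  have hsum0 : ∀ k ∈ range k₀, (0 : ℝ) ≤
      N / (2 * y) * 2 ^ (16 * (k + 1)) * (if |D| ≤ 1 / 2 ^ (16 * k) then 1 else 0) := by
    intro k _
    split_ifs <;> positivity
  have hlast : 0 ≤ N / (2 * y) := by positivity
  by_cases h0 : |D| ≤ 1 / 2 ^ (16 * k₀)
  · rw [if_pos h0]
    have := sum_nonneg hsum0
    linarith
  · rw [if_neg h0]
    have hex : ∃ k, ¬ |D| ≤ 1 / 2 ^ (16 * k) := ⟨k₀, h0⟩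
    classical
    obtain ⟨k', hk'⟩ : ∃ k', k' = Nat.find hex := ⟨_, rfl⟩
    have hspec := Nat.find_spec hex
    have hle : k' ≤ k₀ := by rw [hk']; exact Nat.find_min' hex h0
    rw [← hk'] at hspec
    rcases Nat.eq_zero_or_pos k' with hz | hz
    · rw [hz] at hspec
      simp only [mul_zero, pow_zero, div_one, not_le] at hspec
      have h3 : G ≤ G * |D| := by nlinarith
      have := sum_nonneg hsum0
      linarith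
    · obtain ⟨k, rfl⟩ : ∃ k, k' = k + 1 := ⟨k' - 1, by omega⟩
      have hk : |D| ≤ 1 / 2 ^ (16 * k) := by
        by_contra hcon
        have := Nat.find_min' hex hcon
        omega
      have hkm : k ∈ range k₀ := mem_range.mpr (by omega)
      have h4 := single_le_sum hsum0 hkm
      simp only [if_pos hk, mul_one] at h4
      have h5 : G ≤ N / (2 * y) * 2 ^ (16 * (k + 1)) := by
        rw [not_le] at hspec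
        have hp : (0 : ℝ) < 2 ^ (16 * (k + 1)) := by positivity
        have h6 : G * (1 / 2 ^ (16 * (k + 1))) ≤ N / (2 * y) :=
          (mul_le_mul_of_nonneg_left hspec.le hG0).trans hG2
        rw [mul_one_div, div_le_iff₀ hp] at h6
        exact h6
      linarith

/-- final numerics -/
theorem bil_final (s s1 n y W Z : ℝ) (hs : 0 ≤ s) (_ : 0 ≤ s1) (hn : 0 ≤ n) (hW : 4096 ≤ W)
    (hZ : 0 < Z) (h1 : s ≤ s1 + 20 * n / y) (h2 : s1 ^ 2 * Z ^ 13 ≤ 2 ^ 19 * W ^ 12 * n ^ 2)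
    (hyZ : y ≤ (2 * Z) ^ 16) (hyW : W ^ 60 ≤ y) (hWZ : W ^ 3 ≤ 2 * Z) : s ^ 4 * y ≤ n ^ 4 := by
  have hW0 : 0 < W := by linarith
  have hy4 : 4096 ≤ y := by
    calc (4096 : ℝ) ≤ W := hW
      _ = W ^ 1 := (pow_one W).symm
      _ ≤ W ^ 60 := pow_le_pow_right₀ (by linarith) (by norm_num)
      _ ≤ y := hyW
  have hy0 : 0 < y := by linarith
  obtain ⟨b, hb⟩ : ∃ b, b = 20 * n / y := ⟨_, rfl⟩
  have hb0 : 0 ≤ b := by rw [hb]; positivity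
  have hby : b * y = 20 * n := by rw [hb]; field_simp
  rw [← hb] at h1
  have e1 : s ^ 4 ≤ 8 * (s1 ^ 4 + b ^ 4) := by
    have e2 : s ^ 2 ≤ (s1 + b) ^ 2 := pow_le_pow_left₀ hs h1 2
    have e3 : (s1 + b) ^ 2 ≤ 2 * (s1 ^ 2 + b ^ 2) := by nlinarith [sq_nonneg (s1 - b)]
    have e4 : s ^ 2 ≤ 2 * (s1 ^ 2 + b ^ 2) := e2.trans e3
    have e5 : (s ^ 2) ^ 2 ≤ (2 * (s1 ^ 2 + b ^ 2)) ^ 2 := pow_le_pow_left₀ (sq_nonneg _) e4 2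
    have e6 : (s1 ^ 2 + b ^ 2) ^ 2 ≤ 2 * ((s1 ^ 2) ^ 2 + (b ^ 2) ^ 2) := by
      nlinarith [sq_nonneg (s1 ^ 2 - b ^ 2)]
    calc s ^ 4 = (s ^ 2) ^ 2 := by ring
      _ ≤ (2 * (s1 ^ 2 + b ^ 2)) ^ 2 := e5
      _ = 4 * (s1 ^ 2 + b ^ 2) ^ 2 := by ring
      _ ≤ 4 * (2 * ((s1 ^ 2) ^ 2 + (b ^ 2) ^ 2)) := by gcongr
      _ = _ := by ring
  -- the first term
  have e7 : 16 * (s1 ^ 4 * y) ≤ n ^ 4 := by
    have f1 : (s1 ^ 2 * Z ^ 13) ^ 2 ≤ (2 ^ 19 * W ^ 12 * n ^ 2) ^ 2 :=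
      pow_le_pow_left₀ (by positivity) h2 2
    have f2 : s1 ^ 4 * y * Z ^ 10 ≤ 2 ^ 54 * W ^ 24 * n ^ 4 := by
      have f3 : s1 ^ 4 * y * Z ^ 10 ≤ s1 ^ 4 * (2 * Z) ^ 16 * Z ^ 10 := by gcongr
      calc s1 ^ 4 * y * Z ^ 10 ≤ s1 ^ 4 * (2 * Z) ^ 16 * Z ^ 10 := f3
        _ = 2 ^ 16 * (s1 ^ 2 * Z ^ 13) ^ 2 := by ring
        _ ≤ 2 ^ 16 * (2 ^ 19 * W ^ 12 * n ^ 2) ^ 2 := by gcongr
        _ = _ := by ring
    have f4 : (W ^ 3) ^ 10 ≤ (2 * Z) ^ 10 := pow_le_pow_left₀ (by positivity) hWZ 10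
    have f5 : (2 : ℝ) ^ 72 ≤ W ^ 6 := by
      calc (2 : ℝ) ^ 72 = 4096 ^ 6 := by norm_num
        _ ≤ W ^ 6 := pow_le_pow_left₀ (by norm_num) hW 6
    have f6 : 2 ^ 72 * W ^ 24 ≤ 2 ^ 10 * Z ^ 10 := by
      calc 2 ^ 72 * W ^ 24 ≤ W ^ 6 * W ^ 24 := by gcongr
        _ = (W ^ 3) ^ 10 := by ring
        _ ≤ (2 * Z) ^ 10 := f4
        _ = _ := by ring
    have f7 : 2 ^ 62 * W ^ 24 ≤ Z ^ 10 := by linarith
    have f8 : 16 * (s1 ^ 4 * y) * Z ^ 10 ≤ n ^ 4 * Z ^ 10 := by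
      calc 16 * (s1 ^ 4 * y) * Z ^ 10 = 16 * (s1 ^ 4 * y * Z ^ 10) := by ring
        _ ≤ 16 * (2 ^ 54 * W ^ 24 * n ^ 4) := by gcongr
        _ = 2 ^ 58 * W ^ 24 * n ^ 4 := by ring
        _ ≤ 2 ^ 62 * W ^ 24 * n ^ 4 := by gcongr <;> norm_num
        _ ≤ Z ^ 10 * n ^ 4 := by gcongr
        _ = _ := by ring
    exact le_of_mul_le_mul_right f8 (by positivity)
  have e8 : 16 * (b ^ 4 * y) ≤ n ^ 4 := by
    have g1 : (b * y) ^ 4 = 160000 * n ^ 4 := by rw [hby]; ring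
    have g2 : (4096 : ℝ) ^ 3 ≤ y ^ 3 := pow_le_pow_left₀ (by norm_num) hy4 3
    have g3 : 16 * (b ^ 4 * y) * y ^ 3 ≤ n ^ 4 * y ^ 3 := by
      calc 16 * (b ^ 4 * y) * y ^ 3 = 16 * (b * y) ^ 4 := by ring
        _ = 2560000 * n ^ 4 := by rw [g1]; ring
        _ ≤ 4096 ^ 3 * n ^ 4 := by gcongr; norm_num
        _ ≤ y ^ 3 * n ^ 4 := by gcongr
        _ = _ := by ring
    exact le_of_mul_le_mul_right g3 (by positivity)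
  calc s ^ 4 * y ≤ 8 * (s1 ^ 4 + b ^ 4) * y := by gcongr
    _ = (16 * (s1 ^ 4 * y) + 16 * (b ^ 4 * y)) / 2 := by ring
    _ ≤ (n ^ 4 + n ^ 4) / 2 := by gcongr
    _ = n ^ 4 := by ring

/-- the dyadic parameters -/
theorem bil_param (y W : ℝ) (K : ℕ) (hW : 4096 ≤ W) (hy1 : W ^ 60 ≤ y) (hy4 : 4096 ≤ y)
    (hy2 : y ≤ 2 ^ (4 * K)) :
    ∃ κ k₀ : ℕ, κ ≤ K ∧ k₀ ≤ K ∧ y ^ 2 ≤ 2 ^ (16 * κ) ∧ ((2 : ℝ) ^ k₀) ^ 16 ≤ y ∧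
      y < (2 * 2 ^ k₀) ^ 16 ∧ (2 : ℝ) ^ κ ≤ 8 * (2 ^ k₀) ^ 2 ∧ W ^ 3 ≤ 2 * 2 ^ k₀ := by
  classical
  have hy0 : 0 < y := by linarith
  have hKy : y ^ 2 ≤ 2 ^ (16 * K) := by
    calc y ^ 2 ≤ (2 ^ (4 * K)) ^ 2 := pow_le_pow_left₀ hy0.le hy2 2
      _ = 2 ^ (8 * K) := by rw [← pow_mul]; congr 1; ring
      _ ≤ 2 ^ (16 * K) := pow_le_pow_right₀ (by norm_num) (by omega)
  have hex1 : ∃ κ : ℕ, y ^ 2 ≤ 2 ^ (16 * κ) := ⟨K, hKy⟩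
  obtain ⟨κ, hκ⟩ : ∃ κ, κ = Nat.find hex1 := ⟨_, rfl⟩
  have hκ1 : y ^ 2 ≤ 2 ^ (16 * κ) := by rw [hκ]; exact Nat.find_spec hex1
  have hκK : κ ≤ K := by rw [hκ]; exact Nat.find_min' hex1 hKy
  have hκ0 : κ ≠ 0 := by
    intro h0
    rw [h0, mul_zero, pow_zero] at hκ1
    nlinarith
  have hκ2 : 2 ^ (16 * (κ - 1)) < y ^ 2 := by
    by_contra hcon
    have := Nat.find_min' hex1 (not_lt.mp hcon)
    omega
  have hex2 : ∃ k : ℕ, y < 2 ^ (16 * (k + 1)) := by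
    refine ⟨K, lt_of_le_of_lt hy2 ?_⟩
    exact pow_lt_pow_right₀ (by norm_num) (by omega)
  obtain ⟨k₀, hk₀⟩ : ∃ k₀, k₀ = Nat.find hex2 := ⟨_, rfl⟩
  have hk1 : y < 2 ^ (16 * (k₀ + 1)) := by rw [hk₀]; exact Nat.find_spec hex2
  have hk2 : 2 ^ (16 * k₀) ≤ y := by
    rcases Nat.eq_zero_or_pos k₀ with h0 | h0
    · rw [h0, mul_zero, pow_zero]
      linarith
    · by_contra hcon
      have : y < 2 ^ (16 * ((k₀ - 1) + 1)) := by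
        rw [Nat.sub_add_cancel h0]
        exact not_le.mp hcon
      have := Nat.find_min' hex2 this
      omega
  have hk₀K : k₀ ≤ K := by
    have h3 : (2 : ℝ) ^ (16 * k₀) ≤ 2 ^ (4 * K) := hk2.trans hy2
    have := (pow_le_pow_iff_right₀ (by norm_num : (1 : ℝ) < 2)).mp h3
    omega
  obtain ⟨Z, hZ⟩ : ∃ Z : ℝ, Z = 2 ^ k₀ := ⟨_, rfl⟩
  obtain ⟨P, hP⟩ : ∃ P : ℝ, P = 2 ^ κ := ⟨_, rfl⟩
  have hZ0 : 0 < Z := by rw [hZ]; positivity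
  have hP0 : 0 < P := by rw [hP]; positivity
  have hZy : Z ^ 16 ≤ y := by
    rw [hZ, ← pow_mul, mul_comm]; exact hk2
  have hyZ : y < (2 * Z) ^ 16 := by
    rw [hZ, ← pow_succ', ← pow_mul, mul_comm]; exact hk1
  have hP2 : (P / 2) ^ 16 < y ^ 2 := by
    have : P / 2 = 2 ^ (κ - 1) := by
      rw [hP]
      obtain ⟨m, hm⟩ : ∃ m, κ = m + 1 := ⟨κ - 1, by omega⟩
      rw [hm, Nat.add_sub_cancel, pow_succ]
      ring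
    rw [this, ← pow_mul, mul_comm]
    exact hκ2
  have hPZ : P ≤ 8 * Z ^ 2 := by
    have h3 : (P / 2) ^ 16 < (4 * Z ^ 2) ^ 16 := by
      calc (P / 2) ^ 16 < y ^ 2 := hP2
        _ ≤ ((2 * Z) ^ 16) ^ 2 := pow_le_pow_left₀ hy0.le hyZ.le 2
        _ = _ := by ring
    have := lt_of_pow_lt_pow_left₀ 16 (by positivity) h3
    linarith
  have hWZ : W ^ 3 ≤ 2 * Z := by
    have h3 : (W ^ 3) ^ 16 ≤ (2 * Z) ^ 16 := by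
      calc (W ^ 3) ^ 16 = W ^ 48 := by ring
        _ ≤ W ^ 60 := pow_le_pow_right₀ (by linarith) (by norm_num)
        _ ≤ y := hy1
        _ ≤ _ := hyZ.le
    exact le_of_pow_le_pow_left₀ (by norm_num) (by positivity) h3
  rw [hZ] at hZy hyZ hPZ hWZ
  rw [hP] at hPZ
  exact ⟨κ, k₀, hκK, hk₀K, hκ1, hZy, hyZ, hPZ, hWZ⟩

/-- the second moment -/
theorem bil_second {Ω2 : Type} [Fintype Ω2] (x2 : Ω2 → ℝ) (h2 : ∀ ω, 1 ≤ x2 ω ∧ x2 ω ≤ 3)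
    (W n2 y N α : ℝ) (L k₀ K : ℕ) (hn2 : n2 = Fintype.card Ω2) (hk₀K : k₀ ≤ K) (hW : 1 ≤ W)
    (nc2 : ∀ k : ℕ, k ≤ K → ((univ.filter (fun p : Ω2 × Ω2 => |x2 p.1 - x2 p.2| ≤ 1 / 2 ^ (16 * k))).card : ℝ) ≤
      W ^ 6 * n2 ^ 2 / 2 ^ (15 * k))
    (hy0 : 0 < y) (hZy : ((2 : ℝ) ^ k₀) ^ 16 ≤ y)
    (hαN : α * N = y) (hN0 : 0 < N) (hαs : α * 4 ≤ 1) (hLN : (L : ℝ) ≤ 4 * N) :
    ∑ j ∈ range L, ‖∑ ω, e (j * (α * x2 ω))‖ ^ 2 ≤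
      2 ^ 16 * W ^ 6 * N * n2 ^ 2 / (2 ^ k₀) ^ 15 := by
  classical
  obtain ⟨Z, hZ⟩ : ∃ Z : ℝ, Z = 2 ^ k₀ := ⟨_, rfl⟩
  have hZ0 : 0 < Z := by rw [hZ]; positivity
  have hZ1 : 1 ≤ Z := by rw [hZ]; exact one_le_pow₀ (by norm_num)
  have hn20 : 0 ≤ n2 := by rw [hn2]; positivity
  have hW0 : 0 < W := by linarith
  rw [← hZ] at hZy ⊢
  refine (bil_sum_sq_le x2 α L).trans ?_
  have k3 : ∀ p : Ω2 × Ω2, ‖∑ j ∈ range L, e (j * (α * (x2 p.1 - x2 p.2)))‖ ≤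
      4 * N * (if |x2 p.1 - x2 p.2| ≤ 1 / 2 ^ (16 * k₀) then 1 else 0) +
      ∑ k ∈ range k₀, N / (2 * y) * 2 ^ (16 * (k + 1)) *
        (if |x2 p.1 - x2 p.2| ≤ 1 / 2 ^ (16 * k) then 1 else 0) + N / (2 * y) := by
    intro p
    refine bil_point N y α L k₀ hy0 hαN hN0 hαs hLN _ ?_
    rw [abs_le]
    have e1 := h2 p.1
    have e2 := h2 p.2
    constructor <;> linarith [e1.1, e1.2, e2.1, e2.2]
  refine (sum_le_sum fun p _ => k3 p).trans ?_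
  rw [sum_add_distrib, sum_add_distrib, ← mul_sum, sum_boole, sum_comm]
  have k4 : ∀ k ∈ range k₀, ∑ p : Ω2 × Ω2, N / (2 * y) * 2 ^ (16 * (k + 1)) *
      (if |x2 p.1 - x2 p.2| ≤ 1 / 2 ^ (16 * k) then 1 else 0) ≤
      N / (2 * y) * 2 ^ 16 * (W ^ 6 * n2 ^ 2) * 2 ^ k := by
    intro k hk
    rw [← mul_sum, sum_boole]
    have := nc2 k ((mem_range.mp hk).le.trans hk₀K)
    calc N / (2 * y) * 2 ^ (16 * (k + 1)) *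
          ((univ.filter (fun p : Ω2 × Ω2 => |x2 p.1 - x2 p.2| ≤ 1 / 2 ^ (16 * k))).card : ℝ) ≤
          N / (2 * y) * 2 ^ (16 * (k + 1)) * (W ^ 6 * n2 ^ 2 / 2 ^ (15 * k)) := by gcongr
      _ = N / (2 * y) * 2 ^ 16 * (W ^ 6 * n2 ^ 2) * 2 ^ k := by
          have e1 : (2 : ℝ) ^ (16 * (k + 1)) = 2 ^ 16 * 2 ^ (15 * k) * 2 ^ k := by
            rw [← pow_add, ← pow_add]
            congr 1
            ring
          rw [e1]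
          field_simp
  have k5 : ∑ k ∈ range k₀, (2 : ℝ) ^ k ≤ Z := by
    rw [geom_sum_eq (by norm_num), hZ]
    norm_num
  have k6 : (1 : ℝ) / y ≤ 1 / Z ^ 16 := one_div_le_one_div_of_le (by positivity) hZy
  have k7 : (∑ _p : Ω2 × Ω2, N / (2 * y)) = n2 ^ 2 * (N / (2 * y)) := by
    rw [sum_const, card_univ, Fintype.card_prod, nsmul_eq_mul, hn2]
    push_cast
    ring
  rw [k7]
  have k8 := nc2 k₀ hk₀K
  have k9 : (2 : ℝ) ^ (15 * k₀) = Z ^ 15 := by rw [hZ, ← pow_mul, mul_comm k₀]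
  rw [k9] at k8
  have hW6 : 1 ≤ W ^ 6 := one_le_pow₀ (by linarith)
  have q1 := sum_le_sum k4
  rw [← mul_sum] at q1
  obtain ⟨c0, hc0⟩ : ∃ c0 : ℝ, c0 = ((univ.filter (fun p : Ω2 × Ω2 =>
            |x2 p.1 - x2 p.2| ≤ 1 / 2 ^ (16 * k₀))).card : ℝ) := ⟨_, rfl⟩
  rw [← hc0] at k8 ⊢
  have q2 : 4 * N * c0 ≤ 4 * N * (W ^ 6 * n2 ^ 2 / Z ^ 15) := by gcongr
  have q3 : N / (2 * y) * 2 ^ 16 * (W ^ 6 * n2 ^ 2) * (∑ k ∈ range k₀, 2 ^ k) ≤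
      N / (2 * y) * 2 ^ 16 * (W ^ 6 * n2 ^ 2) * Z := by gcongr
  have q4 : n2 ^ 2 * (N / (2 * y)) ≤ (W ^ 6 * n2 ^ 2) * (N / (2 * y)) := by
    gcongr
    nlinarith [sq_nonneg n2]
  refine (add_le_add (add_le_add q2 (q1.trans q3)) q4).trans ?_
  calc 4 * N * (W ^ 6 * n2 ^ 2 / Z ^ 15) +
        N / (2 * y) * 2 ^ 16 * (W ^ 6 * n2 ^ 2) * Z + (W ^ 6 * n2 ^ 2) * (N / (2 * y))
      = (W ^ 6 * n2 ^ 2 * N) * (4 / Z ^ 15 + (2 ^ 15 * Z + 1 / 2) * (1 / y)) := by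
        field_simp
        ring
    _ ≤ (W ^ 6 * n2 ^ 2 * N) * (4 / Z ^ 15 + (2 ^ 15 * Z + Z) * (1 / Z ^ 16)) := by
        gcongr
        linarith
    _ = (W ^ 6 * n2 ^ 2 * N) * ((4 + 2 ^ 15 + 1) / Z ^ 15) := by
        field_simp
        ring
    _ ≤ (W ^ 6 * n2 ^ 2 * N) * (2 ^ 16 / Z ^ 15) := by
        gcongr
        norm_num
    _ = _ := by ring

/-- replacing `x1` by `J / N` -/
theorem bil_approx {Ω1 Ω2 : Type} [Fintype Ω1] [Fintype Ω2] (x1 : Ω1 → ℝ) (x2 : Ω2 → ℝ)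
    (h2 : ∀ ω, 1 ≤ x2 ω ∧ x2 ω ≤ 3) (J : Ω1 → ℕ) (y N α : ℝ) (hy0 : 0 < y) (hα0 : 0 < α)
    (hαN : α * N = y) (hαy : α * y ≤ 1)
    (hJ1 : ∀ ω, (J ω : ℝ) ≤ N * x1 ω) (hJ2 : ∀ ω, N * x1 ω < J ω + 1) :
    ‖(∑ ω1, ∑ ω2, e (y * (x1 ω1 * x2 ω2))) - ∑ ω1, ∑ ω, e ((J ω1 : ℝ) * (α * x2 ω))‖ ≤
      20 * ((Fintype.card Ω1 : ℝ) * Fintype.card Ω2) / y := by
  rw [← sum_sub_distrib]
  calc ‖∑ ω1, ((∑ ω2, e (y * (x1 ω1 * x2 ω2))) - ∑ ω, e ((J ω1 : ℝ) * (α * x2 ω)))‖ ≤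
        ∑ ω1 : Ω1, ‖(∑ ω2, e (y * (x1 ω1 * x2 ω2))) - ∑ ω, e ((J ω1 : ℝ) * (α * x2 ω))‖ :=
        norm_sum_le _ _
    _ ≤ ∑ _ω1 : Ω1, ∑ _ω2 : Ω2, 20 / y := by
        refine sum_le_sum fun ω1 _ => ?_
        rw [← sum_sub_distrib]
        refine (norm_sum_le _ _).trans (sum_le_sum fun ω2 _ => ?_)
        refine (norm_e_sub_e_le _ _).trans ?_
        have h3 : y * (x1 ω1 * x2 ω2) - J ω1 * (α * x2 ω2) =
            α * x2 ω2 * (N * x1 ω1 - J ω1) := by rw [← hαN]; ring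
        rw [h3, abs_mul, abs_of_nonneg (by have := (h2 ω2).1; positivity : 0 ≤ α * x2 ω2)]
        have h4 : |N * x1 ω1 - J ω1| ≤ 1 := by
          rw [abs_le]; constructor <;> linarith [hJ1 ω1, hJ2 ω1]
        have h5 : α ≤ 1 / y := by rw [le_div_iff₀ hy0]; exact hαy
        have h6 := (h2 ω2).2
        have h7 := (h2 ω2).1
        calc 2 * Real.pi * (α * x2 ω2 * |N * x1 ω1 - J ω1|) ≤
              2 * Real.pi * (1 / y * 3 * 1) := by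
              have := Real.pi_pos
              gcongr
          _ = 6 * Real.pi / y := by ring
          _ ≤ 20 / y := by
              gcongr
              have := Real.pi_lt_d2
              linarith
    _ = _ := by
        simp only [sum_const, card_univ, nsmul_eq_mul]
        ring

theorem bilin {Ω1 Ω2 : Type} [Fintype Ω1] [Fintype Ω2] (x1 : Ω1 → ℝ) (x2 : Ω2 → ℝ) (w K : ℕ)
    (hw : 2 ^ 1600 ≤ w)
    (h1 : ∀ ω, 1 ≤ x1 ω ∧ x1 ω ≤ 3) (h2 : ∀ ω, 1 ≤ x2 ω ∧ x2 ω ≤ 3)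
    (nc1 : ∀ k : ℕ, k ≤ K → ((univ.filter (fun p : Ω1 × Ω1 => |x1 p.1 - x1 p.2| ≤ 1 / 2 ^ (16 * k))).card : ℝ) ≤
      (w : ℝ) ^ 6 * (Fintype.card Ω1 : ℝ) ^ 2 / 2 ^ (15 * k))
    (nc2 : ∀ k : ℕ, k ≤ K → ((univ.filter (fun p : Ω2 × Ω2 => |x2 p.1 - x2 p.2| ≤ 1 / 2 ^ (16 * k))).card : ℝ) ≤
      (w : ℝ) ^ 6 * (Fintype.card Ω2 : ℝ) ^ 2 / 2 ^ (15 * k))
    (y : ℝ) (hy1 : (w : ℝ) ^ 60 ≤ y) (hy2 : y ≤ 2 ^ (4 * K)) :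
    ‖∑ ω1, ∑ ω2, e (y * (x1 ω1 * x2 ω2))‖ ^ 4 * y ≤
      ((Fintype.card Ω1 : ℝ) * Fintype.card Ω2) ^ 4 := by
  classical
  obtain ⟨W, hWdef⟩ : ∃ W : ℝ, W = w := ⟨_, rfl⟩
  rw [← hWdef] at nc1 nc2 hy1
  have hW : 4096 ≤ W := by
    rw [hWdef]
    have : 2 ^ 12 ≤ w := (Nat.pow_le_pow_right (by norm_num) (by norm_num)).trans hw
    calc (4096 : ℝ) = ((2 ^ 12 : ℕ) : ℝ) := by norm_num
      _ ≤ w := by exact_mod_cast this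
  clear hw
  have hW0 : 0 < W := by linarith
  have hy4 : 4096 ≤ y := by
    calc (4096 : ℝ) ≤ W := hW
      _ = W ^ 1 := (pow_one W).symm
      _ ≤ W ^ 60 := pow_le_pow_right₀ (by linarith) (by norm_num)
      _ ≤ y := hy1
  have hy0 : 0 < y := by linarith
  obtain ⟨κ, k₀, hκK, hk₀K, hκ1, hZy, hyZ, hPZ, hWZ⟩ := bil_param y W K hW hy1 hy4 hy2
  obtain ⟨N, hN⟩ : ∃ N : ℕ, N = 2 ^ (16 * κ) := ⟨_, rfl⟩
  have hNr : (N : ℝ) = 2 ^ (16 * κ) := by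
    rw [hN]
    push_cast
    rfl
  have hN0 : (0 : ℝ) < N := by rw [hNr]; positivity
  have hNy : y ^ 2 ≤ N := by rw [hNr]; exact hκ1
  obtain ⟨α, hα⟩ : ∃ α : ℝ, α = y / N := ⟨_, rfl⟩
  have hαN : α * N = y := by rw [hα]; field_simp
  have hα0 : 0 < α := by rw [hα]; positivity
  have hαy : α * y ≤ 1 := by
    rw [hα, div_mul_eq_mul_div, div_le_one hN0]
    nlinarith
  have hαs : α * 4 ≤ 1 := by nlinarith
  obtain ⟨J, hJ⟩ : ∃ J : Ω1 → ℕ, J = fun ω => ⌊N * x1 ω⌋₊ := ⟨_, rfl⟩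
  have hJ1 : ∀ ω, (J ω : ℝ) ≤ N * x1 ω := by
    intro ω
    rw [hJ]
    exact Nat.floor_le (by have := (h1 ω).1; positivity)
  have hJ2 : ∀ ω, N * x1 ω < J ω + 1 := by
    intro ω
    rw [hJ]
    exact Nat.lt_floor_add_one _
  have hJL : ∀ ω, J ω < 3 * N + 1 := by
    intro ω
    have h3 : (J ω : ℝ) ≤ 3 * N := by
      calc (J ω : ℝ) ≤ N * x1 ω := hJ1 ω
        _ ≤ N * 3 := by gcongr; exact (h1 ω).2
        _ = 3 * N := by ring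
    have h4 : J ω ≤ 3 * N := by exact_mod_cast h3
    omega
  have hLN : ((3 * N + 1 : ℕ) : ℝ) ≤ 4 * N := by
    push_cast
    nlinarith
  have st1 := bil_approx x1 x2 h2 J y N α hy0 hα0 hαN hαy hJ1 hJ2
  have st3 := bil_cs_fiber J (3 * N + 1) hJL (fun j => ∑ ω, e ((j : ℝ) * (α * x2 ω)))
  obtain ⟨n1, hn1⟩ : ∃ n1 : ℝ, n1 = Fintype.card Ω1 := ⟨_, rfl⟩
  obtain ⟨n2, hn2⟩ : ∃ n2 : ℝ, n2 = Fintype.card Ω2 := ⟨_, rfl⟩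
  have hn10 : 0 ≤ n1 := by rw [hn1]; positivity
  have hn20 : 0 ≤ n2 := by rw [hn2]; positivity
  rw [← hn1] at nc1 st1 ⊢
  rw [← hn2] at nc2 st1 ⊢
  have st5 := bil_second x2 h2 W n2 y N α (3 * N + 1) k₀ K hn2 hk₀K (by linarith) nc2 hy0 hZy hαN
    hN0 hαs hLN
  have st4 : ((univ.filter (fun p : Ω1 × Ω1 => J p.1 = J p.2)).card : ℝ) ≤
      W ^ 6 * n1 ^ 2 / 2 ^ (15 * κ) := by
    refine le_trans ?_ (nc1 κ hκK)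
    have : univ.filter (fun p : Ω1 × Ω1 => J p.1 = J p.2) ⊆
        univ.filter (fun p : Ω1 × Ω1 => |x1 p.1 - x1 p.2| ≤ 1 / 2 ^ (16 * κ)) := by
      intro p hp
      simp only [mem_filter, mem_univ, true_and] at hp ⊢
      have e1 := hJ1 p.1
      have e2 := hJ2 p.1
      have e3 := hJ1 p.2
      have e4 := hJ2 p.2
      rw [hp] at e1 e2
      rw [← hNr, abs_le]
      constructor
      · rw [neg_le, le_div_iff₀ hN0]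
        nlinarith
      · rw [le_div_iff₀ hN0]
        nlinarith
    exact_mod_cast card_le_card this
  obtain ⟨S, hS⟩ : ∃ S, S = ∑ ω1, ∑ ω2, e (y * (x1 ω1 * x2 ω2)) := ⟨_, rfl⟩
  obtain ⟨S1, hS1⟩ : ∃ S1, S1 = ∑ ω1, ∑ ω, e ((J ω1 : ℝ) * (α * x2 ω)) := ⟨_, rfl⟩
  rw [← hS, ← hS1] at st1
  rw [← hS1] at st3
  rw [← hS]
  have st2 : ‖S‖ ≤ ‖S1‖ + 20 * (n1 * n2) / y := by
    calc ‖S‖ = ‖S1 + (S - S1)‖ := by congr 1; ring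
      _ ≤ ‖S1‖ + ‖S - S1‖ := norm_add_le _ _
      _ ≤ _ := by gcongr
  obtain ⟨Z, hZ⟩ : ∃ Z : ℝ, Z = 2 ^ k₀ := ⟨_, rfl⟩
  obtain ⟨P, hP⟩ : ∃ P : ℝ, P = 2 ^ κ := ⟨_, rfl⟩
  have hZ0 : 0 < Z := by rw [hZ]; positivity
  have hP0 : 0 < P := by rw [hP]; positivity
  rw [← hZ] at hZy hyZ hPZ hWZ st5
  rw [← hP] at hPZ
  rw [mul_comm 15 κ, pow_mul, ← hP] at st4
  rw [mul_comm 16 κ, pow_mul, ← hP] at hNr
  have st6 : ‖S1‖ ^ 2 * Z ^ 13 ≤ 2 ^ 19 * W ^ 12 * (n1 * n2) ^ 2 := by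
    have st7 : ‖S1‖ ^ 2 ≤
        (W ^ 6 * n1 ^ 2 / P ^ 15) * (2 ^ 16 * W ^ 6 * N * n2 ^ 2 / Z ^ 15) :=
      st3.trans (mul_le_mul st4 st5 (sum_nonneg fun j _ => sq_nonneg _) (by positivity))
    calc ‖S1‖ ^ 2 * Z ^ 13 ≤
          ((W ^ 6 * n1 ^ 2 / P ^ 15) * (2 ^ 16 * W ^ 6 * N * n2 ^ 2 / Z ^ 15)) * Z ^ 13 := by
          gcongr
      _ = 2 ^ 16 * W ^ 12 * (n1 * n2) ^ 2 * (P / Z ^ 2) := by
          rw [hNr]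
          field_simp
      _ ≤ 2 ^ 16 * W ^ 12 * (n1 * n2) ^ 2 * 8 := by
          gcongr
          rw [div_le_iff₀ (by positivity)]
          exact hPZ
      _ = _ := by ring
  exact bil_final ‖S‖ ‖S1‖ (n1 * n2) y W Z (norm_nonneg _) (norm_nonneg _) (by positivity) hW hZ0
    st2 st6 hyZ.le hy1 hWZ

end Vale.Agent.EgyptF
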