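import Mathlib
import Vale.Agent.EgyptF.Defs

/-!
# Piece A4. Triangular counting.

Pools `p : ι → ℕ` with values in `P`.  Condition `C j` (`j ∈ J`), blocks `Dset j`.
`C j'` does not depend on the coordinates in `Dset j` when `j < j'` (both in `J`); and for every fixing of
the coordinates outside `Dset j`, at most a `γ`-fraction of the `|P|^{|Dset j|}` choices inside satisfies
`C j`.  Then at most `γ^{|J|} |P|^{|ι|}` pools satisfy all conditions.

Proof: induction on `J` (remove the minimum `j₁`; e.g. `Finset.induction_on_min`).  The conjunction `R` of the other conditions is invariant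
under changes inside `Dset j₁`; group the pools in `R` in classes agreeing outside `Dset j₁` (each class has exactly
`|P|^{|Dset j₁|}` elements, all in `R`): `#{C j₁ ∧ R} ≤ γ #{R}`.
-/

open Finset

namespace Vale.Agent.EgyptF

open Classical in
/-- number of pools agreeing with `q` outside `D` -/
lemma card_agree {ι : Type*} [Fintype ι] [DecidableEq ι] (P : Finset ℕ) (D : Finset ι) (q : ι → ℕ)
    (hq : q ∈ Fintype.piFinset (fun _ : ι => P)) :
    ((Fintype.piFinset (fun _ : ι => P)).filter (fun p => ∀ i, i ∉ D → q i = p i)).card =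
      P.card ^ D.card := by
  have h1 : (Fintype.piFinset (fun _ : ι => P)).filter (fun p => ∀ i, i ∉ D → q i = p i) =
      Fintype.piFinset (fun i => if i ∈ D then P else {q i}) := by
    ext p
    simp only [Finset.mem_filter, Fintype.mem_piFinset]
    constructor
    · rintro ⟨h1, h2⟩ i
      by_cases hi : i ∈ D
      · simp [hi, h1 i]
      · simp [hi, h2 i hi]
    · intro h
      have hq' := Fintype.mem_piFinset.mp hq
      refine ⟨fun i => ?_, fun i hi => ?_⟩
      · by_cases hi : i ∈ D
        · have := h i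
          rwa [if_pos hi] at this
        · have := h i
          rw [if_neg hi, Finset.mem_singleton] at this
          rw [this]
          exact hq' i
      · have := h i
        rw [if_neg hi, Finset.mem_singleton] at this
        exact this.symm
  rw [h1, Fintype.card_piFinset]
  have h2 : ∀ i : ι, (if i ∈ D then P else {q i}).card = if i ∈ D then P.card else 1 := by
    intro i
    split_ifs <;> simp
  rw [Finset.prod_congr rfl (fun i _ => h2 i), Finset.prod_ite_mem]
  simp

open Classical in
lemma tri_step {ι : Type*} [Fintype ι] [DecidableEq ι] (P : Finset ℕ) (γ : ℝ) (hγ : 0 ≤ γ)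
    (D : Finset ι) (C R : (ι → ℕ) → Prop)
    (hR : ∀ p q : ι → ℕ, (∀ i, i ∉ D → p i = q i) → (R p ↔ R q))
    (hcount : ∀ p ∈ Fintype.piFinset (fun _ : ι => P),
      (((Fintype.piFinset (fun _ : ι => P)).filter
        (fun q => (∀ i, i ∉ D → q i = p i) ∧ C q)).card : ℝ) ≤ γ * (P.card : ℝ) ^ D.card) :
    (((Fintype.piFinset (fun _ : ι => P)).filter (fun p => C p ∧ R p)).card : ℝ) ≤
      γ * ((Fintype.piFinset (fun _ : ι => P)).filter R).card := by
  set PI := Fintype.piFinset (fun _ : ι => P) with hPI
  -- double counting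
  have h1 : ∑ p ∈ PI.filter R, ((PI.filter (fun q => (∀ i, i ∉ D → q i = p i) ∧ C q)).card : ℝ) =
      ∑ q ∈ PI.filter (fun q => C q ∧ R q), ((PI.filter (fun p => ∀ i, i ∉ D → q i = p i)).card : ℝ) := by
    have e1 : ∀ p : ι → ℕ, ((PI.filter (fun q => (∀ i, i ∉ D → q i = p i) ∧ C q)).card : ℝ) =
        ∑ q ∈ PI, if ((∀ i, i ∉ D → q i = p i) ∧ C q) then (1 : ℝ) else 0 := by
      intro p
      rw [Finset.sum_ite, Finset.sum_const_zero, add_zero, Finset.sum_const, nsmul_eq_mul, mul_one]
    have e2 : ∀ q : ι → ℕ, ((PI.filter (fun p => ∀ i, i ∉ D → q i = p i)).card : ℝ) =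
        ∑ p ∈ PI, if (∀ i, i ∉ D → q i = p i) then (1 : ℝ) else 0 := by
      intro q
      rw [Finset.sum_ite, Finset.sum_const_zero, add_zero, Finset.sum_const, nsmul_eq_mul, mul_one]
    simp_rw [e1, e2]
    rw [Finset.sum_filter, Finset.sum_filter]
    have e3 : ∀ p ∈ PI, (if R p then ∑ q ∈ PI, (if ((∀ i, i ∉ D → q i = p i) ∧ C q) then (1 : ℝ) else 0) else 0) =
        ∑ q ∈ PI, if (R p ∧ (∀ i, i ∉ D → q i = p i) ∧ C q) then (1 : ℝ) else 0 := by
      intro p _
      by_cases hp : R p
      · simp [hp]
      · simp [hp]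
    have e4 : ∀ q ∈ PI, (if (C q ∧ R q) then ∑ p ∈ PI, (if (∀ i, i ∉ D → q i = p i) then (1 : ℝ) else 0) else 0) =
        ∑ p ∈ PI, if (R p ∧ (∀ i, i ∉ D → q i = p i) ∧ C q) then (1 : ℝ) else 0 := by
      intro q _
      by_cases hC : C q
      · by_cases hRq : R q
        · rw [if_pos ⟨hC, hRq⟩]
          apply Finset.sum_congr rfl
          intro p _
          by_cases hag : ∀ i, i ∉ D → q i = p i
          · rw [if_pos hag, if_pos ⟨(hR q p hag).mp hRq, hag, hC⟩]
          · rw [if_neg hag, if_neg (fun h => hag h.2.1)]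
        · rw [if_neg (fun h => hRq h.2)]
          symm
          apply Finset.sum_eq_zero
          intro p _
          rw [if_neg]
          rintro ⟨h1, h2, h3⟩
          exact hRq ((hR q p h2).mpr h1)
      · rw [if_neg (fun h => hC h.1)]
        symm
        apply Finset.sum_eq_zero
        intro p _
        rw [if_neg (fun h => hC h.2.2)]
    rw [Finset.sum_congr rfl e3, Finset.sum_congr rfl e4, Finset.sum_comm]
  have h2 : ∑ q ∈ PI.filter (fun q => C q ∧ R q), ((PI.filter (fun p => ∀ i, i ∉ D → q i = p i)).card : ℝ) =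
      ((PI.filter (fun p => C p ∧ R p)).card : ℝ) * (P.card : ℝ) ^ D.card := by
    rw [Finset.sum_congr rfl (fun q hq => by
      rw [card_agree P D q (Finset.mem_filter.mp hq).1]), Finset.sum_const, nsmul_eq_mul]
    push_cast
    ring
  have h3 : ∑ p ∈ PI.filter R, ((PI.filter (fun q => (∀ i, i ∉ D → q i = p i) ∧ C q)).card : ℝ) ≤
      ((PI.filter R).card : ℝ) * (γ * (P.card : ℝ) ^ D.card) := by
    rw [← nsmul_eq_mul]
    apply Finset.sum_le_card_nsmul
    intro p hp
    exact hcount p (Finset.mem_filter.mp hp).1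
  rw [h1, h2] at h3
  rcases eq_or_ne ((P.card : ℝ) ^ D.card) 0 with h0 | h0
  · -- PI is empty
    have hP0 : P.card = 0 ∧ D.card ≠ 0 := by
      constructor
      · have h5 : (P.card : ℝ) = 0 := by
          by_contra hne
          exact (pow_ne_zero _ hne) h0
        exact_mod_cast h5
      · intro hD
        rw [hD, pow_zero] at h0
        exact one_ne_zero h0
    have hPe : P = ∅ := Finset.card_eq_zero.mp hP0.1
    obtain ⟨i, hi⟩ := Finset.card_ne_zero.mp hP0.2
    have hPIe : PI = ∅ := by
      rw [Finset.eq_empty_iff_forall_notMem]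
      intro p hp
      have := Fintype.mem_piFinset.mp hp i
      rw [hPe] at this
      exact absurd this (Finset.notMem_empty _)
    rw [hPIe]
    simp
  · have hpos : 0 < (P.card : ℝ) ^ D.card := lt_of_le_of_ne (by positivity) h0.symm
    have : ((PI.filter (fun p => C p ∧ R p)).card : ℝ) * (P.card : ℝ) ^ D.card ≤
        (γ * ((PI.filter R).card : ℝ)) * (P.card : ℝ) ^ D.card := by
      linarith
    exact le_of_mul_le_mul_right this hpos

open Classical in
theorem tri_count {ι : Type*} [Fintype ι] [DecidableEq ι] {M : ℕ} (P : Finset ℕ) (γ : ℝ) (hγ : 0 ≤ γ)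
    (J : Finset (Fin M)) (Dset : Fin M → Finset ι) (C : Fin M → (ι → ℕ) → Prop)
    (hdep : ∀ j ∈ J, ∀ j' ∈ J, j < j' → ∀ p q : ι → ℕ, (∀ i, i ∉ Dset j → p i = q i) →
      (C j' p ↔ C j' q))
    (hcount : ∀ j ∈ J, ∀ p ∈ Fintype.piFinset (fun _ : ι => P),
      (((Fintype.piFinset (fun _ : ι => P)).filter
        (fun q => (∀ i, i ∉ Dset j → q i = p i) ∧ C j q)).card : ℝ) ≤
        γ * (P.card : ℝ) ^ (Dset j).card) :
    (((Fintype.piFinset (fun _ : ι => P)).filter (fun p => ∀ j ∈ J, C j p)).card : ℝ) ≤
      γ ^ J.card * (P.card : ℝ) ^ (Fintype.card ι) := by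
  induction J using Finset.induction_on_min with
  | empty =>
    simp
  | insert j1 J' hlt ih =>
    have hj1 : j1 ∉ J' := fun h => lt_irrefl _ (hlt j1 h)
    have ih' := ih (fun j hj j' hj' => hdep j (Finset.mem_insert_of_mem hj) j' (Finset.mem_insert_of_mem hj'))
      (fun j hj => hcount j (Finset.mem_insert_of_mem hj))
    have hstep := tri_step P γ hγ (Dset j1) (C j1) (fun p => ∀ j ∈ J', C j p)
      (by
        intro p q hpq
        constructor
        · intro h j hj
          exact (hdep j1 (Finset.mem_insert_self _ _) j (Finset.mem_insert_of_mem hj) (hlt j hj) p q hpq).mp (h j hj)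
        · intro h j hj
          exact (hdep j1 (Finset.mem_insert_self _ _) j (Finset.mem_insert_of_mem hj) (hlt j hj) p q hpq).mpr (h j hj))
      (hcount j1 (Finset.mem_insert_self _ _))
    have hfilter : (Fintype.piFinset (fun _ : ι => P)).filter (fun p => ∀ j ∈ insert j1 J', C j p) =
        (Fintype.piFinset (fun _ : ι => P)).filter (fun p => C j1 p ∧ ∀ j ∈ J', C j p) := by
      apply Finset.filter_congr
      intro p _
      simp
    rw [hfilter, Finset.card_insert_of_notMem hj1, pow_succ]
    have h5 := mul_le_mul_of_nonneg_left ih' hγ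
    have h6 := hstep.trans (le_trans (le_of_eq (by congr!)) h5)
    refine le_trans (le_of_eq ?_) (h6.trans_eq (by ring))
    congr!

end Vale.Agent.EgyptF
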