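import Mathlib
import Vale.Agent.EgyptF.Defs

/-!
# Piece A2. Counting tuples of primes with product in a given finite set.

`Fintype.piFinset (fun _ : ι => P)` is the set of all pools `q : ι → ℕ` with values in `P`.
For a fixed pool `p` the pools `q` which agree with `p` outside `L` and have `∏_{i∈L} q i ∈ S` number at
most `|S| · |L|!`.
-/

open Finset

namespace Vale.Agent.EgyptF

open Classical in
lemma tuple_count_one {ι : Type*} [Fintype ι] [DecidableEq ι] (P : Finset ℕ) (hP : ∀ p ∈ P, p.Prime) (k : ℕ) :
    ∀ (L : Finset ι) (N : ℕ) (p : ι → ℕ), L.card = k →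
    ((Fintype.piFinset (fun _ : ι => P)).filter
      (fun q => (∀ i, i ∉ L → q i = p i) ∧ ∏ i ∈ L, q i = N)).card ≤ k.factorial := by
  induction k with
  | zero =>
    intro L N p hL
    rw [Finset.card_eq_zero] at hL
    subst hL
    rw [Nat.factorial_zero, Finset.card_le_one]
    intro a ha b hb
    rw [Finset.mem_filter] at ha hb
    funext i
    rw [ha.2.1 i (Finset.notMem_empty _), hb.2.1 i (Finset.notMem_empty _)]
  | succ k ih =>
    intro L N p hL
    have hLne : L.Nonempty := by
      rw [← Finset.card_pos]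
      omega
    set F := (Fintype.piFinset (fun _ : ι => P)).filter
      (fun q => (∀ i, i ∉ L → q i = p i) ∧ ∏ i ∈ L, q i = N) with hF
    by_cases hN : N = 1
    · -- empty
      have : F = ∅ := by
        rw [Finset.eq_empty_iff_forall_notMem]
        intro q hq
        rw [hF, Finset.mem_filter] at hq
        obtain ⟨i, hi⟩ := hLne
        have h1 : q i ∣ ∏ i ∈ L, q i := Finset.dvd_prod_of_mem q hi
        rw [hq.2.2, hN, Nat.dvd_one] at h1
        have h2 := hP _ (Fintype.mem_piFinset.mp hq.1 i)
        rw [h1] at h2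
        exact Nat.not_prime_one h2
      rw [this]
      simp
    · set π := N.minFac with hπ
      have hπp : π.Prime := Nat.minFac_prime hN
      have hsub : F ⊆ L.biUnion (fun j => (Fintype.piFinset (fun _ : ι => P)).filter
          (fun q => (∀ i, i ∉ L.erase j → q i = Function.update p j π i) ∧ ∏ i ∈ L.erase j, q i = N / π)) := by
        intro q hq
        rw [hF, Finset.mem_filter] at hq
        obtain ⟨hq1, hq2, hq3⟩ := hq
        have hdvd : π ∣ ∏ i ∈ L, q i := by
          rw [hq3]
          exact Nat.minFac_dvd N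
        obtain ⟨j, hj, hjd⟩ := (Prime.dvd_finsetProd_iff hπp.prime q).mp hdvd
        have hqj : q j = π :=
          ((Nat.prime_dvd_prime_iff_eq hπp (hP _ (Fintype.mem_piFinset.mp hq1 j))).mp hjd).symm
        rw [Finset.mem_biUnion]
        refine ⟨j, hj, ?_⟩
        rw [Finset.mem_filter]
        refine ⟨hq1, ?_, ?_⟩
        · intro i hi
          by_cases hij : i = j
          · subst hij
            rw [Function.update_self, hqj]
          · rw [Function.update_of_ne hij]
            apply hq2
            intro hiL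
            exact hi (Finset.mem_erase.mpr ⟨hij, hiL⟩)
        · have h1 : q j * ∏ i ∈ L.erase j, q i = N := by
            rw [Finset.mul_prod_erase L q hj, hq3]
          rw [← h1, hqj, Nat.mul_div_cancel_left _ hπp.pos]
      calc F.card ≤ _ := Finset.card_le_card hsub
        _ ≤ ∑ j ∈ L, ((Fintype.piFinset (fun _ : ι => P)).filter
          (fun q => (∀ i, i ∉ L.erase j → q i = Function.update p j π i) ∧ ∏ i ∈ L.erase j, q i = N / π)).card :=
            Finset.card_biUnion_le
        _ ≤ ∑ _j ∈ L, k.factorial := by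
            apply Finset.sum_le_sum
            intro j hj
            apply ih
            rw [Finset.card_erase_of_mem hj, hL]
            rfl
        _ = (k + 1).factorial := by
            rw [Finset.sum_const, hL, smul_eq_mul, Nat.factorial_succ]

open Classical in
theorem tuple_count {ι : Type*} [Fintype ι] [DecidableEq ι] (P : Finset ℕ) (hP : ∀ p ∈ P, p.Prime)
    (L : Finset ι) (S : Finset ℕ) (p : ι → ℕ) :
    ((Fintype.piFinset (fun _ : ι => P)).filter
      (fun q => (∀ i, i ∉ L → q i = p i) ∧ ∏ i ∈ L, q i ∈ S)).card ≤ S.card * L.card.factorial := by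
  have hsub : (Fintype.piFinset (fun _ : ι => P)).filter
      (fun q => (∀ i, i ∉ L → q i = p i) ∧ ∏ i ∈ L, q i ∈ S) ⊆
      S.biUnion (fun N => (Fintype.piFinset (fun _ : ι => P)).filter
      (fun q => (∀ i, i ∉ L → q i = p i) ∧ ∏ i ∈ L, q i = N)) := by
    intro q hq
    rw [Finset.mem_filter] at hq
    rw [Finset.mem_biUnion]
    exact ⟨_, hq.2.2, Finset.mem_filter.mpr ⟨hq.1, hq.2.1, rfl⟩⟩
  calc _ ≤ _ := Finset.card_le_card hsub
    _ ≤ ∑ N ∈ S, ((Fintype.piFinset (fun _ : ι => P)).filter
      (fun q => (∀ i, i ∉ L → q i = p i) ∧ ∏ i ∈ L, q i = N)).card := Finset.card_biUnion_le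
    _ ≤ ∑ _N ∈ S, L.card.factorial := Finset.sum_le_sum (fun N _ => tuple_count_one P hP _ L N p rfl)
    _ = _ := by rw [Finset.sum_const, smul_eq_mul]

end Vale.Agent.EgyptF
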