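import Mathlib
import Vale.Agent.EgyptF.Defs
import Vale.Agent.EgyptF.Tuples
import Vale.Agent.EgyptF.Tri

open Finset

namespace Vale.Agent.EgyptF

/-- integers in a real interval -/
lemma nc_interval (x r : ℝ) (hr : 0 ≤ r) (hx : 0 ≤ x) :
    ((Icc ⌈x - r⌉₊ ⌊x + r⌋₊).card : ℝ) ≤ 2 * r + 1 := by
  rw [Nat.card_Icc]
  by_cases h : ⌈x - r⌉₊ ≤ ⌊x + r⌋₊ + 1
  · rw [Nat.cast_sub h]
    have h1 : ((⌊x + r⌋₊ : ℕ) : ℝ) ≤ x + r := Nat.floor_le (by linarith)
    have h2 : x - r ≤ ((⌈x - r⌉₊ : ℕ) : ℝ) := Nat.le_ceil _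
    push_cast
    linarith
  · rw [Nat.sub_eq_zero_of_le (by omega)]
    push_cast
    linarith

open Classical in
/-- one pair of vectors -/
lemma nc_pair (m z : ℕ) (P : Finset ℕ) (hz : 1 ≤ z) (hP : ∀ p ∈ P, p.Prime ∧ z ≤ p)
    (a a' : Fin m → Bool) (L : Finset (Fin m)) (hL : ∀ i ∈ L, a i ≠ a' i) (K γ : ℝ) (hK : 0 < K)
    (hγ0 : 0 ≤ γ)
    (hγ : (2 * ((z : ℝ) ^ L.card / K) + 1) * (L.card.factorial : ℝ) ≤ γ * (P.card : ℝ) ^ L.card) :
    (((Fintype.piFinset (fun _ : Fin m × Bool => P)).filter
      (fun p => |(vv p a : ℝ) - vv p a'| ≤ (z : ℝ) ^ m / K)).card : ℝ) ≤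
      γ * (P.card : ℝ) ^ (Fintype.card (Fin m × Bool)) := by
  set D : Finset (Fin m × Bool) := L.image (fun i => (i, a i)) with hD
  have hinj : Function.Injective (fun i : Fin m => (i, a i)) := by
    intro i i' h
    exact (Prod.mk.injEq _ _ _ _ ▸ h : _ ∧ _).1
  have hDcard : D.card = L.card := Finset.card_image_of_injective _ hinj
  have hmemD : ∀ i : Fin m, i ∉ L → (i, a i) ∉ D := by
    intro i hi h
    obtain ⟨i', hi', h1⟩ := Finset.mem_image.1 h
    have := hinj h1
    exact hi (this ▸ hi')
  have hmemD' : ∀ i : Fin m, (i, a' i) ∉ D := by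
    intro i h
    obtain ⟨i', hi', h1⟩ := Finset.mem_image.1 h
    rw [Prod.mk.injEq] at h1
    obtain ⟨h2, h3⟩ := h1
    subst h2
    exact hL i' hi' h3
  have htri := tri_count (M := 1) P γ hγ0 Finset.univ (fun _ => D)
    (fun _ p => |(vv p a : ℝ) - vv p a'| ≤ (z : ℝ) ^ m / K) (by
      intro j _ j' _ hjj'
      exact absurd hjj' (by rw [Subsingleton.elim j j']; exact lt_irrefl _)) (by
      intro j _ p hp
      rw [hDcard]
      refine le_trans ?_ hγ
      -- the fixed data
      have hp' := Fintype.mem_piFinset.1 hp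
      set y : ℕ := ∏ i ∈ Lᶜ, p (i, a i) with hy
      have hy1 : z ^ (m - L.card) ≤ y := by
        have h1 : Lᶜ.card = m - L.card := by
          rw [Finset.card_compl, Fintype.card_fin]
        rw [← h1, hy]
        exact Finset.pow_card_le_prod _ _ _ fun i _ => (hP _ (hp' _)).2
      have hypos : 0 < y := lt_of_lt_of_le (by positivity) hy1
      have hypos' : (0 : ℝ) < y := by exact_mod_cast hypos
      have hLm : L.card ≤ m := by
        have := Finset.card_le_univ L
        rwa [Fintype.card_fin] at this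
      set x : ℝ := (vv p a' : ℝ) / y with hx
      have hx0 : 0 ≤ x := by positivity
      set r : ℝ := (z : ℝ) ^ L.card / K with hr
      have hr0 : 0 ≤ r := by positivity
      have hsub : ((Fintype.piFinset (fun _ : Fin m × Bool => P)).filter
          (fun q => (∀ i, i ∉ D → q i = p i) ∧ |(vv q a : ℝ) - vv q a'| ≤ (z : ℝ) ^ m / K)) ⊆
          ((Fintype.piFinset (fun _ : Fin m × Bool => P)).filter
          (fun q => (∀ i, i ∉ D → q i = p i) ∧ ∏ i ∈ D, q i ∈ Icc ⌈x - r⌉₊ ⌊x + r⌋₊)) := by
        intro q hq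
        rw [Finset.mem_filter] at hq ⊢
        refine ⟨hq.1, hq.2.1, ?_⟩
        set f : ℕ := ∏ i ∈ D, q i with hf
        have h1 : vv q a = f * y := by
          unfold vv
          rw [← Finset.prod_mul_prod_compl L, hf, hD, Finset.prod_image (fun i _ i' _ h => hinj h)]
          congr 1
          refine Finset.prod_congr rfl fun i hi => ?_
          exact hq.2.1 _ (hmemD i (Finset.mem_compl.1 hi))
        have h2 : vv q a' = vv p a' := by
          unfold vv
          refine Finset.prod_congr rfl fun i _ => ?_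
          exact hq.2.1 _ (hmemD' i)
        have h3 := hq.2.2
        rw [h1, h2] at h3
        have h4 : |(f : ℝ) - x| ≤ r := by
          have h5 : (f : ℝ) - x = (((f * y : ℕ) : ℝ) - vv p a') / y := by
            rw [hx]
            push_cast
            field_simp
          rw [h5, abs_div, abs_of_pos hypos', div_le_iff₀ hypos']
          refine h3.trans ?_
          rw [hr, div_mul_eq_mul_div]
          refine div_le_div_of_nonneg_right ?_ hK.le
          have h6 : (z : ℝ) ^ m = (z : ℝ) ^ L.card * (z : ℝ) ^ (m - L.card) := by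
            rw [← pow_add]
            congr 1
            omega
          rw [h6]
          refine mul_le_mul_of_nonneg_left ?_ (by positivity)
          exact_mod_cast hy1
        rw [abs_le] at h4
        rw [Finset.mem_Icc]
        constructor
        · exact Nat.ceil_le.2 (by linarith [h4.1])
        · exact Nat.le_floor (by linarith [h4.2])
      have h7 := (Finset.card_le_card hsub).trans
        (tuple_count P (fun p hp => (hP p hp).1) D (Icc ⌈x - r⌉₊ ⌊x + r⌋₊) p)
      have h8 : (((Fintype.piFinset (fun _ : Fin m × Bool => P)).filter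
          (fun q => (∀ i, i ∉ D → q i = p i) ∧
            |(vv q a : ℝ) - vv q a'| ≤ (z : ℝ) ^ m / K)).card : ℝ) ≤
            ((Icc ⌈x - r⌉₊ ⌊x + r⌋₊).card : ℝ) * (D.card.factorial : ℝ) := by
        exact_mod_cast h7
      rw [hDcard] at h8
      refine h8.trans ?_
      exact mul_le_mul_of_nonneg_right (nc_interval x r hr0 hx0) (Nat.cast_nonneg _))
  have hJ : (Finset.univ : Finset (Fin 1)).card = 1 := by simp
  rw [hJ, pow_one] at htri
  refine le_trans (le_of_eq ?_) htri
  congr 2
  ext p
  simp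

open Classical in
/-- pairs at small Hamming distance -/
lemma nc_close (m j : ℕ) :
    ((univ.filter (fun x : (Fin m → Bool) × (Fin m → Bool) =>
      (univ.filter (fun i => x.1 i ≠ x.2 i)).card < j)).card) ≤
      2 ^ m * ∑ i ∈ range j, m.choose i := by
  have h1 : ((univ.filter (fun x : (Fin m → Bool) × (Fin m → Bool) =>
      (univ.filter (fun i => x.1 i ≠ x.2 i)).card < j)).card) ≤
      ((univ : Finset (Fin m → Bool)) ×ˢ
        ((range j).biUnion fun i => powersetCard i (univ : Finset (Fin m)))).card := by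
    refine Finset.card_le_card_of_injOn (fun x => (x.1, univ.filter (fun i => x.1 i ≠ x.2 i))) ?_ ?_
    · intro x hx
      have hx' := (Finset.mem_filter.1 (Finset.mem_coe.1 hx)).2
      refine Finset.mem_coe.2 (Finset.mem_product.2 ⟨Finset.mem_univ _, ?_⟩)
      rw [Finset.mem_biUnion]
      exact ⟨_, Finset.mem_range.2 hx', Finset.mem_powersetCard.2 ⟨Finset.subset_univ _, rfl⟩⟩
    · rintro ⟨a, b⟩ _ ⟨a', b'⟩ _ h
      rw [Prod.mk.injEq] at h
      obtain ⟨h1, h2⟩ := h
      simp only at h1 h2
      subst h1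
      refine Prod.ext rfl ?_
      funext i
      have h3 := Finset.ext_iff.1 h2 i
      simp only [Finset.mem_filter, Finset.mem_univ, true_and] at h3
      simp only
      cases h4 : a i <;> cases h5 : b i <;> cases h6 : b' i <;> simp_all
  refine h1.trans ?_
  rw [Finset.card_product, Finset.card_univ, Fintype.card_fun, Fintype.card_bool, Fintype.card_fin]
  refine Nat.mul_le_mul_left _ (Finset.card_biUnion_le.trans ?_)
  refine Finset.sum_le_sum fun i _ => ?_
  rw [Finset.card_powersetCard, Finset.card_univ, Fintype.card_fin]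

end Vale.Agent.EgyptF
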