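import Mathlib
import Vale.Agent.EgyptF.Defs

/-!
# Piece A6. Tree certificate lemma (pure combinatorics).

`A` a set of 0/1-vectors on `M` blocks of `64 s` coordinates, `|A| > 2^{48 M s}`; every `a ∈ A` has an
exceptional set `Deep a` of at most `M/74` blocks.  Then there is a base vector `a0 ∈ A` and a set `J` of at
least `M/2` blocks such that for every `j ∈ J` there is `a_j ∈ A`, equal to `a0` on all blocks before `j`,
differing from `a0` in at least `s` places of block `j`, with `j ∉ Deep a_j`.

Proof.  For `a ∈ A` let `J(a)` be the set of `j` for which such an `a_j` exists (with `a0 = a`).  Suppose `2|J(a)| < M`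
for all `a ∈ A`.  Pigeonhole over the pairs `(J(a), Deep a)` (`4^M` of them): some class `A'` has
`|A'| ≥ |A| / 4^M`; write `X = J ∪ De`, `|X| ≤ M/2 + M/74`.  For `j ∉ X` and `a, a' ∈ A'` with the same
blocks before `j`, block `j` of `a` and `a'` differ in `< s` places, so given the prefix there are at most
`∑_{i<s} C(64 s, i) ≤ 2^{10 s}` possibilities for block `j` (since `∑_{i<s} C(64s,i) (1/16)^s ≤ (1+1/16)^{64 s}` and
`(17/16)^64 ≤ 2^6`).  For `j ∈ X` there are at most `2^{64 s}`.  Hence
`|A'| ≤ 2^{64 s |X| + 10 s (M - |X|)} = 2^{54 s|X| + 10 s M} ≤ 2^{38 s M}`, `|A| ≤ 2^{2M + 38 s M} ≤ 2^{48 M s}`,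
contradiction.
-/

open Finset

namespace Vale.Agent.EgyptF

/-- Hamming ball bound, also used in `NC.lean`. -/
theorem ball_bound (s : ℕ) (hs : 1 ≤ s) :
    ∑ i ∈ range s, (64 * s).choose i ≤ 2 ^ (10 * s) := by
  have h1 : (∑ i ∈ range s, (64 * s).choose i) * 16 ^ (63 * s) ≤ 17 ^ (64 * s) := by
    have e : (17 : ℕ) ^ (64 * s) = ∑ m ∈ range (64 * s + 1), 1 ^ m * 16 ^ (64 * s - m) * (64 * s).choose m := by
      have h := add_pow (1 : ℕ) 16 (64 * s)
      rw [show (1 : ℕ) + 16 = 17 by norm_num] at h
      exact h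
    rw [e, Finset.sum_mul]
    calc ∑ i ∈ range s, (64 * s).choose i * 16 ^ (63 * s)
        ≤ ∑ i ∈ range s, 1 ^ i * 16 ^ (64 * s - i) * (64 * s).choose i := by
          apply Finset.sum_le_sum
          intro i hi
          have hi' := Finset.mem_range.mp hi
          rw [one_pow, one_mul, mul_comm]
          apply Nat.mul_le_mul_right
          exact Nat.pow_le_pow_right (by norm_num) (by omega)
      _ ≤ _ := by
          apply Finset.sum_le_sum_of_subset
          intro i hi
          have hi' := Finset.mem_range.mp hi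
          exact Finset.mem_range.mpr (by omega)
  have h2 : (17 : ℕ) ^ (64 * s) ≤ 2 ^ (10 * s) * 16 ^ (63 * s) := by
    have e1 : (17 : ℕ) ^ 64 ≤ 2 ^ 10 * 16 ^ 63 := by norm_num
    calc (17 : ℕ) ^ (64 * s) = (17 ^ 64) ^ s := by rw [pow_mul]
      _ ≤ (2 ^ 10 * 16 ^ 63) ^ s := Nat.pow_le_pow_left e1 s
      _ = _ := by rw [mul_pow, ← pow_mul, ← pow_mul]
  exact Nat.le_of_mul_le_mul_right (h1.trans h2) (by positivity)

open Classical in
/-- counting by prefixes -/
lemma prefix_count {M : ℕ} {Y : Type*} [Fintype Y] [Inhabited Y] (A : Finset (Fin M → Y))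
    (c : Fin M → ℕ)
    (h : ∀ j, ∀ a ∈ A, ∃ S : Finset Y, S.card ≤ c j ∧
      ∀ a' ∈ A, (∀ i, i < j → a' i = a i) → a' j ∈ S) :
    A.card ≤ ∏ j, c j := by
  let T : ℕ → (Fin M → Y) → (Fin M → Y) := fun k a i => if (i : ℕ) < k then a i else default
  let c' : ℕ → ℕ := fun k => if h : k < M then c ⟨k, h⟩ else 1
  have key : ∀ k, k ≤ M → (A.image (T k)).card ≤ ∏ j ∈ range k, c' j := by
    intro k
    induction k with
    | zero =>
      intro _
      rw [Finset.prod_range_zero, Finset.card_le_one]
      intro a ha b hb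
      obtain ⟨x, _, rfl⟩ := Finset.mem_image.mp ha
      obtain ⟨y, _, rfl⟩ := Finset.mem_image.mp hb
      funext i
      simp [T]
    | succ k ih =>
      intro hk
      have hk' : k < M := by omega
      have ih' := ih (by omega)
      have himg : (A.image (T (k + 1))).image (T k) = A.image (T k) := by
        rw [Finset.image_image]
        apply Finset.image_congr
        intro a _
        funext i
        simp only [T, Function.comp]
        split_ifs with h1 h2
        · rfl
        · omega
        · rfl
      have hfib : ∀ b ∈ (A.image (T (k + 1))).image (T k),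
          ((A.image (T (k + 1))).filter (fun x => T k x = b)).card ≤ c ⟨k, hk'⟩ := by
        intro b hb
        rw [himg] at hb
        obtain ⟨a0, ha0, rfl⟩ := Finset.mem_image.mp hb
        obtain ⟨S, hS1, hS2⟩ := h ⟨k, hk'⟩ a0 ha0
        refine le_trans ?_ hS1
        apply Finset.card_le_card_of_injOn (fun x => x ⟨k, hk'⟩)
        · intro x hx
          rw [Finset.mem_coe, Finset.mem_filter] at hx
          obtain ⟨hx1, hx2⟩ := hx
          obtain ⟨a', ha', rfl⟩ := Finset.mem_image.mp hx1
          have h4 : T (k + 1) a' ⟨k, hk'⟩ = a' ⟨k, hk'⟩ := by simp [T]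
          rw [Finset.mem_coe]
          simp only
          rw [h4]
          apply hS2 a' ha'
          intro i hi
          have h1 := congrFun hx2 i
          have h2 : (i : ℕ) < k := hi
          have h3 : (i : ℕ) < k + 1 := by omega
          simp only [T, if_pos h2, if_pos h3] at h1
          exact h1
        · intro x hx y hy hxy
          rw [Finset.mem_coe, Finset.mem_filter] at hx hy
          obtain ⟨hx1, hx2⟩ := hx
          obtain ⟨hy1, hy2⟩ := hy
          obtain ⟨a', ha', rfl⟩ := Finset.mem_image.mp hx1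
          obtain ⟨a'', ha'', rfl⟩ := Finset.mem_image.mp hy1
          funext i
          by_cases h1 : (i : ℕ) < k
          · have e1 := congrFun hx2 i
            have e2 := congrFun hy2 i
            simp only [T, h1, if_true] at e1 e2
            rw [← e2] at e1
            exact e1
          · by_cases h2 : (i : ℕ) = k
            · have : i = ⟨k, hk'⟩ := Fin.ext h2
              rw [this]
              exact hxy
            · have h3 : ¬ (i : ℕ) < k + 1 := by omega
              simp [T, h3]
      have h1 := Finset.card_le_mul_card_image (s := A.image (T (k + 1))) (f := T k) (c ⟨k, hk'⟩) hfib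
      rw [himg] at h1
      rw [Finset.prod_range_succ]
      have h2 : c' k = c ⟨k, hk'⟩ := by simp [c', hk']
      rw [h2]
      calc _ ≤ c ⟨k, hk'⟩ * (A.image (T k)).card := h1
        _ ≤ c ⟨k, hk'⟩ * ∏ j ∈ range k, c' j := Nat.mul_le_mul_left _ ih'
        _ = _ := mul_comm _ _
  have h1 := key M le_rfl
  have h2 : A.image (T M) = A := by
    have : T M = id := by
      funext a i
      simp [T]
    rw [this, Finset.image_id]
  rw [h2] at h1
  refine h1.trans (le_of_eq ?_)
  rw [← Fin.prod_univ_eq_prod_range]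
  apply Finset.prod_congr rfl
  intro j _
  simp [c']

open Classical in
/-- number of 0/1 vectors at Hamming distance `< s` from `c` -/
lemma ball_card (s : ℕ) (hs : 1 ≤ s) (c : Fin (64 * s) → Bool) :
    (univ.filter (fun y : Fin (64 * s) → Bool => (univ.filter (fun t => y t ≠ c t)).card < s)).card ≤
      2 ^ (10 * s) := by
  refine le_trans ?_ (ball_bound s hs)
  have h1 : ((range s).biUnion (fun i => powersetCard i (univ : Finset (Fin (64 * s))))).card ≤
      ∑ i ∈ range s, (64 * s).choose i := by
    refine Finset.card_biUnion_le.trans (le_of_eq ?_)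
    apply Finset.sum_congr rfl
    intro i _
    rw [Finset.card_powersetCard, Finset.card_univ, Fintype.card_fin]
  refine le_trans ?_ h1
  apply Finset.card_le_card_of_injOn (fun y => univ.filter (fun t => y t ≠ c t))
  · intro y hy
    rw [Finset.mem_coe, Finset.mem_filter] at hy
    rw [Finset.mem_coe, Finset.mem_biUnion]
    exact ⟨_, Finset.mem_range.mpr hy.2, Finset.mem_powersetCard.mpr ⟨Finset.subset_univ _, rfl⟩⟩
  · intro y _ z _ hyz
    funext t
    have h2 : t ∈ univ.filter (fun t => y t ≠ c t) ↔ t ∈ univ.filter (fun t => z t ≠ c t) := by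
      simp only at hyz
      rw [hyz]
    simp only [Finset.mem_filter, Finset.mem_univ, true_and] at h2
    cases hy : y t <;> cases hz : z t <;> cases hc : c t <;> simp_all

open Classical in
theorem tree_lemma (M s : ℕ) (hM : 1 ≤ M) (hs : 1 ≤ s) (A : Finset (Fin M × Fin (64 * s) → Bool))
    (Deep : (Fin M × Fin (64 * s) → Bool) → Finset (Fin M))
    (hDeep : ∀ a ∈ A, 74 * (Deep a).card ≤ M) (hA : 2 ^ (48 * M * s) < A.card) :
    ∃ a0 ∈ A, ∃ J : Finset (Fin M), M ≤ 2 * J.card ∧
      ∃ a : Fin M → (Fin M × Fin (64 * s) → Bool), ∀ j ∈ J, a j ∈ A ∧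
        (∀ i : Fin M × Fin (64 * s), i.1 < j → a j i = a0 i) ∧
        s ≤ (univ.filter (fun t : Fin (64 * s) => a j (j, t) ≠ a0 (j, t))).card ∧
        j ∉ Deep (a j) := by
  -- the witness relation
  let W : (Fin M × Fin (64 * s) → Bool) → Fin M → (Fin M × Fin (64 * s) → Bool) → Prop :=
    fun a0 j a => a ∈ A ∧ (∀ i : Fin M × Fin (64 * s), i.1 < j → a i = a0 i) ∧
        s ≤ (univ.filter (fun t : Fin (64 * s) => a (j, t) ≠ a0 (j, t))).card ∧ j ∉ Deep a
  let JJ : (Fin M × Fin (64 * s) → Bool) → Finset (Fin M) := fun a0 => univ.filter (fun j => ∃ a, W a0 j a)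
  by_contra hcon
  have hJJ : ∀ a0 ∈ A, 2 * (JJ a0).card < M := by
    intro a0 ha0
    by_contra hge
    push Not at hge
    apply hcon
    refine ⟨a0, ha0, JJ a0, hge, fun j => if h : ∃ a, W a0 j a then h.choose else a0, ?_⟩
    intro j hj
    have h : ∃ a, W a0 j a := (Finset.mem_filter.mp hj).2
    simp only [dif_pos h]
    exact h.choose_spec
  -- classes
  have hclass : ∀ J De : Finset (Fin M), 2 ≤ 2 →
      (A.filter (fun a => JJ a = J ∧ Deep a = De)).card ≤ 2 ^ (46 * M * s) := by
    intro J De _
    rcases (A.filter (fun a => JJ a = J ∧ Deep a = De)).eq_empty_or_nonempty with h0 | ⟨a0, ha0⟩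
    · rw [h0]
      simp
    obtain ⟨ha0A, hJ0, hDe0⟩ := Finset.mem_filter.mp ha0
    have hJc : 2 * J.card < M := hJ0 ▸ hJJ a0 ha0A
    have hDc : 74 * De.card ≤ M := hDe0 ▸ hDeep a0 ha0A
    set A' := A.filter (fun a => JJ a = J ∧ Deep a = De) with hA'
    set A'' := A'.map (Equiv.curry (Fin M) (Fin (64 * s)) Bool).toEmbedding with hA''
    have hcardA : A'.card = A''.card := (Finset.card_map _).symm
    rw [hcardA]
    have hmem : ∀ x ∈ A'', ∃ a ∈ A', ∀ i, x i.1 i.2 = a i := by
      intro x hx
      obtain ⟨a, ha, rfl⟩ := Finset.mem_map.mp hx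
      exact ⟨a, ha, fun i => rfl⟩
    have hcount := prefix_count A'' (fun j => if j ∈ J ∪ De then 2 ^ (64 * s) else 2 ^ (10 * s)) (by
      intro j x hx
      obtain ⟨a, ha, hxa⟩ := hmem x hx
      by_cases hj : j ∈ J ∪ De
      · rw [if_pos hj]
        refine ⟨Finset.univ, ?_, fun _ _ _ => Finset.mem_univ _⟩
        simp
      · rw [if_neg hj]
        refine ⟨_, ball_card s hs (x j), ?_⟩
        intro x' hx' hpre
        rw [Finset.mem_filter]
        refine ⟨Finset.mem_univ _, ?_⟩
        obtain ⟨a', ha', hxa'⟩ := hmem x' hx'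
        obtain ⟨haA, haJ, haD⟩ := Finset.mem_filter.mp ha
        obtain ⟨haA', haJ', haD'⟩ := Finset.mem_filter.mp ha'
        by_contra hge
        push Not at hge
        apply hj
        rw [Finset.mem_union]
        by_cases hjD : j ∈ De
        · exact Or.inr hjD
        · left
          rw [← haJ]
          refine Finset.mem_filter.mpr ⟨Finset.mem_univ _, a', haA', ?_, ?_, ?_⟩
          · intro i hi
            rw [← hxa', ← hxa, hpre i.1 hi]
          · refine hge.trans (le_of_eq ?_)
            congr 1
            apply Finset.filter_congr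
            intro t _
            rw [hxa' (j, t), hxa (j, t)]
          · rw [haD']
            exact hjD)
    refine hcount.trans ?_
    rw [Finset.prod_ite, Finset.prod_const, Finset.prod_const, ← pow_mul, ← pow_mul, ← pow_add]
    apply Nat.pow_le_pow_right (by norm_num)
    set x := (univ.filter (fun j => j ∈ J ∪ De)).card with hx
    set y := (univ.filter (fun j => ¬ j ∈ J ∪ De)).card with hy
    have hxy : x + y = M := by
      rw [hx, hy, Finset.card_filter_add_card_filter_not, Finset.card_univ, Fintype.card_fin]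
    have hxle : x ≤ J.card + De.card := by
      rw [hx, Finset.filter_mem_eq_inter, Finset.univ_inter]
      exact Finset.card_union_le _ _
    have hx2 : 74 * x ≤ 38 * M := by omega
    have : 64 * x + 10 * y ≤ 46 * M := by omega
    calc 64 * s * x + 10 * s * y = (64 * x + 10 * y) * s := by ring
      _ ≤ 46 * M * s := Nat.mul_le_mul_right _ this
  -- sum over classes
  have hcover : A.card ≤ ∑ q : Finset (Fin M) × Finset (Fin M),
      (A.filter (fun a => JJ a = q.1 ∧ Deep a = q.2)).card := by
    have h1 : A ⊆ (univ : Finset (Finset (Fin M) × Finset (Fin M))).biUnion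
        (fun q => A.filter (fun a => JJ a = q.1 ∧ Deep a = q.2)) := by
      intro a ha
      rw [Finset.mem_biUnion]
      exact ⟨(JJ a, Deep a), Finset.mem_univ _, Finset.mem_filter.mpr ⟨ha, rfl, rfl⟩⟩
    exact (Finset.card_le_card h1).trans Finset.card_biUnion_le
  have hsum : ∑ q : Finset (Fin M) × Finset (Fin M),
      (A.filter (fun a => JJ a = q.1 ∧ Deep a = q.2)).card ≤ 2 ^ (2 * M) * 2 ^ (46 * M * s) := by
    calc _ ≤ ∑ _q : Finset (Fin M) × Finset (Fin M), 2 ^ (46 * M * s) :=
          Finset.sum_le_sum (fun q _ => hclass q.1 q.2 le_rfl)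
      _ = _ := by
        rw [Finset.sum_const, Finset.card_univ, Fintype.card_prod, Fintype.card_finset, Fintype.card_fin,
          smul_eq_mul, ← pow_add]
        congr 2
        omega
  have hfin : A.card ≤ 2 ^ (48 * M * s) := by
    calc A.card ≤ 2 ^ (2 * M) * 2 ^ (46 * M * s) := hcover.trans hsum
      _ = 2 ^ (2 * M + 46 * M * s) := by rw [pow_add]
      _ ≤ 2 ^ (48 * M * s) := by
        apply Nat.pow_le_pow_right (by norm_num)
        nlinarith
  omega

end Vale.Agent.EgyptF
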