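import Mathlib
import Vale.Agent.EgyptF.Defs
import Vale.Agent.EgyptF.Tuples
import Vale.Agent.EgyptF.Tree
import Vale.Agent.EgyptF.NCAux

/-!
# Piece C1. A pool with few near-coincidences.

`m = 64 s`.  For a random pool `p : Fin m × Bool → P` the expected number of pairs `(a,a')` with
`|v_a - v_a'| ≤ z^m / 2^{16k}` is `≤ 4^m (6 w^4 + 2) 2^{-15k}` for every `k` with `32 k ≤ m`:
put `j = k/(100 M) + 1 ≤ s`.  Pairs at Hamming distance `< j`: at most `2^m · 2^{10 s} = 4^m 2^{-54 s}`,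
`54 s ≥ 15 k` (as `k ≤ 2 s`), by `ball_bound` (`j ≤ s`).
A pair at Hamming distance `≥ j`: fix all pool primes except those at `j` of the coordinates
`(i, a i)`, `a i ≠ a' i`; then `v_a = f y` with `f` the product of the `j` free primes and `v_a'` fixed, so `f` lies in
an interval of length `2 z^m 2^{-16k} / y ≤ 2 z^j 2^{-16 k}` (`y ≥ z^{m-j}`), which contains `≤ 2 z^j 2^{-16k} + 1`
integers; by `tuple_count` at most `(2 z^j 2^{-16k} + 1) j!` choices, a fraction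
`≤ (2 w^{100 j} 2^{-16k} + 1) j^j / |P|^j ≤ 2 w^{4j} 2^{-16k} + w^{-96 j}` (`j ≤ w`, `|P| ≥ w^97`).
`w^{4j} = 2^{64 M j} ≤ w^4 2^{k}` and `w^{96 j} ≥ 2^{15 k}`.  Markov over `k ≤ m/32 < w`.
-/

open Finset

namespace Vale.Agent.EgyptF

lemma nc_w_big (M w : ℕ) (hM : 100 ≤ M) (hw : w = 2 ^ (16 * M)) : 1000 ≤ w := by
  have h1 : 2 ^ 10 ≤ 2 ^ (16 * M) := Nat.pow_le_pow_right (by norm_num) (by omega)
  rw [← hw] at h1
  omega

/-- numerics for a far pair -/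
lemma nc_num (M w z k j : ℕ) (c : ℝ) (hM : 100 ≤ M) (hw : w = 2 ^ (16 * M))
    (hz2 : z ≤ w ^ 100) (hj : j = k / (100 * M) + 1) (hjw : j ≤ w) (hc : (w : ℝ) ^ 97 ≤ c) :
    (2 * ((z : ℝ) ^ j / 2 ^ (16 * k)) + 1) * (j.factorial : ℝ) ≤
      ((2 * (w : ℝ) ^ 4 + 1) / 2 ^ (15 * k)) * c ^ j := by
  have hw1000 := nc_w_big M w hM hw
  have hw0 : (0 : ℝ) < w := by
    have : 0 < w := by omega
    exact_mod_cast this
  have hw1 : (1 : ℝ) ≤ w := by
    have : 1 ≤ w := by omega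
    exact_mod_cast this
  have h1 : (j.factorial : ℝ) ≤ (w : ℝ) ^ j := by
    have h2 : j.factorial ≤ j ^ j := Nat.factorial_le_pow j
    have h3 : j ^ j ≤ w ^ j := Nat.pow_le_pow_left hjw j
    exact_mod_cast h2.trans h3
  have h2 : (z : ℝ) ^ j ≤ (w : ℝ) ^ (100 * j) := by
    have h3 : z ^ j ≤ (w ^ 100) ^ j := Nat.pow_le_pow_left hz2 j
    rw [← pow_mul] at h3
    exact_mod_cast h3
  have h3 : (w : ℝ) ^ (97 * j) ≤ c ^ j := by
    rw [pow_mul]
    exact pow_le_pow_left₀ (by positivity) hc j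
  -- the two power estimates
  have hk1 : k < 100 * M * j := by
    rw [hj]
    have := Nat.lt_div_mul_add (a := k) (b := 100 * M) (by omega)
    calc k < k / (100 * M) * (100 * M) + 100 * M := this
      _ = 100 * M * (k / (100 * M) + 1) := by ring
  have hk2 : 100 * M * j ≤ k + 100 * M := by
    rw [hj]
    have := Nat.div_mul_le_self k (100 * M)
    calc 100 * M * (k / (100 * M) + 1) = k / (100 * M) * (100 * M) + 100 * M := by ring
      _ ≤ k + 100 * M := by omega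
  have h4 : (w : ℝ) ^ (4 * j) ≤ (w : ℝ) ^ 4 * 2 ^ k := by
    have e1 : w ^ (4 * j) = 2 ^ (64 * M * j) := by
      rw [hw, ← pow_mul]; congr 1; ring
    have e2 : w ^ 4 * 2 ^ k = 2 ^ (64 * M + k) := by
      rw [hw, ← pow_mul, pow_add]; congr 2; ring
    have e3 : w ^ (4 * j) ≤ w ^ 4 * 2 ^ k := by
      rw [e1, e2]
      refine Nat.pow_le_pow_right (by norm_num) ?_
      have h5 : 64 * (100 * M * j) ≤ 64 * (k + 100 * M) := Nat.mul_le_mul_left _ hk2
      have h6 : 64 * (100 * M * j) = 100 * (64 * M * j) := by ring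
      have h7 : 64 * (k + 100 * M) = 100 * (64 * M) + 64 * k := by ring
      omega
    exact_mod_cast e3
  have h5 : (2 : ℝ) ^ (15 * k) ≤ (w : ℝ) ^ (96 * j) := by
    have e1 : w ^ (96 * j) = 2 ^ (1536 * M * j) := by
      rw [hw, ← pow_mul]; congr 1; ring
    have e3 : 2 ^ (15 * k) ≤ w ^ (96 * j) := by
      rw [e1]
      refine Nat.pow_le_pow_right (by norm_num) ?_
      have h6 : 15 * k ≤ 15 * (100 * M * j) := Nat.mul_le_mul_left _ hk1.le
      have h7 : 15 * (100 * M * j) = 1500 * M * j := by ring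
      have h8 : 1500 * M * j ≤ 1536 * M * j :=
        Nat.mul_le_mul_right _ (Nat.mul_le_mul_right _ (by norm_num))
      omega
    exact_mod_cast e3
  have h6 : (2 * ((z : ℝ) ^ j / 2 ^ (16 * k)) + 1) * (j.factorial : ℝ)
      ≤ (2 * ((w : ℝ) ^ (100 * j) / 2 ^ (16 * k)) + 1) * (w : ℝ) ^ j := by
    refine mul_le_mul ?_ h1 (Nat.cast_nonneg _) (by positivity)
    have : (z : ℝ) ^ j / 2 ^ (16 * k) ≤ (w : ℝ) ^ (100 * j) / 2 ^ (16 * k) :=
      div_le_div_of_nonneg_right h2 (by positivity)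
    linarith
  have h7 : (2 * ((w : ℝ) ^ (100 * j) / 2 ^ (16 * k)) + 1) * (w : ℝ) ^ j
      = (2 * ((w : ℝ) ^ (4 * j) / 2 ^ (16 * k)) + 1 / (w : ℝ) ^ (96 * j)) * (w : ℝ) ^ (97 * j) := by
    have e1 : (w : ℝ) ^ (100 * j) * (w : ℝ) ^ j = (w : ℝ) ^ (4 * j) * (w : ℝ) ^ (97 * j) := by
      rw [← pow_add, ← pow_add]; congr 1; ring
    have e2 : (w : ℝ) ^ (97 * j) = (w : ℝ) ^ (96 * j) * (w : ℝ) ^ j := by
      rw [← pow_add]; congr 1; ring
    have e3 : (1 / (w : ℝ) ^ (96 * j)) * (w : ℝ) ^ (97 * j) = (w : ℝ) ^ j := by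
      rw [e2]
      field_simp
    calc (2 * ((w : ℝ) ^ (100 * j) / 2 ^ (16 * k)) + 1) * (w : ℝ) ^ j
        = 2 * (((w : ℝ) ^ (100 * j) * (w : ℝ) ^ j) / 2 ^ (16 * k)) + (w : ℝ) ^ j := by ring
      _ = 2 * (((w : ℝ) ^ (4 * j) * (w : ℝ) ^ (97 * j)) / 2 ^ (16 * k))
          + (1 / (w : ℝ) ^ (96 * j)) * (w : ℝ) ^ (97 * j) := by rw [e1, e3]
      _ = _ := by ring
  have h8 : 2 * ((w : ℝ) ^ (4 * j) / 2 ^ (16 * k)) + 1 / (w : ℝ) ^ (96 * j)
      ≤ (2 * (w : ℝ) ^ 4 + 1) / 2 ^ (15 * k) := by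
    have e1 : (w : ℝ) ^ (4 * j) / 2 ^ (16 * k) ≤ (w : ℝ) ^ 4 / 2 ^ (15 * k) := by
      rw [div_le_div_iff₀ (by positivity) (by positivity)]
      have e2 : (2 : ℝ) ^ (16 * k) = 2 ^ k * 2 ^ (15 * k) := by
        rw [← pow_add]; congr 1; ring
      rw [e2, ← mul_assoc]
      exact mul_le_mul_of_nonneg_right h4 (by positivity)
    have e2 : 1 / (w : ℝ) ^ (96 * j) ≤ 1 / 2 ^ (15 * k) :=
      one_div_le_one_div_of_le (by positivity) h5
    have e3 : (2 * (w : ℝ) ^ 4 + 1) / 2 ^ (15 * k)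
        = 2 * ((w : ℝ) ^ 4 / 2 ^ (15 * k)) + 1 / 2 ^ (15 * k) := by ring
    rw [e3]
    linarith
  rw [h7] at h6
  refine h6.trans ?_
  exact mul_le_mul h8 h3 (by positivity) (by positivity)

open Classical in
/-- expected number of near-coincidences -/
lemma nc_expect (M s w z k : ℕ) (P : Finset ℕ) (hM : 100 ≤ M) (hs : 1 ≤ s)
    (hw : w = 2 ^ (16 * M)) (hsw : 64 * s ≤ w) (hz1 : w ^ 99 ≤ z) (hz2 : z ≤ w ^ 100)
    (hP : ∀ p ∈ P, p.Prime ∧ z ≤ p ∧ p * w ≤ z * (w + 1)) (hPc : w ^ 97 ≤ P.card)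
    (hk : k ≤ 2 * s) :
    ∑ p ∈ Fintype.piFinset (fun _ : Fin (64 * s) × Bool => P),
      ((univ.filter (fun x : (Fin (64 * s) → Bool) × (Fin (64 * s) → Bool) =>
          |(vv p x.1 : ℝ) - vv p x.2| ≤ (z : ℝ) ^ (64 * s) / 2 ^ (16 * k))).card : ℝ) ≤
      ((4 : ℝ) ^ (64 * s) * (2 * (w : ℝ) ^ 4 + 2) / 2 ^ (15 * k)) *
        (P.card : ℝ) ^ (Fintype.card (Fin (64 * s) × Bool)) := by
  set m := 64 * s with hm
  set PI := Fintype.piFinset (fun _ : Fin m × Bool => P) with hPI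
  have hw1000 := nc_w_big M w hM hw
  have hPIcard : (PI.card : ℝ) = (P.card : ℝ) ^ (Fintype.card (Fin m × Bool)) := by
    rw [hPI, Fintype.card_piFinset, Finset.prod_const, Finset.card_univ]
    push_cast
    rfl
  set N := (P.card : ℝ) ^ (Fintype.card (Fin m × Bool)) with hN
  have hN0 : 0 ≤ N := by positivity
  set j := k / (100 * M) + 1 with hj
  have hjs : j ≤ s := by
    have h1 : k / (100 * M) ≤ k / 10000 := Nat.div_le_div_left (by omega) (by norm_num)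
    have h2 : k / 10000 < s := by omega
    omega
  have hz0 : 1 ≤ z := le_trans (Nat.one_le_pow _ _ (by omega)) hz1
  -- exchange
  have hex : ∑ p ∈ PI, ((univ.filter (fun x : (Fin m → Bool) × (Fin m → Bool) =>
          |(vv p x.1 : ℝ) - vv p x.2| ≤ (z : ℝ) ^ m / 2 ^ (16 * k))).card : ℝ)
      = ∑ x : (Fin m → Bool) × (Fin m → Bool),
        ((PI.filter (fun p => |(vv p x.1 : ℝ) - vv p x.2| ≤ (z : ℝ) ^ m / 2 ^ (16 * k))).card : ℝ) := by
    simp_rw [Finset.card_filter]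
    push_cast
    rw [Finset.sum_comm]
  rw [hex]
  set close := univ.filter (fun x : (Fin m → Bool) × (Fin m → Bool) =>
      (univ.filter (fun i => x.1 i ≠ x.2 i)).card < j) with hclose
  set g := (2 * (w : ℝ) ^ 4 + 1) / 2 ^ (15 * k) with hg
  have hg0 : 0 ≤ g := by positivity
  have hpt : ∀ x : (Fin m → Bool) × (Fin m → Bool),
      ((PI.filter (fun p => |(vv p x.1 : ℝ) - vv p x.2| ≤ (z : ℝ) ^ m / 2 ^ (16 * k))).card : ℝ)
        ≤ (if x ∈ close then N else 0) + g * N := by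
    intro x
    by_cases hx : x ∈ close
    · rw [if_pos hx]
      have h1 : ((PI.filter (fun p => |(vv p x.1 : ℝ) - vv p x.2|
          ≤ (z : ℝ) ^ m / 2 ^ (16 * k))).card : ℝ) ≤ PI.card := by
        exact_mod_cast Finset.card_filter_le _ _
      rw [hPIcard] at h1
      have : 0 ≤ g * N := mul_nonneg hg0 hN0
      linarith
    · rw [if_neg hx, zero_add]
      have hx' : j ≤ (univ.filter (fun i => x.1 i ≠ x.2 i)).card := by
        by_contra h
        exact hx (Finset.mem_filter.2 ⟨Finset.mem_univ _, by omega⟩)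
      obtain ⟨L, hL1, hL2⟩ := Finset.exists_subset_card_eq hx'
      have h1 := nc_pair m z P hz0 (fun p hp => ⟨(hP p hp).1, (hP p hp).2.1⟩) x.1 x.2 L
        (fun i hi => (Finset.mem_filter.1 (hL1 hi)).2) (2 ^ (16 * k)) g (by positivity) hg0 (by
          rw [hL2]
          exact nc_num M w z k j _ hM hw hz2 hj (by omega) (by exact_mod_cast hPc))
      exact h1
  have hclosecard : (close.card : ℝ) ≤ (4 : ℝ) ^ m / 2 ^ (15 * k) := by
    have h1 := nc_close m j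
    have h2 : ∑ i ∈ range j, m.choose i ≤ 2 ^ (10 * s) := by
      refine le_trans ?_ (ball_bound s hs)
      exact Finset.sum_le_sum_of_subset (Finset.range_mono hjs)
    have h3 : close.card ≤ 2 ^ m * 2 ^ (10 * s) := h1.trans (Nat.mul_le_mul_left _ h2)
    have h4 : close.card * 2 ^ (15 * k) ≤ 4 ^ m := by
      calc close.card * 2 ^ (15 * k) ≤ 2 ^ m * 2 ^ (10 * s) * 2 ^ (15 * k) :=
            Nat.mul_le_mul_right _ h3
        _ = 2 ^ (m + 10 * s + 15 * k) := by rw [pow_add, pow_add]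
        _ ≤ 2 ^ (2 * m) := Nat.pow_le_pow_right (by norm_num) (by omega)
        _ = 4 ^ m := by rw [pow_mul]; norm_num
    rw [le_div_iff₀ (by positivity)]
    exact_mod_cast h4
  calc ∑ x : (Fin m → Bool) × (Fin m → Bool),
        ((PI.filter (fun p => |(vv p x.1 : ℝ) - vv p x.2| ≤ (z : ℝ) ^ m / 2 ^ (16 * k))).card : ℝ)
      ≤ ∑ x : (Fin m → Bool) × (Fin m → Bool), ((if x ∈ close then N else 0) + g * N) :=
        Finset.sum_le_sum fun x _ => hpt x
    _ = close.card * N + (4 : ℝ) ^ m * (g * N) := by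
        rw [Finset.sum_add_distrib, Finset.sum_const, Finset.card_univ, nsmul_eq_mul]
        congr 1
        · rw [Finset.sum_ite_mem, Finset.univ_inter, Finset.sum_const, nsmul_eq_mul]
        · congr 1
          rw [Fintype.card_prod, Fintype.card_fun, Fintype.card_bool, Fintype.card_fin]
          push_cast
          rw [← mul_pow]
          norm_num
    _ ≤ (4 : ℝ) ^ m / 2 ^ (15 * k) * N + (4 : ℝ) ^ m * (g * N) :=
        add_le_add (mul_le_mul_of_nonneg_right hclosecard hN0) le_rfl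
    _ = ((4 : ℝ) ^ m * (2 * (w : ℝ) ^ 4 + 2) / 2 ^ (15 * k)) * N := by
        rw [hg]
        ring

theorem nc_pool (M s w z : ℕ) (P : Finset ℕ) (hM : 100 ≤ M) (hs : 1 ≤ s) (hw : w = 2 ^ (16 * M))
    (hsw : 64 * s ≤ w) (hz1 : w ^ 99 ≤ z) (hz2 : z ≤ w ^ 100)
    (hP : ∀ p ∈ P, p.Prime ∧ z ≤ p ∧ p * w ≤ z * (w + 1)) (hPc : w ^ 97 ≤ P.card) :
    ∃ p : Fin (64 * s) × Bool → ℕ, (∀ i, p i ∈ P) ∧
      ∀ k : ℕ, k ≤ 2 * s →
        ((univ.filter (fun x : (Fin (64 * s) → Bool) × (Fin (64 * s) → Bool) =>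
          |(vv p x.1 : ℝ) - vv p x.2| ≤ (z : ℝ) ^ (64 * s) / 2 ^ (16 * k))).card : ℝ) ≤
          (w : ℝ) ^ 6 * 4 ^ (64 * s) / 2 ^ (15 * k) := by
  classical
  set PI := Fintype.piFinset (fun _ : Fin (64 * s) × Bool => P) with hPI
  have hw1000 := nc_w_big M w hM hw
  have hw0 : (0 : ℝ) < w := by
    have : 0 < w := by omega
    exact_mod_cast this
  have hPpos : 0 < P.card := lt_of_lt_of_le (Nat.pow_pos (by omega)) hPc
  set N := (P.card : ℝ) ^ (Fintype.card (Fin (64 * s) × Bool)) with hN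
  have hN0 : 0 < N := by positivity
  have hPIcard : (PI.card : ℝ) = N := by
    rw [hPI, Fintype.card_piFinset, Finset.prod_const, Finset.card_univ]
    push_cast
    rfl
  set f : ℕ → (Fin (64 * s) × Bool → ℕ) → ℝ := fun k p =>
    ((univ.filter (fun x : (Fin (64 * s) → Bool) × (Fin (64 * s) → Bool) =>
          |(vv p x.1 : ℝ) - vv p x.2| ≤ (z : ℝ) ^ (64 * s) / 2 ^ (16 * k))).card : ℝ) with hf
  have hE : ∀ k, k ≤ 2 * s → ∑ p ∈ PI, f k p ≤
      ((4 : ℝ) ^ (64 * s) * (2 * (w : ℝ) ^ 4 + 2) / 2 ^ (15 * k)) * N := by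
    intro k hk
    refine le_trans (le_of_eq ?_) (nc_expect M s w z k P hM hs hw hsw hz1 hz2 hP hPc hk)
    refine Finset.sum_congr rfl fun p _ => ?_
    simp only [hf]
  by_contra hcon
  push Not at hcon
  have hbad : ∀ p ∈ PI, ∃ k, k ≤ 2 * s ∧ (w : ℝ) ^ 6 * 4 ^ (64 * s) / 2 ^ (15 * k) < f k p := by
    intro p hp
    obtain ⟨k, hk1, hk2⟩ := hcon p (fun i => Fintype.mem_piFinset.1 hp i)
    exact ⟨k, hk1, hk2⟩
  set c : ℕ → ℝ := fun k => 2 ^ (15 * k) / ((w : ℝ) ^ 6 * 4 ^ (64 * s)) with hc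
  have hc0 : ∀ k, 0 < c k := by
    intro k
    simp only [hc]
    positivity
  have hf0 : ∀ k p, 0 ≤ f k p := by
    intro k p
    simp only [hf]
    positivity
  have h1 : ∀ p ∈ PI, (1 : ℝ) ≤ ∑ k ∈ range (2 * s + 1), c k * f k p := by
    intro p hp
    obtain ⟨k, hk1, hk2⟩ := hbad p hp
    have h2 : (1 : ℝ) ≤ c k * f k p := by
      have h3 : c k * ((w : ℝ) ^ 6 * 4 ^ (64 * s) / 2 ^ (15 * k)) = 1 := by
        simp only [hc]
        field_simp
      rw [← h3]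
      exact mul_le_mul_of_nonneg_left hk2.le (hc0 k).le
    refine h2.trans ?_
    exact Finset.single_le_sum (f := fun k => c k * f k p)
      (fun k _ => mul_nonneg (hc0 k).le (hf0 k p)) (Finset.mem_range.2 (by omega))
  have h2 : N ≤ ∑ k ∈ range (2 * s + 1), c k * ∑ p ∈ PI, f k p := by
    calc N = ∑ p ∈ PI, (1 : ℝ) := by rw [Finset.sum_const, nsmul_eq_mul, mul_one, hPIcard]
      _ ≤ ∑ p ∈ PI, ∑ k ∈ range (2 * s + 1), c k * f k p := Finset.sum_le_sum h1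
      _ = ∑ k ∈ range (2 * s + 1), c k * ∑ p ∈ PI, f k p := by
          rw [Finset.sum_comm]
          refine Finset.sum_congr rfl fun k _ => ?_
          rw [Finset.mul_sum]
  have h3 : ∑ k ∈ range (2 * s + 1), c k * ∑ p ∈ PI, f k p
      ≤ ∑ k ∈ range (2 * s + 1), ((2 * (w : ℝ) ^ 4 + 2) / (w : ℝ) ^ 6) * N := by
    refine Finset.sum_le_sum fun k hk => ?_
    have hk' : k ≤ 2 * s := by
      have := Finset.mem_range.1 hk
      omega
    calc c k * ∑ p ∈ PI, f k p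
        ≤ c k * (((4 : ℝ) ^ (64 * s) * (2 * (w : ℝ) ^ 4 + 2) / 2 ^ (15 * k)) * N) :=
          mul_le_mul_of_nonneg_left (hE k hk') (hc0 k).le
      _ = ((2 * (w : ℝ) ^ 4 + 2) / (w : ℝ) ^ 6) * N := by
          simp only [hc]
          field_simp
  rw [Finset.sum_const, Finset.card_range, nsmul_eq_mul] at h3
  have h4 : ((2 * s + 1 : ℕ) : ℝ) ≤ w := by
    have : 2 * s + 1 ≤ w := by omega
    exact_mod_cast this
  have h5 : ((2 * s + 1 : ℕ) : ℝ) * (((2 * (w : ℝ) ^ 4 + 2) / (w : ℝ) ^ 6) * N)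
      ≤ w * (((2 * (w : ℝ) ^ 4 + 2) / (w : ℝ) ^ 6) * N) :=
    mul_le_mul_of_nonneg_right h4 (by positivity)
  have h6 : (w : ℝ) * (((2 * (w : ℝ) ^ 4 + 2) / (w : ℝ) ^ 6) * N) < N := by
    have hw1000' : (1000 : ℝ) ≤ w := by exact_mod_cast hw1000
    have h7 : (w : ℝ) * ((2 * (w : ℝ) ^ 4 + 2) / (w : ℝ) ^ 6) < 1 := by
      rw [← mul_div_assoc, div_lt_one (by positivity)]
      have h8 : (w : ℝ) ^ 6 = w * (w ^ 4 * w) := by ring
      rw [h8]
      refine mul_lt_mul_of_pos_left ?_ hw0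
      have h9 : (1 : ℝ) ≤ (w : ℝ) ^ 4 := one_le_pow₀ (by linarith)
      nlinarith
    calc (w : ℝ) * (((2 * (w : ℝ) ^ 4 + 2) / (w : ℝ) ^ 6) * N)
        = ((w : ℝ) * ((2 * (w : ℝ) ^ 4 + 2) / (w : ℝ) ^ 6)) * N := by ring
      _ < 1 * N := mul_lt_mul_of_pos_right h7 hN0
      _ = N := one_mul _
  linarith

end Vale.Agent.EgyptF
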