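import Mathlib
import Vale.Agent.EgyptF.Defs

/-!
# Piece P. A large set of primes in a short interval `[z, z(1+1/w)]`.

Proof. Chebyshev (`Chebyshev.pi_ge`, see `pi_lower` in `Vale/Agent/EgyptH1/Levels.lean` for a worked
example) gives `π(w^100) ≥ 2 w^99` for `w ≥ 2^1600`.  The primes in `[w^99, w^100)` lie in the `w^2 - w`
intervals `[jL, (j+1)L)`, `L = w^98`, `w ≤ j < w^2`, so one of these contains `≥ w^99 / w^2 = w^97`
primes; take `z = jL` (then `L ≤ z / w`).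
-/

open Finset

namespace Vale.Agent.EgyptF

lemma pi_lower100 {w : ℕ} (hw : 10 ^ 8 ≤ w) : 2 * (w : ℝ) ^ 99 ≤ (Nat.primeCounting (w ^ 100) : ℝ) := by
  have hw' : (10 : ℝ) ^ 8 ≤ w := by exact_mod_cast hw
  have hw0 : (0 : ℝ) < w := lt_of_lt_of_le (by norm_num) hw'
  have hw1 : (1 : ℝ) < w := lt_of_lt_of_le (by norm_num) hw'
  refine le_trans ?_ (Chebyshev.pi_ge (w ^ 100))
  have hlog : Real.log ((w ^ 100 : ℕ) : ℝ) = 100 * Real.log w := by
    push_cast; rw [Real.log_pow]; norm_num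
  have hlogpos : 0 < Real.log w := Real.log_pos hw1
  set s : ℝ := Real.sqrt w with hs
  have hss : s * s = w := Real.mul_self_sqrt hw0.le
  have hs0 : 0 ≤ s := Real.sqrt_nonneg _
  have hs4 : (10 : ℝ) ^ 4 ≤ s := by
    rw [hs]
    apply Real.le_sqrt_of_sq_le
    calc ((10 : ℝ) ^ 4) ^ 2 = 10 ^ 8 := by norm_num
      _ ≤ (w : ℝ) := hw'
  have hlogw : Real.log w ≤ 2 * s := by
    have h1 : Real.log w = 2 * Real.log s := by
      rw [← hss, Real.log_mul (by positivity) (by positivity)]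
      ring
    have h2 : Real.log s ≤ s - 1 := Real.log_le_sub_one_of_pos (lt_of_lt_of_le (by norm_num) hs4)
    linarith
  rw [hlog, le_div_iff₀ (by positivity)]
  have hX : (0 : ℝ) < (w : ℝ) ^ 99 := by positivity
  have h1 : Real.log (((w ^ 100 : ℕ) : ℝ) + 1) ≤ 202 * s := by
    have h2 : ((w ^ 100 : ℕ) : ℝ) + 1 ≤ (w : ℝ) ^ 101 := by
      push_cast
      have h3 : (1 : ℝ) ≤ (w : ℝ) ^ 100 := one_le_pow₀ hw1.le
      have h4 : (w : ℝ) ^ 101 = w * (w : ℝ) ^ 100 := by ring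
      rw [h4]
      have h5 : (2 : ℝ) ≤ w := le_trans (by norm_num) hw'
      nlinarith
    calc Real.log (((w ^ 100 : ℕ) : ℝ) + 1) ≤ Real.log ((w : ℝ) ^ 101) :=
          Real.log_le_log (by positivity) h2
      _ = 101 * Real.log w := by rw [Real.log_pow]; norm_num
      _ ≤ 202 * s := by linarith
  have h2 : (0.69 : ℝ) ≤ Real.log 2 := by have := Real.log_two_gt_d9; linarith
  have h3 : ((w ^ 100 : ℕ) : ℝ) * Real.log 2 ≥ 0.69 * (w * (w : ℝ) ^ 99) := by
    push_cast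
    have h4 : (w : ℝ) ^ 100 = w * (w : ℝ) ^ 99 := by ring
    rw [h4]
    have h5 : 0 ≤ w * (w : ℝ) ^ 99 := by positivity
    nlinarith
  have h4 : 2 * (w : ℝ) ^ 99 * (100 * Real.log w) ≤ 400 * s * (w : ℝ) ^ 99 := by
    nlinarith
  have h5 : 400 * s ≤ 0.04 * w := by
    rw [← hss]
    nlinarith
  have h6 : 202 * s ≤ 0.04 * w := by nlinarith
  have h7 : (w : ℝ) ≤ w * (w : ℝ) ^ 99 := by
    have : (1 : ℝ) ≤ (w : ℝ) ^ 99 := one_le_pow₀ hw1.le
    nlinarith
  have h8 : 400 * s * (w : ℝ) ^ 99 ≤ 0.04 * w * (w : ℝ) ^ 99 :=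
    mul_le_mul_of_nonneg_right h5 hX.le
  nlinarith

theorem exists_primes (w : ℕ) (hw : 2 ^ 1600 ≤ w) :
    ∃ (z : ℕ) (P : Finset ℕ), w ^ 99 ≤ z ∧ z ≤ w ^ 100 ∧
      (∀ p ∈ P, p.Prime ∧ z ≤ p ∧ p * w ≤ z * (w + 1)) ∧ w ^ 97 ≤ P.card := by
  have hw8 : 10 ^ 8 ≤ w := by
    refine le_trans ?_ hw
    exact le_trans (by norm_num : 10 ^ 8 ≤ 2 ^ 27) (Nat.pow_le_pow_right Nat.two_pos (show 27 ≤ 1600 by omega))
  clear hw
  have hw0 : 0 < w := lt_of_lt_of_le (by norm_num) hw8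
  have hpi : 2 * w ^ 99 ≤ Nat.primeCounting (w ^ 100) := by
    have := pi_lower100 hw8
    exact_mod_cast this
  rw [Nat.primeCounting, Nat.primeCounting', Nat.count_eq_card_filter_range] at hpi
  have hpi' : 2 * w ^ 99 ≤ ((range (w ^ 100 + 1)).filter Nat.Prime).card := hpi
  clear hpi
  set Q : Finset ℕ := (range (w ^ 100)).filter (fun p => p.Prime ∧ w ^ 99 ≤ p) with hQ
  have hsub : (range (w ^ 100 + 1)).filter Nat.Prime ⊆ range (w ^ 99) ∪ (Q ∪ {w ^ 100}) := by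
    intro p hp
    rw [mem_filter, mem_range] at hp
    rw [mem_union, mem_union, mem_singleton, hQ, mem_filter, mem_range, mem_range]
    rcases lt_or_ge p (w ^ 99) with h | h
    · exact Or.inl h
    · rcases eq_or_ne p (w ^ 100) with h' | h'
      · exact Or.inr (Or.inr h')
      · exact Or.inr (Or.inl ⟨by omega, hp.2, h⟩)
  have hcard := card_le_card hsub
  have h1 := card_union_le (range (w ^ 99)) (Q ∪ {w ^ 100})
  have h2 := card_union_le Q {w ^ 100}
  rw [card_range] at h1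
  rw [card_singleton] at h2
  have hQc : w ^ 99 ≤ Q.card + 1 := by omega
  have hmaps : ∀ p ∈ Q, p / w ^ 98 ∈ Ico w (w ^ 2) := by
    intro p hp
    rw [hQ, mem_filter, mem_range] at hp
    rw [mem_Ico]
    constructor
    · rw [Nat.le_div_iff_mul_le (by positivity)]
      calc w * w ^ 98 = w ^ 99 := by ring
        _ ≤ p := hp.2.2
    · rw [Nat.div_lt_iff_lt_mul (by positivity)]
      calc p < w ^ 100 := hp.1
        _ = w ^ 2 * w ^ 98 := by ring
  have hle : (Ico w (w ^ 2)).card * w ^ 97 ≤ Q.card := by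
    rw [Nat.card_Ico, Nat.sub_mul]
    have e1 : w ^ 2 * w ^ 97 = w ^ 99 := by ring
    have e2 : 0 < w * w ^ 97 := by positivity
    rw [e1]
    omega
  have hne : (Ico w (w ^ 2)).Nonempty := by
    rw [nonempty_Ico]
    nlinarith
  obtain ⟨j, hj, hjc⟩ := exists_le_card_fiber_of_mul_le_card_of_maps_to hmaps hne hle
  rw [mem_Ico] at hj
  refine ⟨j * w ^ 98, Q.filter (fun p => p / w ^ 98 = j), ?_, ?_, ?_, hjc⟩
  · calc w ^ 99 = w * w ^ 98 := by ring
      _ ≤ j * w ^ 98 := Nat.mul_le_mul_right _ hj.1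
  · calc j * w ^ 98 ≤ w ^ 2 * w ^ 98 := Nat.mul_le_mul_right _ hj.2.le
      _ = w ^ 100 := by ring
  · intro p hp
    rw [mem_filter, hQ, mem_filter] at hp
    obtain ⟨⟨_, hpp, _⟩, hpj⟩ := hp
    refine ⟨hpp, ?_, ?_⟩
    · rw [← hpj]
      exact Nat.div_mul_le_self _ _
    · have h3 : p < (j + 1) * w ^ 98 := by
        rw [← hpj]
        exact Nat.lt_mul_of_div_lt (Nat.lt_succ_self _) (by positivity)
      calc p * w ≤ (j + 1) * w ^ 98 * w := Nat.mul_le_mul_right _ h3.le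
        _ = j * w ^ 98 * w + w * w ^ 98 := by ring
        _ ≤ j * w ^ 98 * w + j * w ^ 98 := by
          have := Nat.mul_le_mul_right (w ^ 98) hj.1
          omega
        _ = j * w ^ 98 * (w + 1) := by ring

end Vale.Agent.EgyptF
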