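import Mathlib
import Vale.Agent.EgyptF.Defs
import Vale.Agent.EgyptF.Primes
import Vale.Agent.EgyptF.NC
import Vale.Agent.EgyptF.Bilin
import Vale.Agent.EgyptF.ArchA

/-!
# Piece C3. The archimedean step.

`s = w / 2^27`, `m = 64 s = w / 2^21`.  Two pools from `nc_pool`: `v = v1 v2 ∈ [Z, 9 Z]`, `Z = z^{2m}`,
`x_i = v_i / z^m ∈ [1,3]`.  `W3 = 16^7 · ∏ (all primes of both pools) ≤ 2^{28} (2 w^100)^{4m} ≤ 2^{M w/160}`.
Digits `g_k = 16^k v^{(k)}`, `k = 0..7`, `v^{(k)}` a product `v1 v2`; distinct since `16^k Z ≤ g_k ≤ 9·16^k Z`.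
By `bilin` (`K = 2 s`) for `1 ≤ λ < L := 2^{2 s + 2}`, `y = λ α 16^k Z ∈ [w^60, 2^{4·2s}]`, `|E e(λ α g_k)| ≤ y^{-1/4}`, product over the
8 digits `≤ (λ w^60)^{-2}`.
Fejer kernel (`fejer_detect` below): there are `v^{(k)}` with `‖α ∑ g_k + η/2‖ ≤ η/2`, `η = 2^{-w/2^27}`; take
`q = ` the nearest integer to `α ∑ g_k + η/2`.
`fejer_detect`: points `x(ω) ∈ ℝ` with `∑_{1≤λ<L} |E e(λ x)| ≤ 1/4` and `L/2 > 1/η^2`.
Then some `ω` has `‖x(ω)‖ ≤ η/2`: otherwise `F(x) = |∑_{l<L} e(l x)|^2 ≤ 1/(4‖x‖^2) < 1/η^2` for all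
points, while `E F = ∑_{l,l'} E e((l-l')x) ≥ L - 2L·(1/4) = L/2`.
-/

open Finset

namespace Vale.Agent.EgyptF

lemma e_sum {ι : Type*} (s : Finset ι) (f : ι → ℝ) : e (∑ i ∈ s, f i) = ∏ i ∈ s, e (f i) := by
  classical
  induction s using Finset.induction_on with
  | empty => simp [e_zero]
  | insert a s ha ih => rw [sum_insert ha, prod_insert ha, e_add, ih]

lemma inv_sq_sum (n : ℕ) : ∑ l ∈ Ico 1 (n + 2), (1 : ℝ) / (l : ℝ) ^ 2 ≤ 2 - 1 / (n + 1) := by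
  induction n with
  | zero => norm_num
  | succ n ih =>
    rw [Finset.sum_Ico_succ_top (by omega)]
    have h1 : (1 : ℝ) / ((n + 2 : ℕ) : ℝ) ^ 2 ≤ 1 / (n + 1) - 1 / (n + 1 + 1) := by
      have hn : (0 : ℝ) ≤ n := Nat.cast_nonneg n
      push_cast
      rw [div_sub_div _ _ (by positivity) (by positivity), div_le_div_iff₀ (by positivity) (by positivity)]
      nlinarith
    have h2 : ((n + 1 : ℕ) : ℝ) + 1 = (n : ℝ) + 1 + 1 := by push_cast; ring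
    rw [h2]
    linarith

lemma inv_sq_sum_le (L : ℕ) : ∑ l ∈ Ico 1 L, (1 : ℝ) / (l : ℝ) ^ 2 ≤ 2 := by
  rcases L with _ | _ | L
  · simp
  · simp
  · refine (inv_sq_sum L).trans ?_
    have : (0 : ℝ) ≤ 1 / ((L : ℝ) + 1) := by positivity
    linarith

/-- the exponential sum over eight independent digits -/
lemma digits_sum {A : Type} [Fintype A] (v : A → ℝ) (c : Fin 8 → ℝ) (η l : ℝ) :
    ∑ ω : Fin 8 → A × A, e (l * ((∑ k, c k * (v (ω k).1 * v (ω k).2)) + η / 2)) =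
      e (l * η / 2) * ∏ k, ∑ a, ∑ b, e (l * c k * (v a * v b)) := by
  have h1 : ∀ ω : Fin 8 → A × A, e (l * ((∑ k, c k * (v (ω k).1 * v (ω k).2)) + η / 2)) =
      e (l * η / 2) * ∏ k, e (l * c k * (v (ω k).1 * v (ω k).2)) := by
    intro ω
    rw [← e_sum, ← e_add]
    congr 1
    rw [mul_add, mul_sum, add_comm]
    congr 1
    · ring
    · apply sum_congr rfl
      intro k _
      ring
  simp_rw [h1]
  rw [← mul_sum]
  congr 1
  have h2 := Finset.prod_univ_sum (fun _ : Fin 8 => (univ : Finset (A × A)))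
    (fun k x => e (l * c k * (v x.1 * v x.2)))
  rw [Fintype.piFinset_univ] at h2
  rw [← h2]
  apply prod_congr rfl
  intro k _
  rw [Fintype.sum_prod_type]

lemma prod8_bound (S : Fin 8 → ℝ) (hS : ∀ k, 0 ≤ S k) (T Y : ℝ) (hT : 0 ≤ T) (hY : 0 ≤ Y)
    (h : ∀ k, S k ^ 4 * Y ≤ T ^ 4) : (∏ k, S k) * Y ^ 2 ≤ T ^ 8 := by
  have h1 : ∏ k, (S k ^ 4 * Y) ≤ ∏ _k : Fin 8, T ^ 4 :=
    prod_le_prod (fun k _ => mul_nonneg (pow_nonneg (hS k) 4) hY) (fun k _ => h k)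
  rw [prod_mul_distrib, prod_pow, prod_const, prod_const, card_univ, Fintype.card_fin] at h1
  have h2 : ((∏ k, S k) * Y ^ 2) ^ 4 ≤ (T ^ 8) ^ 4 := by
    calc ((∏ k, S k) * Y ^ 2) ^ 4 = (∏ k, S k) ^ 4 * Y ^ 8 := by ring
      _ ≤ (T ^ 4) ^ 8 := h1
      _ = (T ^ 8) ^ 4 := by ring
  exact le_of_pow_le_pow_left₀ (by norm_num) (pow_nonneg hT 8) h2

/-- a pool product is between `z^m` and `3 z^m` -/
lemma vv_bounds (m w z : ℕ) (hw : 0 < w) (hmw : m ≤ w) (p : Fin m × Bool → ℕ)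
    (hp : ∀ i, z ≤ p i ∧ p i * w ≤ z * (w + 1)) (a : Fin m → Bool) :
    z ^ m ≤ vv p a ∧ vv p a ≤ 3 * z ^ m := by
  constructor
  · calc z ^ m = ∏ _i : Fin m, z := by rw [prod_const, card_univ, Fintype.card_fin]
      _ ≤ _ := prod_le_prod' fun i _ => (hp _).1
  · have hwr : (0 : ℝ) < w := by exact_mod_cast hw
    have h1 : ((vv p a : ℕ) : ℝ) ≤ (z : ℝ) ^ m * (1 + 1 / w) ^ m := by
      unfold vv
      push_cast
      calc ∏ i, (p (i, a i) : ℝ) ≤ ∏ _i : Fin m, ((z : ℝ) * (1 + 1 / w)) := by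
            apply prod_le_prod (fun i _ => Nat.cast_nonneg _)
            intro i _
            have h := (hp (i, a i)).2
            have h' : (p (i, a i) : ℝ) * w ≤ z * (w + 1) := by exact_mod_cast h
            have : (z : ℝ) * (1 + 1 / w) = z * (w + 1) / w := by field_simp
            rw [this, le_div_iff₀ hwr]
            exact h'
        _ = _ := by rw [prod_const, card_univ, Fintype.card_fin, mul_pow]
    have h2 : (1 + 1 / (w : ℝ)) ^ m ≤ 3 := by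
      calc (1 + 1 / (w : ℝ)) ^ m ≤ Real.exp (1 / w) ^ m := by
            apply pow_le_pow_left₀ (by positivity)
            have := Real.add_one_le_exp (1 / (w : ℝ))
            linarith
        _ = Real.exp (m * (1 / w)) := by rw [← Real.exp_nat_mul]
        _ ≤ Real.exp 1 := by
            apply Real.exp_le_exp.2
            rw [mul_one_div, div_le_one hwr]
            exact_mod_cast hmw
        _ ≤ 3 := by have := Real.exp_one_lt_d9; linarith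
    have h3 : ((vv p a : ℕ) : ℝ) ≤ 3 * (z : ℝ) ^ m := by
      refine h1.trans ?_
      rw [mul_comm]
      exact mul_le_mul_of_nonneg_right h2 (by positivity)
    exact_mod_cast h3

lemma vv_dvd (m : ℕ) (p : Fin m × Bool → ℕ) (a : Fin m → Bool) : vv p a ∣ ∏ i, p i := by
  unfold vv
  rw [Fintype.prod_prod_type]
  apply prod_dvd_prod_of_dvd
  intro i _
  exact dvd_prod_of_mem (fun b => p (i, b)) (mem_univ (a i))


/-- the bilinear bound for one digit -/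
lemma arch_one (M w s m z Z : ℕ) (hM : 100 ≤ M) (hw : w = 2 ^ (16 * M)) (hw1600 : 2 ^ 1600 ≤ w)
    (hsbig : 6144 * (M + 1) ≤ 6 * s) (hw0 : 0 < w)
    (p : Fin m × Bool → ℕ) (hz0 : 0 < z) (hv : ∀ a, z ^ m ≤ vv p a ∧ vv p a ≤ 3 * z ^ m)
    (hnc : ∀ k : ℕ, k ≤ 2 * s →
        ((univ.filter (fun x : (Fin m → Bool) × (Fin m → Bool) =>
          |(vv p x.1 : ℝ) - vv p x.2| ≤ (z : ℝ) ^ m / 2 ^ (16 * k))).card : ℝ) ≤
          (w : ℝ) ^ 6 * 4 ^ m / 2 ^ (15 * k))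
    (hZ : Z = (z ^ m) ^ 2) (α : ℝ) (hα : 0 < α) (hαl : (w : ℝ) ^ 60 ≤ α * Z)
    (hαu : α * Z ≤ 2 * (w : ℝ) ^ 60) (l k : ℕ) (hl1 : 1 ≤ l) (hl2 : l ≤ 2 ^ (2 * s + 2)) (hk : k ≤ 7) :
    ‖∑ a : Fin m → Bool, ∑ b : Fin m → Bool, e ((l : ℝ) * (α * 16 ^ k) * ((vv p a : ℝ) * (vv p b : ℝ)))‖ ^ 4 *
      ((l : ℝ) * (w : ℝ) ^ 60) ≤ ((2 : ℝ) ^ m * 2 ^ m) ^ 4 := by
  classical
  have hzr : (0 : ℝ) < (z : ℝ) ^ m := by positivity
  obtain ⟨x1, hx1⟩ : ∃ x1 : (Fin m → Bool) → ℝ, ∀ a, x1 a = (vv p a : ℝ) / (z : ℝ) ^ m := ⟨_, fun _ => rfl⟩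
  have hx1b : ∀ a, 1 ≤ x1 a ∧ x1 a ≤ 3 := by
    intro a
    have h1 : (z : ℝ) ^ m ≤ vv p a := by exact_mod_cast (hv a).1
    have h2 : (vv p a : ℝ) ≤ 3 * (z : ℝ) ^ m := by exact_mod_cast (hv a).2
    rw [hx1]
    constructor
    · rw [le_div_iff₀ hzr]; linarith
    · rw [div_le_iff₀ hzr]; linarith
  have hcardA : (Fintype.card (Fin m → Bool) : ℝ) = 2 ^ m := by simp
  have hnc' : ∀ k : ℕ, k ≤ 2 * s →
      ((univ.filter (fun q : (Fin m → Bool) × (Fin m → Bool) => |x1 q.1 - x1 q.2| ≤ 1 / 2 ^ (16 * k))).card : ℝ) ≤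
        (w : ℝ) ^ 6 * (Fintype.card (Fin m → Bool) : ℝ) ^ 2 / 2 ^ (15 * k) := by
    intro k hk
    have h1 := hnc k hk
    have h2 : (Fintype.card (Fin m → Bool) : ℝ) ^ 2 = 4 ^ m := by
      rw [hcardA, ← pow_mul, mul_comm, pow_mul]
      norm_num
    rw [h2]
    refine le_trans ?_ h1
    have h3 : (univ.filter (fun q : (Fin m → Bool) × (Fin m → Bool) => |x1 q.1 - x1 q.2| ≤ 1 / 2 ^ (16 * k))) ⊆
        univ.filter (fun x : (Fin m → Bool) × (Fin m → Bool) =>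
        |(vv p x.1 : ℝ) - vv p x.2| ≤ (z : ℝ) ^ m / 2 ^ (16 * k)) := by
      intro q hq
      rw [mem_filter] at hq ⊢
      refine ⟨mem_univ _, ?_⟩
      have h4 := hq.2
      have h5 : x1 q.1 - x1 q.2 = ((vv p q.1 : ℝ) - vv p q.2) / (z : ℝ) ^ m := by
        rw [hx1, hx1]; ring
      rw [h5, abs_div, abs_of_pos hzr, div_le_iff₀ hzr] at h4
      calc _ ≤ _ := h4
        _ = _ := by ring
    exact_mod_cast card_le_card h3
  have hZr : (Z : ℝ) = ((z : ℝ) ^ m) ^ 2 := by rw [hZ]; push_cast; ring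
  have hl1 : (1 : ℝ) ≤ l := by exact_mod_cast hl1
  have h16 : (1 : ℝ) ≤ 16 ^ (k : ℕ) := one_le_pow₀ (by norm_num)
  obtain ⟨y, hy⟩ : ∃ y : ℝ, y = (l : ℝ) * (16 ^ k * (α * Z)) := ⟨_, rfl⟩
  have hyl : (l : ℝ) * (w : ℝ) ^ 60 ≤ y := by
    rw [hy]
    apply mul_le_mul_of_nonneg_left _ (by linarith)
    have h0 : 0 ≤ α * Z := by positivity
    nlinarith
  have hy1 : (w : ℝ) ^ 60 ≤ y := by
    refine le_trans ?_ hyl
    have : (0 : ℝ) ≤ (w : ℝ) ^ 60 := by positivity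
    nlinarith
  have hy2 : y ≤ 2 ^ (4 * (2 * s)) := by
    have h2 : (16 : ℝ) ^ (k : ℕ) ≤ 2 ^ 28 := by
      calc (16 : ℝ) ^ (k : ℕ) ≤ 16 ^ 7 := pow_le_pow_right₀ (by norm_num) (by omega)
        _ = 2 ^ 28 := by norm_num
    have h3 : (l : ℝ) ≤ 2 ^ (2 * s + 2) := by exact_mod_cast hl2
    have h4 : (w : ℝ) ^ 60 = 2 ^ (960 * M) := by
      rw [hw]; push_cast; rw [← pow_mul]; congr 1; ring
    calc y = (l : ℝ) * (16 ^ (k : ℕ) * (α * Z)) := hy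
      _ ≤ 2 ^ (2 * s + 2) * (2 ^ 28 * (2 * (w : ℝ) ^ 60)) := by
          apply mul_le_mul h3 _ (by positivity) (by positivity)
          exact mul_le_mul h2 hαu (by positivity) (by positivity)
      _ = 2 ^ (2 * s + 2 + (28 + (1 + 960 * M))) := by rw [h4, pow_add, pow_add, pow_add]; ring
      _ ≤ _ := pow_le_pow_right₀ (by norm_num) (by omega)
  have hb := bilin x1 x1 w (2 * s) hw1600 hx1b hx1b hnc' hnc' y hy1 hy2
  rw [hcardA] at hb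
  have h5 : ∑ a : Fin m → Bool, ∑ b : Fin m → Bool, e ((l : ℝ) * (α * 16 ^ k) * ((vv p a : ℝ) * (vv p b : ℝ))) =
      ∑ a, ∑ b, e (y * (x1 a * x1 b)) := by
    apply sum_congr rfl
    intro a _
    apply sum_congr rfl
    intro b _
    congr 1
    have ha : (vv p a : ℝ) = x1 a * (z : ℝ) ^ m := by rw [hx1]; field_simp
    have hb' : (vv p b : ℝ) = x1 b * (z : ℝ) ^ m := by rw [hx1]; field_simp
    rw [ha, hb', hy, hZr]
    ring
  rw [h5]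
  refine le_trans ?_ hb
  exact mul_le_mul_of_nonneg_left hyl (by positivity)

/-- the sum over all frequencies -/
lemma arch_sum (w m L : ℕ) (hw8 : 8 ≤ w) (v : (Fin m → Bool) → ℝ) (c : Fin 8 → ℝ) (η : ℝ)
    (hdig : ∀ l ∈ Ico 1 L, ∀ k : Fin 8,
        ‖∑ a, ∑ b, e ((l : ℝ) * c k * (v a * v b))‖ ^ 4 * ((l : ℝ) * (w : ℝ) ^ 60) ≤ ((2 : ℝ) ^ m * 2 ^ m) ^ 4) :
    ∑ l ∈ Ico 1 L, ‖∑ ω : Fin 8 → (Fin m → Bool) × (Fin m → Bool),
        e ((l : ℝ) * ((∑ k, c k * (v (ω k).1 * v (ω k).2)) + η / 2))‖ ≤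
        (1 / 4) * Fintype.card (Fin 8 → (Fin m → Bool) × (Fin m → Bool)) := by
  classical
  have hcardΩ : (Fintype.card (Fin 8 → (Fin m → Bool) × (Fin m → Bool)) : ℝ) =
      ((2 : ℝ) ^ m * 2 ^ m) ^ 8 := by
    rw [Fintype.card_fun, Fintype.card_prod, Fintype.card_fin]
    push_cast
    simp
  rw [hcardΩ]
  have hwr : (0 : ℝ) < w := by
    have : 0 < w := by omega
    exact_mod_cast this
  obtain ⟨T, hT⟩ : ∃ T : ℝ, T = (2 : ℝ) ^ m * 2 ^ m := ⟨_, rfl⟩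
  rw [← hT] at hdig ⊢
  have hT0 : 0 ≤ T := by rw [hT]; positivity
  have h1 : ∀ l ∈ Ico 1 L, ‖∑ ω : Fin 8 → (Fin m → Bool) × (Fin m → Bool),
        e ((l : ℝ) * ((∑ k, c k * (v (ω k).1 * v (ω k).2)) + η / 2))‖ ≤
        T ^ 8 / (w : ℝ) ^ 120 * (1 / (l : ℝ) ^ 2) := by
    intro l hl
    have hl' := mem_Ico.1 hl
    have hl1 : (1 : ℝ) ≤ l := by exact_mod_cast hl'.1
    rw [digits_sum v c η (l : ℝ), norm_mul, norm_e, one_mul, norm_prod]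
    have h4 := prod8_bound (fun k => ‖∑ a, ∑ b, e ((l : ℝ) * c k * (v a * v b))‖)
      (fun k => norm_nonneg _) T ((l : ℝ) * (w : ℝ) ^ 60) hT0 (by positivity) (hdig l hl)
    have h5 : T ^ 8 / (w : ℝ) ^ 120 * (1 / (l : ℝ) ^ 2) = T ^ 8 / ((l : ℝ) * (w : ℝ) ^ 60) ^ 2 := by
      rw [div_mul_div_comm, mul_one]
      congr 1
      ring
    rw [h5, le_div_iff₀ (by positivity)]
    exact h4
  refine (sum_le_sum h1).trans ?_
  rw [← mul_sum]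
  have h6 := inv_sq_sum_le L
  have h7 : T ^ 8 / (w : ℝ) ^ 120 ≤ T ^ 8 / 8 := by
    apply div_le_div_of_nonneg_left (by positivity) (by norm_num)
    have h8 : (8 : ℝ) ≤ w := by exact_mod_cast hw8
    calc (8 : ℝ) ≤ w := h8
      _ = (w : ℝ) ^ 1 := (pow_one _).symm
      _ ≤ (w : ℝ) ^ 120 := pow_le_pow_right₀ (by linarith) (by norm_num)
  have h9 : 0 ≤ T ^ 8 / (w : ℝ) ^ 120 := by positivity
  calc T ^ 8 / (w : ℝ) ^ 120 * ∑ l ∈ Ico 1 L, 1 / (l : ℝ) ^ 2 ≤ T ^ 8 / (w : ℝ) ^ 120 * 2 :=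
        mul_le_mul_of_nonneg_left h6 h9
    _ ≤ T ^ 8 / 8 * 2 := by linarith
    _ = 1 / 4 * T ^ 8 := by ring

/-- from the digits to the multiset of divisors -/
lemma arch_digits (w s m z Z : ℕ) (hw34 : 2 ^ 34 ≤ w) (p : Fin m × Bool → ℕ) (hz0 : 0 < z)
    (hv : ∀ a, z ^ m ≤ vv p a ∧ vv p a ≤ 3 * z ^ m) (hZ : Z = (z ^ m) ^ 2) (hwdiv : w / 2 ^ 27 = s)
    (α : ℝ) (hα : 0 < α) (hαu : α * Z ≤ 2 * (w : ℝ) ^ 60) (η : ℝ) (hη : η = 1 / 2 ^ s) (hη1 : η ≤ 1)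
    (ω : Fin 8 → (Fin m → Bool) × (Fin m → Bool))
    (hω : nd ((∑ k : Fin 8, (α * 16 ^ (k : ℕ)) * ((vv p (ω k).1 : ℝ) * (vv p (ω k).2 : ℝ))) + η / 2) ≤ η / 2) :
    ∃ (GG : Finset ℕ) (q : ℕ), GG.card ≤ 8 ∧ GG.Nonempty ∧ (∀ g ∈ GG, g ∣ 16 ^ 7 * (∏ i, p i) ^ 2 ∧ Z ≤ g) ∧
          α * ((∑ g ∈ GG, g : ℕ) : ℝ) ≤ q ∧
          (q : ℝ) ≤ α * ((∑ g ∈ GG, g : ℕ) : ℝ) + 1 / 2 ^ (w / 2 ^ 27) ∧ q ≤ w ^ 61 := by
  classical
  have hw0 : 0 < w := lt_of_lt_of_le (by norm_num) hw34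
  have hZpos : 0 < Z := by rw [hZ]; positivity
  obtain ⟨g, hg⟩ : ∃ g : Fin 8 → ℕ, ∀ k, g k = 16 ^ (k : ℕ) * (vv p (ω k).1 * vv p (ω k).2) := ⟨_, fun _ => rfl⟩
  have hgl : ∀ k : Fin 8, 16 ^ (k : ℕ) * Z ≤ g k := by
    intro k
    rw [hg]
    apply Nat.mul_le_mul_left
    rw [hZ, pow_two]
    exact Nat.mul_le_mul (hv _).1 (hv _).1
  have hgu : ∀ k : Fin 8, g k ≤ 9 * (16 ^ (k : ℕ) * Z) := by
    intro k
    calc g k ≤ 16 ^ (k : ℕ) * ((3 * z ^ m) * (3 * z ^ m)) := by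
          rw [hg]
          exact Nat.mul_le_mul_left _ (Nat.mul_le_mul (hv _).2 (hv _).2)
      _ = _ := by rw [hZ]; ring
  have hmono : StrictMono g := by
    intro k k' hkk
    have h1 : 16 ^ ((k : ℕ) + 1) ≤ 16 ^ (k' : ℕ) := Nat.pow_le_pow_right (by norm_num) (by exact_mod_cast hkk)
    have h2 : 0 < 16 ^ (k : ℕ) * Z := by positivity
    calc g k ≤ 9 * (16 ^ (k : ℕ) * Z) := hgu k
      _ < 16 * (16 ^ (k : ℕ) * Z) := by omega
      _ = 16 ^ ((k : ℕ) + 1) * Z := by rw [pow_succ]; ring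
      _ ≤ 16 ^ (k' : ℕ) * Z := Nat.mul_le_mul_right _ h1
      _ ≤ g k' := hgl k'
  have hsumG : ∑ x ∈ univ.image g, x = ∑ k, g k := sum_image fun a _ b _ h => hmono.injective h
  obtain ⟨X, hX⟩ : ∃ X : ℝ, X = (∑ k : Fin 8, (α * 16 ^ (k : ℕ)) * ((vv p (ω k).1 : ℝ) * (vv p (ω k).2 : ℝ))) + η / 2 :=
    ⟨_, rfl⟩
  rw [← hX] at hω
  have hXg : X = α * ((∑ k, g k : ℕ) : ℝ) + η / 2 := by
    have h1 : (∑ k : Fin 8, (α * 16 ^ (k : ℕ)) * ((vv p (ω k).1 : ℝ) * (vv p (ω k).2 : ℝ))) =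
        α * ((∑ k, g k : ℕ) : ℝ) := by
      rw [Nat.cast_sum, mul_sum]
      apply sum_congr rfl
      intro k _
      rw [hg]
      push_cast
      ring
    rw [hX, h1]
  obtain ⟨r, hr⟩ : ∃ r : ℤ, nd X = |X - r| := exists_int X
  rw [hr, abs_le] at hω
  obtain ⟨S, hS⟩ : ∃ S : ℕ, S = ∑ k, g k := ⟨_, rfl⟩
  rw [← hS] at hXg hsumG
  have hS0 : 0 ≤ α * (S : ℝ) := by positivity
  have hrl : α * (S : ℝ) ≤ r := by linarith [hω.2]
  have hru : (r : ℝ) ≤ α * (S : ℝ) + η := by linarith [hω.1]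
  have hr0 : 0 ≤ r := by
    have : (0 : ℝ) ≤ r := hS0.trans hrl
    exact_mod_cast this
  have hrc : ((r.toNat : ℕ) : ℝ) = (r : ℝ) := by
    have h1 : ((r.toNat : ℕ) : ℤ) = r := Int.toNat_of_nonneg hr0
    exact_mod_cast congrArg (fun t : ℤ => (t : ℝ)) h1
  refine ⟨univ.image g, r.toNat, ?_, ?_, ?_, ?_, ?_, ?_⟩
  · calc (univ.image g).card ≤ (univ : Finset (Fin 8)).card := card_image_le
      _ = 8 := by simp
  · exact ⟨g 0, mem_image_of_mem g (mem_univ 0)⟩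
  · intro x hx
    rw [mem_image] at hx
    obtain ⟨k, -, rfl⟩ := hx
    constructor
    · rw [hg, pow_two (∏ i, p i)]
      apply Nat.mul_dvd_mul
      · exact pow_dvd_pow 16 (by omega)
      · exact Nat.mul_dvd_mul (vv_dvd m p _) (vv_dvd m p _)
    · exact le_trans (Nat.le_mul_of_pos_left _ (by positivity)) (hgl k)
  · rw [hsumG, hrc]; exact hrl
  · rw [hsumG, hrc, hwdiv, ← hη]; exact hru
  · have h1 : (S : ℝ) ≤ 2576980377 * Z := by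
      have h2 : ∑ k, g k ≤ ∑ k : Fin 8, 9 * (16 ^ (k : ℕ) * Z) := sum_le_sum fun k _ => hgu k
      have h3 : ∑ k : Fin 8, 9 * (16 ^ (k : ℕ) * Z) = 2576980377 * Z + 9 * 0 := by
        rw [← mul_sum, ← sum_mul, Fin.sum_univ_eight]
        simp only [Fin.val_zero, Fin.val_one, Fin.val_two]
        norm_num
        ring
      rw [h3, ← hS] at h2
      have h2' : S ≤ 2576980377 * Z := by omega
      exact_mod_cast h2'
    have h6 : (1 : ℝ) ≤ (w : ℝ) ^ 60 := one_le_pow₀ (by exact_mod_cast hw0)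
    have h4 : (r : ℝ) ≤ 2 ^ 34 * (w : ℝ) ^ 60 := by
      have h5 : α * (S : ℝ) ≤ 2576980377 * (2 * (w : ℝ) ^ 60) := by
        calc α * (S : ℝ) ≤ α * (2576980377 * Z) := mul_le_mul_of_nonneg_left h1 hα.le
          _ = 2576980377 * (α * Z) := by ring
          _ ≤ _ := by linarith
      have h7 : (r : ℝ) ≤ 2576980377 * (2 * (w : ℝ) ^ 60) + 1 := by linarith
      norm_num
      linarith
    have h8 : (r : ℝ) ≤ (w : ℝ) ^ 61 := by
      refine h4.trans ?_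
      have h9 : (2 : ℝ) ^ 34 ≤ w := by exact_mod_cast hw34
      calc (2 : ℝ) ^ 34 * (w : ℝ) ^ 60 ≤ w * (w : ℝ) ^ 60 := mul_le_mul_of_nonneg_right h9 (by positivity)
        _ = _ := by ring
    rw [← hrc] at h8
    exact_mod_cast h8


theorem arch (M w : ℕ) (hM : 100 ≤ M) (hw : w = 2 ^ (16 * M)) :
    ∃ (W3 Z : ℕ), 1 ≤ Z ∧ Z ≤ W3 ∧ W3 ≤ 2 ^ (M * w / 160) ∧
      ∀ α : ℝ, 0 < α → (w : ℝ) ^ 60 ≤ α * Z → α * Z ≤ 2 * (w : ℝ) ^ 60 →
        ∃ (GG : Finset ℕ) (q : ℕ), GG.card ≤ 8 ∧ GG.Nonempty ∧ (∀ g ∈ GG, g ∣ W3 ∧ Z ≤ g) ∧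
          α * ((∑ g ∈ GG, g : ℕ) : ℝ) ≤ q ∧
          (q : ℝ) ≤ α * ((∑ g ∈ GG, g : ℕ) : ℝ) + 1 / 2 ^ (w / 2 ^ 27) ∧ q ≤ w ^ 61 := by
  classical
  have hw1600 : 2 ^ 1600 ≤ w := by
    rw [hw]
    exact Nat.pow_le_pow_right (by norm_num) (by omega)
  obtain ⟨s, hs⟩ : ∃ s : ℕ, s = 2 ^ (16 * M - 27) := ⟨_, rfl⟩
  have hws : w = 2 ^ 27 * s := by
    rw [hw, hs, ← pow_add]
    congr 1
    omega
  have hs1 : 1 ≤ s := by rw [hs]; exact Nat.one_le_two_pow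
  have hwdiv : w / 2 ^ 27 = s := by
    rw [hws]
    exact Nat.mul_div_cancel_left s (by norm_num)
  have hsbig : 6144 * (M + 1) ≤ 6 * s := by
    have h1 : 2 ^ (M + 10) ≤ s := by rw [hs]; exact Nat.pow_le_pow_right (by norm_num) (by omega)
    have h2 : M < 2 ^ M := Nat.lt_two_pow_self
    have h3 : 2 ^ (M + 10) = 1024 * 2 ^ M := by rw [pow_add]; ring
    omega
  have hw0 : 0 < w := by omega
  have hm_w : 64 * s ≤ w := by omega
  obtain ⟨z, P, hz1, hz2, hP, hPc⟩ := exists_primes w hw1600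
  have hncp := nc_pool M s w z P hM hs1 hw hm_w hz1 hz2 hP hPc
  obtain ⟨m, hm⟩ : ∃ m : ℕ, m = 64 * s := ⟨_, rfl⟩
  rw [← hm] at hncp hm_w
  obtain ⟨p, hpP, hnc⟩ := hncp
  have hp : ∀ i, z ≤ p i ∧ p i * w ≤ z * (w + 1) := fun i => ⟨(hP _ (hpP i)).2.1, (hP _ (hpP i)).2.2⟩
  have hz0 : 0 < z := lt_of_lt_of_le (pow_pos hw0 99) hz1
  have hv := vv_bounds m w z hw0 hm_w p hp
  have hPi0 : 0 < ∏ i, p i := prod_pos fun i _ => lt_of_lt_of_le hz0 (hp i).1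
  obtain ⟨Z, hZ⟩ : ∃ Z : ℕ, Z = (z ^ m) ^ 2 := ⟨_, rfl⟩
  have hZ1 : 1 ≤ Z := by
    rw [hZ]
    exact Nat.one_le_iff_ne_zero.2 (by positivity)
  refine ⟨16 ^ 7 * (∏ i, p i) ^ 2, Z, hZ1, ?_, ?_, ?_⟩
  · -- Z ≤ W3
    have h1 : z ^ m ≤ ∏ i, p i := (hv (fun _ => true)).1.trans (Nat.le_of_dvd hPi0 (vv_dvd m p _))
    calc Z = (z ^ m) ^ 2 := hZ
      _ ≤ (∏ i, p i) ^ 2 := Nat.pow_le_pow_left h1 2
      _ ≤ 16 ^ 7 * (∏ i, p i) ^ 2 := Nat.le_mul_of_pos_left _ (by norm_num)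
  · -- size
    have h1 : ∀ i, p i ≤ 2 * w ^ 100 := by
      intro i
      have h2 := (hp i).2
      have h3 : p i * w ≤ (2 * w ^ 100) * w := by
        calc p i * w ≤ z * (w + 1) := h2
          _ ≤ w ^ 100 * (2 * w) := Nat.mul_le_mul hz2 (by omega)
          _ = _ := by ring
      exact Nat.le_of_mul_le_mul_right h3 hw0
    have h2 : ∏ i, p i ≤ (2 * w ^ 100) ^ (2 * m) := by
      calc ∏ i, p i ≤ ∏ _i : Fin m × Bool, (2 * w ^ 100) := prod_le_prod' fun i _ => h1 i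
        _ = (2 * w ^ 100) ^ (2 * m) := by
          rw [prod_const, card_univ, Fintype.card_prod, Fintype.card_fin, Fintype.card_bool, mul_comm m 2]
    have h3 : 2 * w ^ 100 = 2 ^ (1 + 1600 * M) := by
      rw [hw, ← pow_mul, pow_add, pow_one]
      congr 2
      ring
    have h4 : 16 ^ 7 * (∏ i, p i) ^ 2 ≤ 2 ^ (28 + (1 + 1600 * M) * (4 * m)) := by
      calc 16 ^ 7 * (∏ i, p i) ^ 2 ≤ 16 ^ 7 * ((2 ^ (1 + 1600 * M)) ^ (2 * m)) ^ 2 := by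
            apply Nat.mul_le_mul_left
            apply Nat.pow_le_pow_left
            rw [← h3]
            exact h2
        _ = 2 ^ (28 + (1 + 1600 * M) * (4 * m)) := by
            rw [show (16 : ℕ) = 2 ^ 4 by norm_num, ← pow_mul, ← pow_mul, ← pow_mul, ← pow_add]
            congr 1
            ring
    refine h4.trans (Nat.pow_le_pow_right (by norm_num) ?_)
    rw [Nat.le_div_iff_mul_le (by norm_num), hws, hm]
    have h5 : s ≤ M * s := Nat.le_mul_of_pos_left _ (by omega)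
    have h6 : (28 + (1 + 1600 * M) * (4 * (64 * s))) * 160 = 4480 + 40960 * s + 65536000 * (M * s) := by ring
    have h7 : M * (2 ^ 27 * s) = 134217728 * (M * s) := by ring
    rw [h6, h7]
    omega
  · intro α hα hαl hαu
    have hη1 : (1 : ℝ) / 2 ^ s ≤ 1 := by
      rw [div_le_one (by positivity)]
      exact one_le_pow₀ (by norm_num)
    obtain ⟨η, hη⟩ : ∃ η : ℝ, η = 1 / 2 ^ s := ⟨_, rfl⟩
    rw [← hη] at hη1
    have hη0 : 0 < η := by rw [hη]; positivity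
    obtain ⟨L, hL⟩ : ∃ L : ℕ, L = 2 ^ (2 * s + 2) := ⟨_, rfl⟩
    have hLη : 2 < (L : ℝ) * η ^ 2 := by
      have : (L : ℝ) * η ^ 2 = 4 := by
        rw [hL, hη]
        push_cast
        rw [pow_add, mul_comm 2 s, pow_mul, div_pow, one_pow]
        field_simp
        norm_num
      rw [this]; norm_num
    have hdig : ∀ l ∈ Ico 1 L, ∀ k : Fin 8,
        ‖∑ a : Fin m → Bool, ∑ b : Fin m → Bool,
          e ((l : ℝ) * (fun k : Fin 8 => α * 16 ^ (k : ℕ)) k *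
            ((fun a : Fin m → Bool => (vv p a : ℝ)) a * (fun a : Fin m → Bool => (vv p a : ℝ)) b))‖ ^ 4 *
          ((l : ℝ) * (w : ℝ) ^ 60) ≤ ((2 : ℝ) ^ m * 2 ^ m) ^ 4 := by
      intro l hl k
      rw [mem_Ico] at hl
      exact arch_one M w s m z Z hM hw hw1600 hsbig hw0 p hz0 hv hnc hZ α hα hαl hαu l k hl.1
        (by rw [← hL]; exact hl.2.le) (by omega)
    have hw8 : 8 ≤ w := by
      calc 8 = 2 ^ 3 := by norm_num
        _ ≤ 2 ^ 1600 := Nat.pow_le_pow_right (by norm_num) (by norm_num)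
        _ ≤ w := hw1600
    have hsum := arch_sum w m L hw8 (fun a => (vv p a : ℝ))
      (fun k : Fin 8 => α * 16 ^ (k : ℕ)) η hdig
    obtain ⟨ω, hω⟩ := fejer_detect (Ω := Fin 8 → (Fin m → Bool) × (Fin m → Bool))
      (fun ω => (∑ k, (fun k : Fin 8 => α * 16 ^ (k : ℕ)) k *
        ((fun a : Fin m → Bool => (vv p a : ℝ)) (ω k).1 * (fun a : Fin m → Bool => (vv p a : ℝ)) (ω k).2)) + η / 2)
      L η hη0 hLη hsum
    exact arch_digits w s m z Z (le_trans (Nat.pow_le_pow_right (by norm_num) (by norm_num)) hw1600) p hz0 hv hZ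
      hwdiv α hα hαu η hη hη1 ω hω

end Vale.Agent.EgyptF
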