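import Mathlib
import Vale.Agent.EgyptF.Defs

/-!
# Piece D, part 1: expansions, resolution of small numerators.
-/

open Finset

namespace Vale.Agent.EgyptF

/-- `x` is a sum of at most `k` distinct unit fractions -/
def Ex (x : ℚ) (k : ℕ) : Prop :=
  ∃ s : Finset ℕ, (∀ n ∈ s, 0 < n) ∧ ∑ n ∈ s, (1 : ℚ) / n = x ∧ s.card ≤ k

lemma Ex.mono {x : ℚ} {k k' : ℕ} (h : Ex x k) (hk : k ≤ k') : Ex x k' := by
  obtain ⟨s, h1, h2, h3⟩ := h
  exact ⟨s, h1, h2, h3.trans hk⟩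

lemma Ex.zero : Ex 0 0 := ⟨∅, by simp, by simp, by simp⟩

lemma Ex.step {x' : ℚ} {k : ℕ} (h : Ex x' k) (T : Finset ℕ)
    (hT : ∀ c ∈ T, 0 < c ∧ x' < 1 / (c : ℚ)) : Ex (x' + ∑ c ∈ T, 1 / (c : ℚ)) (k + T.card) := by
  obtain ⟨s, h1, h2, h3⟩ := h
  have hdisj : Disjoint s T := by
    rw [Finset.disjoint_left]
    intro n hn hnT
    have h4 : (1 : ℚ) / n ≤ x' := by
      rw [← h2]
      apply Finset.single_le_sum (f := fun n : ℕ => (1 : ℚ) / n) (fun i _ => by positivity) hn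
    exact absurd (hT n hnT).2 (not_lt.mpr h4)
  refine ⟨s ∪ T, ?_, ?_, ?_⟩
  · intro n hn
    rcases Finset.mem_union.mp hn with h | h
    · exact h1 n h
    · exact (hT n h).1
  · rw [Finset.sum_union hdisj, h2]
  · rw [Finset.card_union_of_disjoint hdisj]
    omega

/-- the resolving property of `W`: all `n ≤ Nm` coprime to `PP` divide a sum of `≤ T` divisors. -/
def Resolves (W Nm T : ℕ) (PP : Finset ℕ) : Prop :=
  ∀ n : ℕ, 1 ≤ n → n ≤ Nm → (∀ p ∈ PP, Nat.Coprime p n) →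
    ∃ DD : Finset ℕ, DD.Nonempty ∧ DD.card ≤ T ∧ (∀ d ∈ DD, 0 < d ∧ d ∣ W) ∧ n ∣ ∑ d ∈ DD, d

/-- unit fractions from divisors of the denominator -/
lemma ex_of_divisors {B q : ℕ} (hB : 0 < B) (hq : 0 < q) (DD : Finset ℕ) (hd : ∀ d ∈ DD, 0 < d ∧ d ∣ B) :
    ∃ T : Finset ℕ, T.card ≤ DD.card ∧ (∀ c ∈ T, 0 < c ∧ ∃ d ∈ DD, (1 : ℚ) / c = d / (B * q)) ∧
      ∑ c ∈ T, (1 : ℚ) / c = (∑ d ∈ DD, d : ℕ) / ((B : ℚ) * q) := by
  have hkey : ∀ d ∈ DD, 0 < B * q / d ∧ (1 : ℚ) / ((B * q / d : ℕ) : ℚ) = d / (B * q) := by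
    intro d hdd
    obtain ⟨hd0, hdB⟩ := hd d hdd
    have hdvd : d ∣ B * q := Dvd.dvd.mul_right hdB q
    have hpos : 0 < B * q / d := Nat.div_pos (Nat.le_of_dvd (by positivity) hdvd) hd0
    refine ⟨hpos, ?_⟩
    rw [Nat.cast_div hdvd (by positivity)]
    push_cast
    rw [one_div_div]
  refine ⟨DD.image (fun d => B * q / d), Finset.card_image_le, ?_, ?_⟩
  · intro c hc
    obtain ⟨d, hdd, rfl⟩ := Finset.mem_image.mp hc
    exact ⟨(hkey d hdd).1, d, hdd, (hkey d hdd).2⟩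
  · rw [Finset.sum_image]
    · rw [Finset.sum_congr rfl (fun d hdd => (hkey d hdd).2)]
      push_cast
      rw [Finset.sum_div]
    · intro d hdd d' hdd' heq
      simp only at heq
      have h1 := (hkey d hdd).2
      have h2 := (hkey d' hdd').2
      rw [heq, h2] at h1
      have h3 : ((B : ℚ) * q) ≠ 0 := by positivity
      field_simp at h1
      exact_mod_cast h1.symm

lemma ex_of_resolves {W Nm T : ℕ} {PP : Finset ℕ} (hR : Resolves W Nm T PP) {n B : ℕ} (hn : 1 ≤ n)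
    (hnN : n ≤ Nm) (hcop : ∀ p ∈ PP, Nat.Coprime p n) (hB : 0 < B) (hWB : W ∣ B) :
    Ex ((n : ℚ) / B) T := by
  obtain ⟨DD, h1, h2, h3, q, hq⟩ := hR n hn hnN hcop
  have hsum : 0 < ∑ d ∈ DD, d := Finset.sum_pos (fun d hd => (h3 d hd).1) h1
  have hq0 : 0 < q := by
    rcases Nat.eq_zero_or_pos q with h | h
    · rw [h, mul_zero] at hq
      omega
    · exact h
  obtain ⟨S, hS1, hS2, hS3⟩ := ex_of_divisors hB hq0 DD (fun d hd => ⟨(h3 d hd).1, (h3 d hd).2.trans hWB⟩)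
  refine ⟨S, fun c hc => (hS2 c hc).1, ?_, hS1.trans h2⟩
  rw [hS3, hq]
  push_cast
  have h4 : (B : ℚ) ≠ 0 := by positivity
  have h5 : (q : ℚ) ≠ 0 := by positivity
  field_simp

/-- choose a shift making the numerator coprime to all primes of `PP` -/
lemma exists_shift (PP : Finset ℕ) (hPP : ∀ p ∈ PP, p.Prime ∧ PP.card < p ∧ 2 < p) (n q κ : ℕ)
    (hq : 2 ^ κ ≤ q * n) :
    ∃ j ≤ PP.card, ∀ p ∈ PP, Nat.Coprime p ((q + j) * n - 2 ^ κ) := by
  by_contra hcon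
  push Not at hcon
  have hbad : ∀ j ∈ Finset.range (PP.card + 1), ∃ p ∈ PP, p ∣ (q + j) * n - 2 ^ κ := by
    intro j hj
    obtain ⟨p, hp, hnc⟩ := hcon j (by simpa [Nat.lt_succ_iff] using hj)
    refine ⟨p, hp, ?_⟩
    by_contra hnd
    exact hnc ((Nat.Prime.coprime_iff_not_dvd (hPP p hp).1).mpr hnd)
  choose! F hF1 hF2 using hbad
  have hcard : PP.card < (Finset.range (PP.card + 1)).card := by simp
  obtain ⟨j, hj, j', hj', hne, heq⟩ := Finset.exists_ne_map_eq_of_card_lt_of_maps_to hcard hF1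
  wlog hlt : j < j' generalizing j j'
  · exact this j' hj' j hj hne.symm heq.symm (lt_of_le_of_ne (not_lt.mp hlt) hne.symm)
  have hp := hPP _ (hF1 j hj)
  have hj'' := Finset.mem_range.mp hj'
  have hd1 := hF2 j hj
  have hd2 := hF2 j' hj'
  rw [← heq] at hd2
  set p := F j with hpdef
  have h1 : (q + j') * n - 2 ^ κ - ((q + j) * n - 2 ^ κ) = (j' - j) * n := by
    have e1 : 2 ^ κ ≤ (q + j) * n := hq.trans (Nat.mul_le_mul_right _ (by omega))
    have e2 : 2 ^ κ ≤ (q + j') * n := hq.trans (Nat.mul_le_mul_right _ (by omega))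
    have e3 : (q + j') * n = (q + j) * n + (j' - j) * n := by
      rw [← Nat.add_mul]
      congr 1
      omega
    rw [e3]
    omega
  have h2 : p ∣ (j' - j) * n := by
    rw [← h1]
    exact Nat.dvd_sub hd2 hd1
  rcases (Nat.Prime.dvd_mul hp.1).mp h2 with h3 | h3
  · have := Nat.le_of_dvd (by omega) h3
    have h9 := hp.2.1
    omega
  · have h4 : p ∣ 2 ^ κ := by
      have e1 : 2 ^ κ ≤ (q + j) * n := hq.trans (Nat.mul_le_mul_right _ (by omega))
      have h5 : p ∣ (q + j) * n := Dvd.dvd.mul_left h3 _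
      have h6 := Nat.dvd_sub h5 hd1
      have h7 : (q + j) * n - ((q + j) * n - 2 ^ κ) = 2 ^ κ := Nat.sub_sub_self e1
      rwa [h7] at h6
    have h5 := (Nat.prime_dvd_prime_iff_eq hp.1 Nat.prime_two).mp (hp.1.dvd_of_dvd_pow h4)
    omega

/-- small numerators are resolved: coprimality step + resolution -/
lemma ex_small {W Nm T a : ℕ} {PP : Finset ℕ} (hR : Resolves W Nm T PP)
    (hPP : ∀ p ∈ PP, p.Prime ∧ PP.card < p ∧ 2 < p) {n B : ℕ}
    (hnN : (PP.card + 1) * n ≤ Nm) (hna : 4 * (PP.card + 2) * n ≤ 2 ^ a) (hB : 0 < B)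
    (hWB : W ∣ B) (h2B : 2 ^ a ∣ B) :
    Ex ((n : ℚ) / B) (T + 1) := by
  rcases Nat.eq_zero_or_pos n with rfl | hn
  · simpa using Ex.zero.mono (Nat.zero_le (T + 1))
  -- choose κ
  set J := PP.card with hJ
  obtain ⟨κ, hκ1, hκ2⟩ : ∃ κ, 2 * (J + 2) * n ≤ 2 ^ κ ∧ 2 ^ κ ≤ 4 * (J + 2) * n := by
    refine ⟨Nat.log 2 (2 * (J + 2) * n) + 1, (Nat.lt_pow_succ_log_self (by norm_num) _).le, ?_⟩
    have := Nat.pow_log_le_self 2 (x := 2 * (J + 2) * n) (by positivity)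
    rw [pow_succ]
    linarith
  have hκa : κ ≤ a := (Nat.pow_le_pow_iff_right (by norm_num : 1 < 2)).mp (hκ2.trans hna)
  set q := 2 ^ κ / n + 1 with hq
  have hqn : 2 ^ κ ≤ q * n := by
    have := Nat.lt_div_mul_add hn (a := 2 ^ κ)
    rw [hq, add_mul, one_mul]
    exact this.le
  have hqn2 : q * n ≤ 2 ^ κ + n := by
    rw [hq, add_mul, one_mul]
    have := Nat.div_mul_le_self (2 ^ κ) n
    omega
  obtain ⟨j, hj, hcop⟩ := exists_shift PP hPP n q κ hqn
  set n' := (q + j) * n - 2 ^ κ with hn'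
  have hge : 2 ^ κ ≤ (q + j) * n := hqn.trans (Nat.mul_le_mul_right _ (by omega))
  have hn'le : n' ≤ (J + 1) * n := by
    have : (q + j) * n ≤ 2 ^ κ + n + J * n := by
      rw [add_mul]
      exact Nat.add_le_add hqn2 (Nat.mul_le_mul_right _ hj)
    have h3 : (J + 1) * n = J * n + n := by ring
    rw [hn', h3]
    omega
  have hn'lt : n' < 2 ^ κ := by
    have h1 : (J + 1) * n < 2 * (J + 2) * n := by
      apply Nat.mul_lt_mul_of_pos_right _ hn
      omega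
    exact hn'le.trans_lt (h1.trans_le hκ1)
  have hqj : 0 < q + j := Nat.add_pos_left (Nat.succ_pos _) _
  have hB' : 0 < B * (q + j) := by positivity
  have hrem : Ex ((n' : ℚ) / (B * (q + j) : ℕ)) T := by
    rcases Nat.eq_zero_or_pos n' with h0 | h0
    · rw [h0]
      simpa using Ex.zero.mono (Nat.zero_le T)
    · exact ex_of_resolves hR h0 (hn'le.trans hnN) hcop hB' (hWB.trans (Dvd.intro _ rfl))
  obtain ⟨S, hS1, hS2, hS3⟩ := ex_of_divisors hB hqj {2 ^ κ} (by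
    intro d hd
    rw [Finset.mem_singleton] at hd
    subst hd
    exact ⟨by positivity, (pow_dvd_pow 2 hκa).trans h2B⟩)
  have hBq : (0 : ℚ) < (B : ℚ) * (q + j : ℕ) := by positivity
  have := hrem.step S (by
    intro c hc
    refine ⟨(hS2 c hc).1, ?_⟩
    obtain ⟨d, hd, hcd⟩ := (hS2 c hc).2
    rw [Finset.mem_singleton] at hd
    subst hd
    rw [hcd]
    push_cast
    push_cast at hBq
    rw [div_lt_div_iff_of_pos_right hBq]
    exact_mod_cast hn'lt)
  have hval : (n' : ℚ) / (B * (q + j) : ℕ) + ∑ c ∈ S, 1 / (c : ℚ) = (n : ℚ) / B := by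
    rw [hS3]
    simp only [Finset.sum_singleton]
    have e1 : (n' : ℚ) = (q + j) * n - 2 ^ κ := by
      rw [hn', Nat.cast_sub hge]
      push_cast
      ring
    rw [e1]
    push_cast
    push_cast at hBq
    have h4 : (B : ℚ) ≠ 0 := by positivity
    have h5 : ((q : ℚ) + j) ≠ 0 := by positivity
    field_simp
    ring
  rw [hval] at this
  refine this.mono ?_
  have : S.card ≤ 1 := by simpa using hS1
  omega

end Vale.Agent.EgyptF
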