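import Mathlib
import Vale.Agent.EgyptF.Defs
import Vale.Agent.EgyptF.AsmA

/-!
# Piece D, part 2: scaling divisors, the archimedean step and its iteration.
-/

open Finset

namespace Vale.Agent.EgyptF

/-- `2^a * l.prod` (all entries of `l` in `[1, 2^a]`) has a divisor in `(x/2, x]` for every `x ∈ [1, 2^a l.prod]`. -/
lemma exists_divisor (a : ℕ) (l : List ℕ) (hl : ∀ y ∈ l, 1 ≤ y ∧ y ≤ 2 ^ a) :
    ∀ x : ℝ, 1 ≤ x → x ≤ (2 : ℝ) ^ a * l.prod → ∃ A : ℕ, A ∣ 2 ^ a * l.prod ∧ 1 ≤ A ∧ (A : ℝ) ≤ x ∧ x < 2 * A := by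
  induction l with
  | nil =>
    intro x h1 h2
    have hx0 : 0 < x := by linarith
    obtain ⟨k, hk1, hk2⟩ : ∃ k : ℕ, (2 : ℝ) ^ k ≤ x ∧ x < 2 ^ (k + 1) := exists_nat_pow_near h1 (by norm_num)
    have hka : k ≤ a := by
      have : (2 : ℝ) ^ k ≤ 2 ^ a := by
        simp at h2
        linarith
      exact (pow_le_pow_iff_right₀ (by norm_num : (1 : ℝ) < 2)).mp this
    refine ⟨2 ^ k, ?_, Nat.one_le_two_pow, by exact_mod_cast hk1, ?_⟩
    · simpa using pow_dvd_pow 2 hka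
    · push_cast
      rw [pow_succ] at hk2
      linarith
  | cons y l ih =>
    intro x h1 h2
    have hl' : ∀ y ∈ l, 1 ≤ y ∧ y ≤ 2 ^ a := fun z hz => hl z (List.mem_cons_of_mem _ hz)
    obtain ⟨hy1, hy2⟩ := hl y List.mem_cons_self
    have hy1' : (1 : ℝ) ≤ y := by exact_mod_cast hy1
    have hy2' : (y : ℝ) ≤ 2 ^ a := by exact_mod_cast hy2
    have hprod : (1 : ℝ) ≤ (l.prod : ℝ) := by
      have : 1 ≤ l.prod := by
        apply Nat.one_le_iff_ne_zero.mpr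
        intro h0
        have := List.prod_eq_zero_iff.mp h0
        have := (hl' 0 this).1
        omega
      exact_mod_cast this
    rw [List.prod_cons] at h2 ⊢
    rw [Nat.cast_mul] at h2
    by_cases hx : x ≤ (2 : ℝ) ^ a * l.prod
    · obtain ⟨A, hA1, hA2⟩ := ih hl' x h1 hx
      refine ⟨A, hA1.trans ⟨y, by ring⟩, hA2⟩
    · push Not at hx
      have h3 : (y : ℝ) ≤ x := by
        calc (y : ℝ) ≤ 2 ^ a := hy2'
          _ ≤ 2 ^ a * l.prod := le_mul_of_one_le_right (by positivity) hprod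
          _ ≤ x := hx.le
      have hy0 : (0 : ℝ) < y := by linarith
      obtain ⟨A, hA1, hA2, hA3, hA4⟩ := ih hl' (x / y) (by rw [le_div_iff₀ hy0]; linarith)
        (by rw [div_le_iff₀ hy0]; linarith)
      refine ⟨y * A, ?_, Nat.mul_pos hy1 hA2, ?_, ?_⟩
      · have : 2 ^ a * (y * l.prod) = y * (2 ^ a * l.prod) := by ring
        rw [this]
        exact Nat.mul_dvd_mul_left y hA1
      · rw [le_div_iff₀ hy0] at hA3
        push_cast
        linarith
      · rw [div_lt_iff₀ hy0] at hA4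
        push_cast
        linarith

/-- the archimedean property of `(W3, Z)`: parameters `w, s0` -/
def ArchP (w W3 Z s0 : ℕ) : Prop :=
  ∀ α : ℝ, 0 < α → (w : ℝ) ^ 60 ≤ α * Z → α * Z ≤ 2 * (w : ℝ) ^ 60 →
        ∃ (GG : Finset ℕ) (q : ℕ), GG.card ≤ 8 ∧ GG.Nonempty ∧ (∀ g ∈ GG, g ∣ W3 ∧ Z ≤ g) ∧
          α * ((∑ g ∈ GG, g : ℕ) : ℝ) ≤ q ∧
          (q : ℝ) ≤ α * ((∑ g ∈ GG, g : ℕ) : ℝ) + 1 / 2 ^ s0 ∧ q ≤ w ^ 61

/-- One archimedean step. `W = 2^a * l.prod * W3`. -/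
lemma arch_step {w W3 Z s0 a : ℕ} {l : List ℕ} (hA : ArchP w W3 Z s0) (hw : 2 ≤ w) (hZ : 1 ≤ Z)
    (hW3 : 1 ≤ W3) (hl : ∀ y ∈ l, 1 ≤ y ∧ y ≤ 2 ^ a) {n Q : ℕ} (hn : 1 ≤ n) (hQ : 1 ≤ Q)
    (h1 : 2 * w ^ 60 * n ≤ Q * Z * (2 ^ a * l.prod)) (h2 : Q * Z ≤ 2 * w ^ 60 * n) :
    ∃ q n' : ℕ, 1 ≤ q ∧ q ≤ w ^ 61 ∧ n' * 2 ^ s0 ≤ n ∧
      ∀ k, Ex ((n' : ℚ) / ((Q * q) * (2 ^ a * l.prod * W3) : ℕ)) k →
        Ex ((n : ℚ) / (Q * (2 ^ a * l.prod * W3) : ℕ)) (k + 8) := by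
  have hn' : (0 : ℝ) < n := by exact_mod_cast hn
  have hQ' : (0 : ℝ) < Q := by exact_mod_cast hQ
  have hZ' : (0 : ℝ) < Z := by exact_mod_cast hZ
  have hw' : (0 : ℝ) < w := by
    have : 0 < w := by omega
    exact_mod_cast this
  have hlp : 1 ≤ l.prod := by
    apply Nat.one_le_iff_ne_zero.mpr
    intro h0
    have := List.prod_eq_zero_iff.mp h0
    have := (hl 0 this).1
    omega
  set x : ℝ := 2 * (w : ℝ) ^ 60 * n / (Q * Z) with hx
  obtain ⟨A, hAd, hA1, hA2, hA3⟩ := exists_divisor a l hl x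
    (by rw [hx, le_div_iff₀ (by positivity), one_mul]; exact_mod_cast h2)
    (by rw [hx, div_le_iff₀ (by positivity)]
        have : (2 : ℝ) * (w : ℝ) ^ 60 * n ≤ Q * Z * (2 ^ a * l.prod) := by exact_mod_cast h1
        linarith)
  have hA' : (0 : ℝ) < A := by exact_mod_cast hA1
  set α : ℝ := Q * A / n with hα
  have hα0 : 0 < α := by positivity
  have e1 : (w : ℝ) ^ 60 ≤ α * Z := by
    rw [hx, div_lt_iff₀ (by positivity)] at hA3
    rw [hα, div_mul_eq_mul_div, le_div_iff₀ hn']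
    nlinarith
  have e2 : α * Z ≤ 2 * (w : ℝ) ^ 60 := by
    rw [hx, le_div_iff₀ (by positivity)] at hA2
    rw [hα, div_mul_eq_mul_div, div_le_iff₀ hn']
    nlinarith
  obtain ⟨GG, q, hc, hne, hg, hq1, hq2, hq3⟩ := hA α hα0 e1 e2
  set Sg := ∑ g ∈ GG, g with hSg
  have hSg0 : 0 < Sg := by
    obtain ⟨g, hgg⟩ := hne
    have : g ≤ Sg := Finset.single_le_sum (f := fun g : ℕ => g) (fun _ _ => Nat.zero_le _) hgg
    have := (hg g hgg).2
    omega
  have hSg0' : (0 : ℝ) < Sg := by exact_mod_cast hSg0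
  have hq0 : 1 ≤ q := by
    have : (0 : ℝ) < q := lt_of_lt_of_le (by positivity) hq1
    exact_mod_cast this
  -- n' = q n - Q A Sg
  have f1 : Q * A * Sg ≤ q * n := by
    have : (Q : ℝ) * A * Sg ≤ q * n := by
      rw [hα, div_mul_eq_mul_div, div_le_iff₀ hn'] at hq1
      exact hq1
    exact_mod_cast this
  set n' := q * n - Q * A * Sg with hn'def
  have f2 : n' * 2 ^ s0 ≤ n := by
    have : ((q * n - Q * A * Sg : ℕ) : ℝ) * 2 ^ s0 ≤ n := by
      rw [Nat.cast_sub f1]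
      push_cast
      have h3 : (q : ℝ) * n - Q * A * Sg ≤ n / 2 ^ s0 := by
        have h4 : (q : ℝ) * n ≤ (α * Sg + 1 / 2 ^ s0) * n := mul_le_mul_of_nonneg_right hq2 hn'.le
        have h5 : α * Sg * n = Q * A * Sg := by
          rw [hα]
          field_simp
        have h6 : (α * Sg + 1 / 2 ^ s0) * n = Q * A * Sg + n / 2 ^ s0 := by
          rw [add_mul, h5]
          ring
        linarith
      rwa [le_div_iff₀ (by positivity)] at h3
    exact_mod_cast this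
  refine ⟨q, n', hq0, hq3, f2, ?_⟩
  intro k hk
  set W := 2 ^ a * l.prod * W3 with hW
  have hW0 : 0 < W := by positivity
  have hQW : 0 < Q * W := by positivity
  -- the digits
  have hdig : ∀ d ∈ GG.image (fun g => Q * A * g), 0 < d ∧ d ∣ Q * W := by
    intro d hd
    obtain ⟨g, hgg, rfl⟩ := Finset.mem_image.mp hd
    have hg0 : 0 < g := lt_of_lt_of_le hZ (hg g hgg).2
    refine ⟨by positivity, ?_⟩
    rw [mul_assoc]
    exact Nat.mul_dvd_mul_left Q (Nat.mul_dvd_mul hAd (hg g hgg).1)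
  obtain ⟨T, hT1, hT2, hT3⟩ := ex_of_divisors hQW hq0 _ hdig
  have hsum : ∑ d ∈ GG.image (fun g => Q * A * g), d = Q * A * Sg := by
    rw [Finset.sum_image]
    · rw [hSg, Finset.mul_sum]
    · intro g _ g' _ heq
      simp only at heq
      exact Nat.eq_of_mul_eq_mul_left (by positivity) heq
  rw [hsum] at hT3
  have hBq : (0 : ℚ) < ((Q * W : ℕ) : ℚ) * q := by positivity
  have hk' : Ex ((n' : ℚ) / (((Q * W : ℕ) : ℚ) * q)) k := by
    have : (((Q * q) * W : ℕ) : ℚ) = ((Q * W : ℕ) : ℚ) * q := by push_cast; ring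
    rwa [this] at hk
  have hlt : ∀ g ∈ GG, n' < Q * A * g := by
    intro g hgg
    have h3 : n' ≤ n := by
      calc n' ≤ n' * 2 ^ s0 := Nat.le_mul_of_pos_right _ (by positivity)
        _ ≤ n := f2
    have h4 : (n : ℝ) < Q * A * g := by
      have h5 : (Z : ℝ) ≤ g := by exact_mod_cast (hg g hgg).2
      have h6 : (w : ℝ) ^ 60 * n ≤ Q * A * Z := by
        rw [hα, div_mul_eq_mul_div, le_div_iff₀ hn'] at e1
        exact e1
      have h7 : (1 : ℝ) < (w : ℝ) ^ 60 := by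
        have : (2 : ℝ) ≤ w := by exact_mod_cast hw
        exact one_lt_pow₀ (by linarith) (by norm_num)
      calc (n : ℝ) < (w : ℝ) ^ 60 * n := by nlinarith
        _ ≤ Q * A * Z := h6
        _ ≤ Q * A * g := by
          apply mul_le_mul_of_nonneg_left h5 (by positivity)
    have h8 : n < Q * A * g := by exact_mod_cast h4
    omega
  have := hk'.step T (by
    intro c hc
    refine ⟨(hT2 c hc).1, ?_⟩
    obtain ⟨d, hd, hcd⟩ := (hT2 c hc).2
    obtain ⟨g, hgg, rfl⟩ := Finset.mem_image.mp hd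
    rw [hcd, div_lt_div_iff_of_pos_right hBq]
    exact_mod_cast hlt g hgg)
  have hval : (n' : ℚ) / (((Q * W : ℕ) : ℚ) * q) + ∑ c ∈ T, 1 / (c : ℚ) = (n : ℚ) / (Q * W : ℕ) := by
    rw [hT3, hn'def, Nat.cast_sub f1, ← add_div]
    push_cast
    have h5 : (q : ℚ) ≠ 0 := by positivity
    have h6 : (Q : ℚ) * W ≠ 0 := by positivity
    field_simp
    ring
  rw [hval] at this
  refine this.mono ?_
  have : T.card ≤ 8 := hT1.trans (Finset.card_image_le.trans hc)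
  omega

/-- iteration of the archimedean step -/
lemma arch_iter {w W3 Z s0 a Nm T0 Bd : ℕ} {l : List ℕ} {PP : Finset ℕ}
    (hA : ArchP w W3 Z s0) (hw : 2 ≤ w) (hZ : 1 ≤ Z)
    (hW3 : 1 ≤ W3) (hl : ∀ y ∈ l, 1 ≤ y ∧ y ≤ 2 ^ a)
    (hR : Resolves l.prod Nm T0 PP) (hPP : ∀ p ∈ PP, p.Prime ∧ PP.card < p ∧ 2 < p)
    (hB1 : (PP.card + 1) * Bd ≤ Nm) (hB2 : 4 * (PP.card + 2) * Bd ≤ 2 ^ a) :
    ∀ t n Q : ℕ, 1 ≤ Q → 2 * w ^ 60 * n ≤ Q * Z * (2 ^ a * l.prod) →
      2 * w ^ 60 * n < Q * Z * 2 ^ (s0 * t) → Q * (w ^ 61) ^ t * Z ≤ Bd →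
      Ex ((n : ℚ) / (Q * (2 ^ a * l.prod * W3) : ℕ)) (8 * t + (T0 + 1)) := by
  have hlp : 1 ≤ l.prod := by
    apply Nat.one_le_iff_ne_zero.mpr
    intro h0
    have := List.prod_eq_zero_iff.mp h0
    have := (hl 0 this).1
    omega
  have hsmall : ∀ n Q : ℕ, 1 ≤ Q → n ≤ Bd →
      Ex ((n : ℚ) / (Q * (2 ^ a * l.prod * W3) : ℕ)) (T0 + 1) := by
    intro n Q hQ hn
    apply ex_small hR hPP (a := a)
    · exact (Nat.mul_le_mul_left _ hn).trans hB1
    · exact (Nat.mul_le_mul_left _ hn).trans hB2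
    · positivity
    · exact ⟨Q * 2 ^ a * W3, by ring⟩
    · exact ⟨Q * l.prod * W3, by ring⟩
  have hw60 : 1 ≤ w ^ 60 := Nat.one_le_pow _ _ (by omega)
  have hw61 : 1 ≤ w ^ 61 := Nat.one_le_pow _ _ (by omega)
  intro t
  induction t with
  | zero =>
    intro n Q hQ h1 h2 h3
    simp only [mul_zero, pow_zero, mul_one, zero_add] at h2 h3 ⊢
    apply hsmall n Q hQ
    nlinarith
  | succ t ih =>
    intro n Q hQ h1 h2 h3
    rcases Nat.eq_zero_or_pos n with rfl | hn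
    · simpa using Ex.zero.mono (Nat.zero_le _)
    by_cases hc : Q * Z ≤ 2 * w ^ 60 * n
    · obtain ⟨q, n', hq1, hq2, hn', hstep⟩ := arch_step hA hw hZ hW3 hl hn hQ h1 hc
      have hn'le : n' ≤ n := by
        calc n' ≤ n' * 2 ^ s0 := Nat.le_mul_of_pos_right _ (by positivity)
          _ ≤ n := hn'
      have hQq : 1 ≤ Q * q := Nat.mul_pos hQ hq1
      have hQQ : Q ≤ Q * q := Nat.le_mul_of_pos_right _ hq1
      have := ih n' (Q * q) hQq
        (by
          calc 2 * w ^ 60 * n' ≤ 2 * w ^ 60 * n := Nat.mul_le_mul_left _ hn'le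
            _ ≤ Q * Z * (2 ^ a * l.prod) := h1
            _ ≤ Q * q * Z * (2 ^ a * l.prod) := by
              apply Nat.mul_le_mul_right
              exact Nat.mul_le_mul_right _ hQQ)
        (by
          have h4 : 2 * w ^ 60 * n' * 2 ^ s0 < Q * Z * 2 ^ (s0 * t) * 2 ^ s0 := by
            calc 2 * w ^ 60 * n' * 2 ^ s0 = 2 * w ^ 60 * (n' * 2 ^ s0) := by ring
              _ ≤ 2 * w ^ 60 * n := Nat.mul_le_mul_left _ hn'
              _ < Q * Z * 2 ^ (s0 * (t + 1)) := h2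
              _ = Q * Z * 2 ^ (s0 * t) * 2 ^ s0 := by rw [mul_add, pow_add]; ring
          have h5 : 2 * w ^ 60 * n' < Q * Z * 2 ^ (s0 * t) := lt_of_mul_lt_mul_right h4 (Nat.zero_le _)
          calc 2 * w ^ 60 * n' < Q * Z * 2 ^ (s0 * t) := h5
            _ ≤ Q * q * Z * 2 ^ (s0 * t) := by
              apply Nat.mul_le_mul_right
              exact Nat.mul_le_mul_right _ hQQ)
        (by
          calc Q * q * (w ^ 61) ^ t * Z ≤ Q * w ^ 61 * (w ^ 61) ^ t * Z := by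
                apply Nat.mul_le_mul_right
                apply Nat.mul_le_mul_right
                exact Nat.mul_le_mul_left _ hq2
            _ = Q * (w ^ 61) ^ (t + 1) * Z := by rw [pow_succ]; ring
            _ ≤ Bd := h3)
      exact (hstep _ this).mono (by omega)
    · push Not at hc
      refine (hsmall n Q hQ ?_).mono (by omega)
      have h4 : n ≤ 2 * w ^ 60 * n := Nat.le_mul_of_pos_left _ (by positivity)
      have h5 : Q * Z ≤ Q * (w ^ 61) ^ (t + 1) * Z := by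
        apply Nat.mul_le_mul_right
        exact Nat.le_mul_of_pos_right _ (by positivity)
      omega

end Vale.Agent.EgyptF
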