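import Mathlib
import Vale.Agent.EgyptF.Defs
import Vale.Agent.EgyptF.AsmA
import Vale.Agent.EgyptF.AsmB

/-!
# Piece D, part 3: greedy phases.
-/

open Finset

namespace Vale.Agent.EgyptF

lemma Ex.sub_one {a b c k : ℕ} (hb : 0 < b) (hc : 0 < c) (hac : b ≤ a * c) (hlt : a * c - b < b)
    (h : Ex (((a * c - b : ℕ) : ℚ) / (b * c : ℕ)) k) : Ex ((a : ℚ) / b) (k + 1) := by
  have hb' : (0 : ℚ) < b := by exact_mod_cast hb
  have hc' : (0 : ℚ) < c := by exact_mod_cast hc
  have := h.step {c} (by
    intro c' hc'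
    rw [Finset.mem_singleton] at hc'
    subst hc'
    refine ⟨hc, ?_⟩
    push_cast
    rw [div_lt_div_iff₀ (by positivity) (by positivity), one_mul]
    have h1 : ((a * c' - b : ℕ) : ℚ) < b := by exact_mod_cast hlt
    nlinarith)
  rw [Finset.sum_singleton, Finset.card_singleton] at this
  have e : ((a * c - b : ℕ) : ℚ) / (b * c : ℕ) + 1 / c = (a : ℚ) / b := by
    rw [Nat.cast_sub hac]
    push_cast
    field_simp
    ring
  rwa [e] at this

/-- controlled greedy: reduces `a/b` below `Z/Λ` while keeping the denominator bounded. -/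
lemma greedy_iter {Λ Z B1 K2 : ℕ} (hZ : 1 ≤ Z) (hΛ : 1 ≤ Λ)
    (base : ∀ a b : ℕ, 1 ≤ a → 1 ≤ b → a * Λ ≤ b * Z → b ≤ B1 → Ex ((a : ℚ) / b) K2) :
    ∀ i a b : ℕ, 1 ≤ a → 4 * a < b → b ≤ B1 → a * 2 ^ i * (2 * Λ ^ 2) ≤ B1 →
      (2 * a) ^ (2 ^ i) * Λ ≤ b ^ (2 ^ i) → Ex ((a : ℚ) / b) (K2 + i) := by
  intro i
  induction i with
  | zero =>
    intro a b ha hab hb h1 h2
    simp only [pow_zero, pow_one] at h2
    apply base a b ha (by omega) _ hb
    nlinarith
  | succ i ih =>
    intro a b ha hab hb h1 h2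
    by_cases hbase : a * Λ ≤ b * Z
    · exact (base a b ha (by omega) hbase hb).mono (by omega)
    · push Not at hbase
      have hbΛ : b < a * Λ := by nlinarith
      set c := b / a + 2 with hc
      have hd1 : a * (b / a) ≤ b := Nat.mul_div_le b a
      have hd2 : b < a * (b / a) + a := by
        have := Nat.lt_mul_div_succ b ha
        linarith
      have hac : a * c = a * (b / a) + 2 * a := by rw [hc]; ring
      have hac1 : b + a < a * c := by omega
      have hac2 : a * c ≤ b + 2 * a := by omega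
      have hc6 : 6 ≤ c := by
        have : 4 ≤ b / a := by
          rw [Nat.le_div_iff_mul_le (by omega)]
          omega
        omega
      set a' := a * c - b with ha'
      have ha'1 : a < a' := by omega
      have ha'2 : a' ≤ 2 * a := by omega
      have hb' : b * c ≤ B1 := by
        have e1 : a * (b * c) ≤ a * (2 * a * Λ ^ 2) := by
          calc a * (b * c) = b * (a * c) := by ring
            _ ≤ b * (2 * b) := Nat.mul_le_mul_left _ (by omega)
            _ = 2 * b ^ 2 := by ring
            _ ≤ 2 * (a * Λ) ^ 2 := by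
              apply Nat.mul_le_mul_left
              exact Nat.pow_le_pow_left hbΛ.le 2
            _ = a * (2 * a * Λ ^ 2) := by ring
        have e2 : b * c ≤ 2 * a * Λ ^ 2 := Nat.le_of_mul_le_mul_left e1 ha
        have e3 : 2 * a * Λ ^ 2 ≤ a * 2 ^ (i + 1) * (2 * Λ ^ 2) := by
          have : 1 ≤ 2 ^ (i + 1) := Nat.one_le_two_pow
          nlinarith [Nat.zero_le (a * Λ ^ 2)]
        omega
      have hrec := ih a' (b * c) (by omega)
        (by
          have : b * 6 ≤ b * c := Nat.mul_le_mul_left _ hc6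
          omega) hb'
        (by
          calc a' * 2 ^ i * (2 * Λ ^ 2) ≤ 2 * a * 2 ^ i * (2 * Λ ^ 2) := by
                apply Nat.mul_le_mul_right
                exact Nat.mul_le_mul_right _ ha'2
            _ = a * 2 ^ (i + 1) * (2 * Λ ^ 2) := by rw [pow_succ]; ring
            _ ≤ B1 := h1)
        (by
          set N := 2 ^ i with hN
          have hb0 : 0 < b := by omega
          have e1 : (2 * a') * b ^ 2 ≤ (2 * a) ^ 2 * (b * c) := by
            calc (2 * a') * b ^ 2 ≤ (2 * (2 * a)) * b ^ 2 := by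
                  apply Nat.mul_le_mul_right
                  omega
              _ = 4 * a * b * b := by ring
              _ ≤ 4 * a * b * (a * c) := Nat.mul_le_mul_left _ (by omega)
              _ = (2 * a) ^ 2 * (b * c) := by ring
          have e2 : (2 * a') ^ N * (b ^ 2) ^ N ≤ ((2 * a) ^ 2) ^ N * (b * c) ^ N := by
            rw [← mul_pow, ← mul_pow]
            exact Nat.pow_le_pow_left e1 N
          have e3 : ((2 * a) ^ 2) ^ N * Λ ≤ (b ^ 2) ^ N := by
            rw [← pow_mul, ← pow_mul]
            have : 2 * N = 2 ^ (i + 1) := by rw [hN, pow_succ]; ring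
            rwa [this]
          have e4 : (2 * a') ^ N * Λ * (b ^ 2) ^ N ≤ (b * c) ^ N * (b ^ 2) ^ N := by
            calc (2 * a') ^ N * Λ * (b ^ 2) ^ N = (2 * a') ^ N * (b ^ 2) ^ N * Λ := by ring
              _ ≤ ((2 * a) ^ 2) ^ N * (b * c) ^ N * Λ := Nat.mul_le_mul_right _ e2
              _ = (b * c) ^ N * (((2 * a) ^ 2) ^ N * Λ) := by ring
              _ ≤ (b * c) ^ N * (b ^ 2) ^ N := Nat.mul_le_mul_left _ e3
          exact Nat.le_of_mul_le_mul_right e4 (by positivity))
      have := Ex.sub_one (a := a) (b := b) (c := c) (k := K2 + i) (by omega) (by omega) (by omega)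
        (by omega) hrec
      exact this.mono (by omega)

lemma ex_zero_num {b k : ℕ} : Ex (((0 : ℕ) : ℚ) / (b : ℕ)) k := by
  simpa using Ex.zero.mono (Nat.zero_le k)

/-- the first two plain greedy steps -/
lemma greedy_start {B0 A0 K : ℕ}
    (base : ∀ a b : ℕ, 1 ≤ a → 4 * a < b → a ≤ A0 → b ≤ B0 → Ex ((a : ℚ) / b) K)
    (a b : ℕ) (ha : 1 ≤ a) (hab : a < b) (haA : a ≤ A0) (hbB : 8 * b ≤ B0) :
    Ex ((a : ℚ) / b) (K + 2) := by
  have stepB : ∀ a b : ℕ, 2 * a < b → a ≤ A0 → 4 * b ≤ B0 → Ex ((a : ℚ) / b) (K + 1) := by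
    intro a b h1 h2 h3
    rcases Nat.eq_zero_or_pos a with rfl | ha
    · exact ex_zero_num
    by_cases h4 : 4 * a < b
    · exact (base a b ha h4 h2 (by omega)).mono (by omega)
    by_cases h5 : 3 * a < b
    · apply Ex.sub_one (c := 4) (by omega) (by norm_num) (by omega) (by omega)
      rcases Nat.eq_zero_or_pos (a * 4 - b) with h0 | h0
      · rw [h0]
        exact ex_zero_num
      · exact base _ _ h0 (by omega) (by omega) (by omega)
    · apply Ex.sub_one (c := 3) (by omega) (by norm_num) (by omega) (by omega)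
      rcases Nat.eq_zero_or_pos (a * 3 - b) with h0 | h0
      · rw [h0]
        exact ex_zero_num
      · exact base _ _ h0 (by omega) (by omega) (by omega)
  by_cases h1 : 2 * a < b
  · exact (stepB a b h1 haA (by omega)).mono (by omega)
  · apply Ex.sub_one (c := 2) (by omega) (by norm_num) (by omega) (by omega)
    exact stepB _ _ (by omega) (by omega) (by omega)

end Vale.Agent.EgyptF
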