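import Mathlib
import Vale.Agent.EgyptF.Defs

/-!
# Piece A5. The deep bound.

Integers `h V` coprime to `D > R`.  `f j ∣ V` pairwise coprime, `Fmin ≤ f j ≤ Fmax`, `1 ≤ r j ≤ R`, and
`‖ r_j · h · (V / f_j) / D ‖ ≤ ν` for all `j ∈ J`, where `2 ν Fmax R < 1`.
Then `(Fmin / R)^{|J|} ≤ D`.

Proof.  Put `b_j ∈ ℤ` with `r_j h (V/f_j) ≡ b_j (mod D)`, `|b_j| ≤ ν D`; `b_j ≠ 0` since otherwise
`D ∣ r_j h (V/f_j)`, so `D ∣ r_j`, `D ≤ R`.  Multiplying by `f_j`: `r_j h V ≡ f_j b_j (mod D)`.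
For `j, j'`: `r_{j'} f_j b_j ≡ r_j r_{j'} h V ≡ r_j f_{j'} b_{j'} (mod D)`, both sides are `< D/2` in
absolute value, so they are equal.  If `J = ∅` trivial.  Fix `j₀ ∈ J`, `B₀ = f_{j₀} b_{j₀} ≠ 0`, `|B₀| ≤ ν Fmax D ≤ D`.
For every `j ∈ J`: `r_{j₀} f_j b_j = r_j B₀`, so `f_j ∣ r_j B₀` and `f_j' := f_j / gcd(f_j, r_j)` divides
`B₀`; `f_j' ≥ f_j / R ≥ Fmin / R`; the `f_j'` are pairwise coprime, so `∏ f_j' ∣ B₀`, `∏ f_j' ≤ D`.
-/

open Finset

namespace Vale.Agent.EgyptF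

theorem deep_bound {κ : Type*} [DecidableEq κ] (D h V R Fmin Fmax : ℕ) (ν : ℝ) (J : Finset κ)
    (f r : κ → ℕ) (hR : 1 ≤ R) (hD : R < D) (hcop : Nat.Coprime (h * V) D)
    (hf : ∀ j ∈ J, f j ∣ V ∧ Fmin ≤ f j ∧ f j ≤ Fmax) (hr : ∀ j ∈ J, 1 ≤ r j ∧ r j ≤ R)
    (hpair : ∀ j ∈ J, ∀ j' ∈ J, j ≠ j' → Nat.Coprime (f j) (f j'))
    (hν : 0 ≤ ν) (hνF : 2 * ν * Fmax * R < 1) (hFmin : 1 ≤ Fmin)
    (hnd : ∀ j ∈ J, nd ((r j : ℝ) * (h * ((V / f j : ℕ) : ℝ)) / D) ≤ ν) :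
    ((Fmin : ℝ) / R) ^ J.card ≤ D := by
  have hD0 : 0 < D := by omega
  have hD0' : (0 : ℝ) < D := by exact_mod_cast hD0
  have hR0' : (0 : ℝ) < R := by
    have : 0 < R := by omega
    exact_mod_cast this
  -- the integers `b j`
  have hb : ∀ j, ∃ k : ℤ, j ∈ J →
      |(((r j * (h * (V / f j)) : ℕ) : ℤ) - k * D : ℤ)| ≤ ν * D := by
    intro j
    by_cases hj : j ∈ J
    · obtain ⟨k, hk⟩ := exists_int ((r j : ℝ) * (h * ((V / f j : ℕ) : ℝ)) / D)
      refine ⟨k, fun _ => ?_⟩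
      have h1 := hnd j hj
      rw [hk] at h1
      generalize V / f j = q at h1 ⊢
      have h2 : ((((r j * (h * q) : ℕ) : ℤ) - k * D : ℤ) : ℝ)
          = ((r j : ℝ) * (h * (q : ℝ)) / D - k) * D := by
        push_cast
        field_simp
      rw [Int.cast_abs, h2, abs_mul, abs_of_pos hD0']
      exact mul_le_mul_of_nonneg_right h1 hD0'.le
    · exact ⟨0, fun h => absurd h hj⟩
  choose k hk using hb
  set b : κ → ℤ := fun j => ((r j * (h * (V / f j)) : ℕ) : ℤ) - k j * D with hbdef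
  have hb1 : ∀ j ∈ J, |((b j : ℤ) : ℝ)| ≤ ν * D := by
    intro j hj
    have := hk j hj
    rw [Int.cast_abs] at this
    exact this
  have hb0 : ∀ j ∈ J, b j ≠ 0 := by
    intro j hj h0
    have h1 : (D : ℤ) ∣ ((r j * (h * (V / f j)) : ℕ) : ℤ) := ⟨k j, by
      have : ((r j * (h * (V / f j)) : ℕ) : ℤ) - k j * D = 0 := h0
      linarith⟩
    have h2 : D ∣ r j * (h * (V / f j)) := by exact_mod_cast h1
    have h3 : h * (V / f j) ∣ h * V := Nat.mul_dvd_mul_left _ (Nat.div_dvd_of_dvd (hf j hj).1)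
    have h4 : Nat.Coprime (h * (V / f j)) D := Nat.Coprime.coprime_dvd_left h3 hcop
    have h5 : D ∣ r j := Nat.Coprime.dvd_of_dvd_mul_right h4.symm h2
    have h6 := Nat.le_of_dvd (by have := (hr j hj).1; omega) h5
    have := (hr j hj).2
    omega
  have hfb : ∀ j ∈ J, (f j : ℤ) * b j = (r j : ℤ) * h * V - k j * f j * D := by
    intro j hj
    have h1 : f j * (V / f j) = V := Nat.mul_div_cancel' (hf j hj).1
    have h2 : (f j : ℤ) * ((V / f j : ℕ) : ℤ) = V := by exact_mod_cast h1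
    simp only [hbdef]
    push_cast at h2 ⊢
    calc (f j : ℤ) * ((r j : ℤ) * (h * ((V : ℤ) / (f j : ℤ))) - k j * D)
        = (r j : ℤ) * h * ((f j : ℤ) * ((V : ℤ) / (f j : ℤ))) - k j * f j * D := by ring
      _ = _ := by rw [h2]
  have hsmall : ∀ j ∈ J, ∀ j' ∈ J, |(((r j' : ℤ) * (f j * b j) : ℤ) : ℝ)| < D / 2 := by
    intro j hj j' hj'
    push_cast
    rw [abs_mul, abs_mul, Nat.abs_cast, Nat.abs_cast]
    have h1 : (r j' : ℝ) ≤ R := by exact_mod_cast (hr j' hj').2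
    have h2 : (f j : ℝ) ≤ Fmax := by exact_mod_cast (hf j hj).2.2
    have h3 := hb1 j hj
    calc (r j' : ℝ) * (f j * |(b j : ℝ)|) ≤ R * (Fmax * (ν * D)) := by
          refine mul_le_mul h1 ?_ (by positivity) hR0'.le
          exact mul_le_mul h2 h3 (abs_nonneg _) (Nat.cast_nonneg _)
      _ = (2 * ν * Fmax * R) * (D / 2) := by ring
      _ < 1 * (D / 2) := mul_lt_mul_of_pos_right hνF (by positivity)
      _ = D / 2 := one_mul _
  have heq : ∀ j ∈ J, ∀ j' ∈ J, (r j' : ℤ) * (f j * b j) = (r j : ℤ) * (f j' * b j') := by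
    intro j hj j' hj'
    have h1 : (r j' : ℤ) * (f j * b j) - (r j : ℤ) * (f j' * b j')
        = (D : ℤ) * (r j * k j' * f j' - r j' * k j * f j) := by
      rw [hfb j hj, hfb j' hj']
      ring
    have h2 := hsmall j hj j' hj'
    have h3 := hsmall j' hj' j hj
    have h4 : |(((r j' : ℤ) * (f j * b j) - (r j : ℤ) * (f j' * b j') : ℤ) : ℝ)| < D := by
      rw [Int.cast_sub]
      calc |(((r j' : ℤ) * (f j * b j) : ℤ) : ℝ) - (((r j : ℤ) * (f j' * b j') : ℤ) : ℝ)|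
          ≤ |(((r j' : ℤ) * (f j * b j) : ℤ) : ℝ)| + |(((r j : ℤ) * (f j' * b j') : ℤ) : ℝ)| :=
            abs_sub _ _
        _ < D / 2 + D / 2 := add_lt_add h2 h3
        _ = D := by ring
    have h5 : |(r j' : ℤ) * (f j * b j) - (r j : ℤ) * (f j' * b j')| < D := by
      rw [← Int.cast_abs] at h4
      exact_mod_cast h4
    have h6 : (D : ℤ) ∣ (r j' : ℤ) * (f j * b j) - (r j : ℤ) * (f j' * b j') :=
      ⟨_, h1⟩
    have h7 := Int.eq_zero_of_abs_lt_dvd h6 h5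
    linarith
  rcases J.eq_empty_or_nonempty with hJ | ⟨j0, hj0⟩
  · rw [hJ, Finset.card_empty, pow_zero]
    exact_mod_cast hD0
  · set B : ℕ := ((f j0 : ℤ) * b j0).natAbs with hB
    have hfpos : ∀ j ∈ J, 0 < f j := fun j hj => lt_of_lt_of_le hFmin (hf j hj).2.1
    have hBne : (f j0 : ℤ) * b j0 ≠ 0 := by
      refine mul_ne_zero ?_ (hb0 j0 hj0)
      have := hfpos j0 hj0
      exact_mod_cast this.ne'
    have hBpos : 0 < B := Int.natAbs_pos.2 hBne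
    have hBle : (B : ℝ) ≤ D := by
      have h1 : (B : ℝ) = |(((f j0 : ℤ) * b j0 : ℤ) : ℝ)| := by
        rw [hB, Nat.cast_natAbs, Int.cast_abs]
      rw [h1]
      push_cast
      rw [abs_mul, Nat.abs_cast]
      have h2 : (f j0 : ℝ) ≤ Fmax := by exact_mod_cast (hf j0 hj0).2.2
      have h3 := hb1 j0 hj0
      have hR1 : (1 : ℝ) ≤ R := by exact_mod_cast hR
      have h4 : ν * Fmax ≤ 1 := by
        have h5 : 0 ≤ ν * Fmax := by positivity
        nlinarith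
      calc (f j0 : ℝ) * |(b j0 : ℝ)| ≤ Fmax * (ν * D) :=
            mul_le_mul h2 h3 (abs_nonneg _) (Nat.cast_nonneg _)
        _ = (ν * Fmax) * D := by ring
        _ ≤ 1 * D := mul_le_mul_of_nonneg_right h4 hD0'.le
        _ = D := one_mul _
    have hdvd : ∀ j ∈ J, f j ∣ r j * B := by
      intro j hj
      have h1 := heq j hj j0 hj0
      have h2 : (f j : ℤ) ∣ (r j : ℤ) * (f j0 * b j0) := ⟨r j0 * b j, by rw [← h1]; ring⟩
      have h3 := Int.natAbs_dvd_natAbs.2 h2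
      rw [Int.natAbs_mul, Int.natAbs_natCast, Int.natAbs_natCast] at h3
      exact h3
    set f' : κ → ℕ := fun j => f j / Nat.gcd (f j) (r j) with hf'
    have hg0 : ∀ j ∈ J, 0 < Nat.gcd (f j) (r j) := fun j hj =>
      Nat.gcd_pos_of_pos_left _ (hfpos j hj)
    have hf'dvd : ∀ j ∈ J, f' j ∣ B := by
      intro j hj
      have h1 : Nat.Coprime (f j / Nat.gcd (f j) (r j)) (r j / Nat.gcd (f j) (r j)) :=
        Nat.coprime_div_gcd_div_gcd (hg0 j hj)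
      have h2 : f j / Nat.gcd (f j) (r j) ∣ (r j / Nat.gcd (f j) (r j)) * B := by
        have h3 : f j / Nat.gcd (f j) (r j) ∣ (r j * B) / Nat.gcd (f j) (r j) :=
          Nat.div_dvd_div (Nat.gcd_dvd_left _ _) (hdvd j hj)
        rwa [Nat.mul_div_right_comm (Nat.gcd_dvd_right _ _)] at h3
      exact Nat.Coprime.dvd_of_dvd_mul_left h1 h2
    have hf'f : ∀ j ∈ J, f' j ∣ f j := fun j _ => Nat.div_dvd_of_dvd (Nat.gcd_dvd_left _ _)
    have hprod : ∏ j ∈ J, f' j ∣ B := by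
      refine Finset.prod_dvd_of_isRelPrime ?_ hf'dvd
      intro j hj j' hj' hne
      rw [Function.onFun, ← Nat.coprime_iff_isRelPrime]
      exact Nat.Coprime.coprime_dvd_left (hf'f j hj)
        (Nat.Coprime.coprime_dvd_right (hf'f j' hj') (hpair j hj j' hj' hne))
    have hprodle : ((∏ j ∈ J, f' j : ℕ) : ℝ) ≤ D :=
      le_trans (by exact_mod_cast Nat.le_of_dvd hBpos hprod) hBle
    refine le_trans ?_ hprodle
    push_cast
    rw [← Finset.prod_const]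
    refine Finset.prod_le_prod (fun j _ => by positivity) fun j hj => ?_
    have hg' : ((Nat.gcd (f j) (r j) : ℕ) : ℝ) ≠ 0 := by exact_mod_cast (hg0 j hj).ne'
    have h1 : ((f' j : ℕ) : ℝ) = (f j : ℝ) / (Nat.gcd (f j) (r j) : ℕ) := by
      simp only [hf']
      rw [Nat.cast_div (Nat.gcd_dvd_left _ _) hg']
    rw [h1]
    have h2 : ((Nat.gcd (f j) (r j) : ℕ) : ℝ) ≤ R := by
      have h3 : Nat.gcd (f j) (r j) ≤ r j := Nat.gcd_le_right _ (by have := (hr j hj).1; omega)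
      exact_mod_cast h3.trans (hr j hj).2
    have h3 : (Fmin : ℝ) ≤ f j := by exact_mod_cast (hf j hj).2.1
    have h4 : (0 : ℝ) < ((Nat.gcd (f j) (r j) : ℕ) : ℝ) := by exact_mod_cast hg0 j hj
    exact div_le_div₀ (Nat.cast_nonneg _) h3 h4 h2

end Vale.Agent.EgyptF
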