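import Mathlib
import Vale.Agent.EgyptF.Defs

/-!
# Piece A1. Window count.

`S` = integers `N ∈ [Zs, 3 Zs]` with `‖ζN - β‖ ≤ 2δ`.  If `‖rζ‖ > ν` for all `1 ≤ r ≤ R` then `S` is small.

Proof.  If `|S| ≤ 1` trivial.  Let `r` be the least difference of two consecutive elements of `S`.
If `r > R`: `(|S|-1) R ≤ 2 Zs`.
If `r ≤ R`: `η := ‖rζ‖ ≤ 4δ` and `η > ν > 0`.  Split `S` into residue classes mod `r` (at most `r`
classes).  In one class `N = N₀ + r k`, `0 ≤ k ≤ K := 2 Zs / r`; `rζ = m ± η` with `m` an integer, so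
`‖x₀ ± kη‖ ≤ 2δ` with `x₀ = ζN₀ - β`.  The unwrapped points `x₀ ± kη` run through an interval of length
`Kη`; they must lie in one of the intervals `[t - 2δ, t + 2δ]`, `t ∈ ℤ`; at most `Kη + 4δ + 1 ≤ Kη + 2`
of them are relevant and each contains at most `4δ/η + 1` points.  So
`|S| ≤ r (Kη + 2)(4δ/η + 1) = 4δ r K + r K η + r (8δ/η + 2) ≤ 8δ Zs + 8 δ Zs + R (8δ/ν + 2)`.
-/

open Finset

namespace Vale.Agent.EgyptF

lemma int_count (T : Finset ℤ) (u v : ℝ) (huv : u ≤ v)
    (h : ∀ t ∈ T, u ≤ (t : ℝ) ∧ (t : ℝ) ≤ v) : (T.card : ℝ) ≤ v - u + 1 := by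
  have hsub : T ⊆ Finset.Icc ⌈u⌉ ⌊v⌋ := by
    intro t ht
    obtain ⟨h1, h2⟩ := h t ht
    exact Finset.mem_Icc.2 ⟨Int.ceil_le.2 h1, Int.le_floor.2 h2⟩
  have h1 : T.card ≤ (⌊v⌋ + 1 - ⌈u⌉).toNat := by
    rw [← Int.card_Icc]; exact Finset.card_le_card hsub
  have h2 : (T.card : ℝ) ≤ (((⌊v⌋ + 1 - ⌈u⌉).toNat : ℕ) : ℝ) := by exact_mod_cast h1
  refine h2.trans ?_
  have h3 : (⌊v⌋ : ℝ) ≤ v := Int.floor_le v
  have h4 : u ≤ (⌈u⌉ : ℝ) := Int.le_ceil u
  rcases le_or_gt 0 (⌊v⌋ + 1 - ⌈u⌉) with hp | hn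
  · have e : (((⌊v⌋ + 1 - ⌈u⌉).toNat : ℕ) : ℝ) = ((⌊v⌋ + 1 - ⌈u⌉ : ℤ) : ℝ) := by
      exact_mod_cast congrArg (fun z : ℤ => (z : ℝ)) (Int.toNat_of_nonneg hp)
    rw [e]
    push_cast
    linarith
  · rw [Int.toNat_eq_zero.2 hn.le]
    push_cast
    linarith

lemma class_count (T : Finset ℕ) (x ε δ : ℝ) (K : ℕ) (hε : ε ≠ 0) (hδ : 0 ≤ δ)
    (hδ' : δ ≤ 1 / 4) (h : ∀ k ∈ T, k ≤ K ∧ nd (x + k * ε) ≤ 2 * δ) :
    (T.card : ℝ) ≤ (K * |ε| + 2) * (4 * δ / |ε| + 1) := by
  classical
  have hε' : 0 < |ε| := abs_pos.2 hε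
  have hround : ∀ k ∈ T, |x + k * ε - round (x + k * ε)| ≤ 2 * δ := fun k hk => (h k hk).2
  rw [Finset.card_eq_sum_card_image (fun k : ℕ => round (x + k * ε)) T]
  push_cast
  -- fibers
  have hfib : ∀ t ∈ T.image (fun k : ℕ => round (x + k * ε)),
      (((T.filter (fun k : ℕ => round (x + k * ε) = t)).card : ℕ) : ℝ) ≤ 4 * δ / |ε| + 1 := by
    intro t _
    have e1 : (T.filter (fun k : ℕ => round (x + k * ε) = t)).card =
        ((T.filter (fun k : ℕ => round (x + k * ε) = t)).map Nat.castEmbedding :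
          Finset ℤ).card := (Finset.card_map _).symm
    rw [e1]
    have := int_count ((T.filter (fun k : ℕ => round (x + k * ε) = t)).map Nat.castEmbedding)
      ((t - x) / ε - 2 * δ / |ε|) ((t - x) / ε + 2 * δ / |ε|) (by
        have : 0 ≤ 2 * δ / |ε| := by positivity
        linarith) (by
        intro z hz
        obtain ⟨k, hk, rfl⟩ := Finset.mem_map.1 hz
        obtain ⟨hkT, hkt⟩ := Finset.mem_filter.1 hk
        have h1 := hround k hkT
        rw [hkt] at h1
        have h2 : |(k : ℝ) - (t - x) / ε| ≤ 2 * δ / |ε| := by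
          have e2 : (k : ℝ) - (t - x) / ε = (x + k * ε - t) / ε := by field_simp; ring
          rw [e2, abs_div]
          gcongr
        rw [abs_le] at h2
        simp only [Nat.castEmbedding_apply, Int.cast_natCast]
        constructor <;> linarith [h2.1, h2.2])
    refine this.trans (le_of_eq ?_)
    ring
  have himg : ((T.image (fun k : ℕ => round (x + k * ε))).card : ℝ) ≤ K * |ε| + 2 := by
    have := int_count (T.image (fun k : ℕ => round (x + k * ε)))
      (min x (x + K * ε) - 2 * δ) (max x (x + K * ε) + 2 * δ) (by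
        have := min_le_max (a := x) (b := x + K * ε)
        linarith) (by
        intro t ht
        obtain ⟨k, hk, rfl⟩ := Finset.mem_image.1 ht
        have h1 := abs_le.1 (hround k hk)
        have hkK : (k : ℝ) ≤ K := by exact_mod_cast (h k hk).1
        have hk0 : (0 : ℝ) ≤ k := Nat.cast_nonneg k
        rcases lt_or_gt_of_ne hε with hneg | hpos
        · have e1 : (K : ℝ) * ε ≤ k * ε := mul_le_mul_of_nonpos_right hkK hneg.le
          have e2 : (k : ℝ) * ε ≤ 0 := mul_nonpos_of_nonneg_of_nonpos hk0 hneg.le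
          constructor
          · have := min_le_right x (x + K * ε)
            linarith [h1.2]
          · have := le_max_left x (x + K * ε)
            linarith [h1.1]
        · have e1 : (k : ℝ) * ε ≤ K * ε := mul_le_mul_of_nonneg_right hkK hpos.le
          have e2 : 0 ≤ (k : ℝ) * ε := mul_nonneg hk0 hpos.le
          constructor
          · have := min_le_left x (x + K * ε)
            linarith [h1.2]
          · have := le_max_right x (x + K * ε)
            linarith [h1.1])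
    refine this.trans ?_
    have e3 : max x (x + K * ε) - min x (x + K * ε) = K * |ε| := by
      rw [max_sub_min_eq_abs]
      have : x + K * ε - x = K * ε := by ring
      rw [this, abs_mul, abs_of_nonneg (Nat.cast_nonneg K : (0 : ℝ) ≤ K)]
    linarith
  calc ∑ t ∈ T.image (fun k : ℕ => round (x + k * ε)),
        (((T.filter (fun k : ℕ => round (x + k * ε) = t)).card : ℕ) : ℝ)
      ≤ ∑ t ∈ T.image (fun k : ℕ => round (x + k * ε)), (4 * δ / |ε| + 1) :=
        Finset.sum_le_sum hfib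
    _ = ((T.image (fun k : ℕ => round (x + k * ε))).card : ℝ) * (4 * δ / |ε| + 1) := by
        rw [Finset.sum_const, nsmul_eq_mul]
    _ ≤ (K * |ε| + 2) * (4 * δ / |ε| + 1) := by
        apply mul_le_mul_of_nonneg_right himg
        positivity

theorem window_count (ζ β δ ν : ℝ) (Zs R : ℕ) (hZ : 1 ≤ Zs) (hR : 1 ≤ R) (hδ : 0 ≤ δ)
    (hδ' : δ ≤ 1 / 4) (hν : 0 < ν)
    (hnd : ∀ r : ℕ, 1 ≤ r → r ≤ R → ν < nd (r * ζ)) (S : Finset ℕ)
    (hS : ∀ N ∈ S, Zs ≤ N ∧ N ≤ 3 * Zs ∧ nd (ζ * N - β) ≤ 2 * δ) :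
    (S.card : ℝ) ≤ 2 * Zs / R + 1 + 16 * δ * Zs + R * (8 * δ / ν + 2) := by
  classical
  have hR' : (0 : ℝ) < R := by exact_mod_cast hR
  have hnn2 : 0 ≤ 16 * δ * Zs := by positivity
  have hnn3 : 0 ≤ R * (8 * δ / ν + 2) := by positivity
  have hnn1 : 0 ≤ 2 * (Zs : ℝ) / R := by positivity
  by_cases hbig : ∀ N ∈ S, ∀ N' ∈ S, N < N' → N + R < N'
  · -- well spaced
    have hinj : Set.InjOn (fun N => (N - Zs) / (R + 1)) (S : Set ℕ) := by
      intro N hN N' hN' he
      by_contra hne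
      rcases lt_or_gt_of_ne hne with hlt | hlt
      · have h1 := hbig N hN N' hN' hlt
        have h2 := (hS N hN).1
        have h3 : (N - Zs) / (R + 1) + 1 ≤ (N' - Zs) / (R + 1) := by
          rw [← Nat.add_div_right _ (Nat.succ_pos R)]
          exact Nat.div_le_div_right (by omega)
        simp only at he
        omega
      · have h1 := hbig N' hN' N hN hlt
        have h2 := (hS N' hN').1
        have h3 : (N' - Zs) / (R + 1) + 1 ≤ (N - Zs) / (R + 1) := by
          rw [← Nat.add_div_right _ (Nat.succ_pos R)]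
          exact Nat.div_le_div_right (by omega)
        simp only at he
        omega
    have h1 : S.card ≤ 2 * Zs / (R + 1) + 1 := by
      rw [← Finset.card_image_of_injOn hinj, ← Finset.card_range (2 * Zs / (R + 1) + 1)]
      apply Finset.card_le_card
      intro k hk
      obtain ⟨N, hN, rfl⟩ := Finset.mem_image.1 hk
      have h2 := hS N hN
      rw [Finset.mem_range, Nat.lt_succ_iff]
      exact Nat.div_le_div_right (by omega)
    have h2 : (S.card : ℝ) ≤ ((2 * Zs / (R + 1) : ℕ) : ℝ) + 1 := by exact_mod_cast h1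
    have h3 : ((2 * Zs / (R + 1) : ℕ) : ℝ) ≤ 2 * Zs / R := by
      calc ((2 * Zs / (R + 1) : ℕ) : ℝ) ≤ ((2 * Zs : ℕ) : ℝ) / ((R + 1 : ℕ) : ℝ) := Nat.cast_div_le
        _ ≤ 2 * Zs / R := by
          push_cast
          gcongr
          linarith
    linarith
  · push Not at hbig
    obtain ⟨N1, hN1, N2, hN2, hlt, hle⟩ := hbig
    set r := N2 - N1 with hr
    have hr1 : 1 ≤ r := by omega
    have hrR : r ≤ R := by omega
    have hr0 : (0 : ℝ) < r := by exact_mod_cast hr1
    have hη := hnd r hr1 hrR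
    set ε := r * ζ - round (r * ζ) with hε
    have hηε : nd (r * ζ) = |ε| := rfl
    rw [hηε] at hη
    have hε0 : ε ≠ 0 := by
      intro h0
      rw [h0, abs_zero] at hη
      linarith
    have hηδ : |ε| ≤ 4 * δ := by
      rw [← hηε]
      have e1 : (r : ℝ) * ζ = (ζ * N2 - β) - (ζ * N1 - β) := by
        rw [hr, Nat.cast_sub hlt.le]; ring
      rw [e1]
      have := nd_sub (ζ * N2 - β) (ζ * N1 - β)
      linarith [(hS N1 hN1).2.2, (hS N2 hN2).2.2]
    have hεpos : 0 < |ε| := abs_pos.2 hε0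
    -- classes
    have hmaps : ∀ N ∈ S, (N - Zs) % r ∈ range r := fun N _ =>
      Finset.mem_range.2 (Nat.mod_lt _ hr1)
    have hcard : (S.card : ℝ) =
        ∑ ρ ∈ range r, ((S.filter (fun N => (N - Zs) % r = ρ)).card : ℝ) := by
      rw [Finset.card_eq_sum_card_fiberwise hmaps]
      push_cast
      rfl
    set K := 2 * Zs / r with hK
    have hclass : ∀ ρ ∈ range r, ((S.filter (fun N => (N - Zs) % r = ρ)).card : ℝ) ≤
        (K * |ε| + 2) * (4 * δ / |ε| + 1) := by
      intro ρ _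
      have hinj : Set.InjOn (fun N => (N - Zs) / r)
          ((S.filter (fun N => (N - Zs) % r = ρ) : Finset ℕ) : Set ℕ) := by
        intro N hN N' hN' he
        rw [Finset.mem_coe, Finset.mem_filter] at hN hN'
        simp only at he
        have h1 := Nat.div_add_mod (N - Zs) r
        have h2 := Nat.div_add_mod (N' - Zs) r
        have h3 := (hS N hN.1).1
        have h4 := (hS N' hN'.1).1
        rw [hN.2] at h1
        rw [hN'.2, ← he] at h2
        omega
      rw [← Finset.card_image_of_injOn hinj]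
      refine class_count _ (ζ * ((Zs + ρ : ℕ) : ℝ) - β) ε δ K hε0 hδ hδ' ?_
      intro k hk
      obtain ⟨N, hN, rfl⟩ := Finset.mem_image.1 hk
      rw [Finset.mem_filter] at hN
      obtain ⟨a1, a2, a3⟩ := hS N hN.1
      refine ⟨Nat.div_le_div_right (by omega), ?_⟩
      have h1 := Nat.div_add_mod (N - Zs) r
      rw [hN.2] at h1
      have h2 : N = Zs + ρ + r * ((N - Zs) / r) := by omega
      have h3 : (N : ℝ) = ((Zs + ρ : ℕ) : ℝ) + r * (((N - Zs) / r : ℕ) : ℝ) := by
        exact_mod_cast h2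
      have h4 : ζ * N - β = (ζ * ((Zs + ρ : ℕ) : ℝ) - β + (((N - Zs) / r : ℕ) : ℝ) * ε) +
          (((((N - Zs) / r : ℕ) : ℤ) * round (r * ζ) : ℤ) : ℝ) := by
        rw [h3, hε]
        generalize (N - Zs) / r = kk
        push_cast
        ring
      rw [h4, nd_add_int] at a3
      exact a3
    have hrK : (r : ℝ) * K ≤ 2 * Zs := by
      have : r * K ≤ 2 * Zs := Nat.mul_div_le _ _
      exact_mod_cast this
    have hrR' : (r : ℝ) ≤ R := by exact_mod_cast hrR
    have hb : (S.card : ℝ) ≤ r * ((K * |ε| + 2) * (4 * δ / |ε| + 1)) := by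
      rw [hcard]
      calc _ ≤ ∑ ρ ∈ range r, (K * |ε| + 2) * (4 * δ / |ε| + 1) := Finset.sum_le_sum hclass
        _ = _ := by rw [Finset.sum_const, card_range, nsmul_eq_mul]
    have hexp : r * ((K * |ε| + 2) * (4 * δ / |ε| + 1)) =
        4 * δ * (r * K) + (r * K) * |ε| + r * (8 * δ / |ε| + 2) := by
      field_simp
      ring
    have h5 : 4 * δ * (r * K) ≤ 4 * δ * (2 * Zs) := by gcongr
    have h6 : (r * K) * |ε| ≤ (2 * Zs) * (4 * δ) := by
      apply mul_le_mul hrK hηδ (abs_nonneg _) (by positivity)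
    have h7 : r * (8 * δ / |ε| + 2) ≤ R * (8 * δ / ν + 2) := by
      gcongr
    have : 4 * δ * (2 * Zs) + (2 * Zs) * (4 * δ) = 16 * δ * Zs := by ring
    linarith

end Vale.Agent.EgyptF
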