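import Mathlib
import Vale.Agent.EgyptF.Defs
import Vale.Agent.EgyptF.Window
import Vale.Agent.EgyptF.Tuples
import Vale.Agent.EgyptF.Tri
import Vale.Agent.EgyptF.Deep
import Vale.Agent.EgyptF.Tree

/-!
# Piece A7. Existence of a pool with anti-concentration at scale `s` (uses A1, A2, A4, A5, A6).

`w = 2^{16 M}`, `G = w^s`; so `2^{64 M s} = G^4` (number of vectors), index set
`B = Fin M × Fin (64 s)`.  `R = w^{25 s}`, `δ = w^{-80 s}`, `ν = w^{-26 s} / (3 z^s)`, `γ = w^{-20 s}`.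

Call `p` bad if it is not injective or if for some `D, h, β` as in the statement the conclusion fails.
1. Non-injective pools: at most `(128 M s)^2 |P|^{|ι|-1} ≤ w^2 / w^97 |P|^{|ι|}`, `ι = B × Bool`.
2. Let `p` be injective and `A = {a : ‖h v_a / D - β‖ ≤ δ}` with `|A| > w^{3 s} = 2^{48 M s}`.
   `Deep a` := set of `j : Fin M` such that for some `L ⊆ block j`, `|L| = s`, and some `1 ≤ r ≤ R`:
   `‖r h (∏_{i ∉ L} p (i, a i)) / D‖ ≤ ν`.  By `deep_bound` (with `V = vv p a`, `f j = ∏_{i∈L_j} p (i, a i)`,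
   `Fmin = z^s`, `Fmax = 3 z^s`): `(z^s / R)^{|Deep a|} ≤ D ≤ w^{M s}` and `z^s ≥ w^{99 s}`, so
   `74 |Deep a| ≤ M`.  `tree_lemma` gives `a0`, `J`, `a_j`; choose `L_j ⊆ block j` with `|L_j| = s` on
   which `a_j ≠ a0`.  Then for `j ∈ J`:
   (C_j) `‖h (v_{a_j} - v_{a0}) / D‖ ≤ 2δ` and for all `1 ≤ r ≤ R`: `‖r h y_j / D‖ > ν`,
   `y_j = ∏_{i∉L_j} p (i, a_j i)`.
3. For fixed `(D, h, a0, J, (a_j), (L_j))` the number of pools with all (C_j), `j ∈ J`, is at most
   `γ^{|J|} |P|^{|ι|}` by `tri_count` with `Dset j = {(i, a_j i) : i ∈ L_j}`: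
   `C j'` for `j' > j` uses only the coordinates `(i, a_{j'} i)`, `(i, a0 i)` and on block `j` these are
   `(i, a0 i) ≠ (i, a_j i)`.  Count for one `j`: `v_{a_j} = y_j f_j`; `f_j ∈ S` with
   `|S| ≤ 2 z^s/R + 1 + 16 δ z^s + R (8 δ/ν + 2) ≤ w^{76 s}` by `window_count` (`Zs = z^s`, `z^s ≤ w^{100 s}`),
   so `≤ w^{76 s} s! ≤ γ |P|^s` tuples by `tuple_count` (`|P|^s ≥ w^{97 s}`, `s! ≤ s^s ≤ w^s`).
4. Union bound: number of `(D, h)` is `≤ w^{2 M s}`, `a0`: `G^4`, `J`: `2^M`, `(a_j)`: `G^{4 M}`,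
   `(L_j)`: `G^4`; `γ^{|J|} ≤ w^{-10 M s}`; total `≤ G^{2M + 4 + 4M + 4 - 10 M} 2^M < 1/2`.
-/

open Finset

namespace Vale.Agent.EgyptF

namespace PoolAux

variable {M s : ℕ}

/-- product over the part `L` of block `j` -/
def ff (p : (Fin M × Fin (64 * s)) × Bool → ℕ) (a : Fin M × Fin (64 * s) → Bool) (j : Fin M)
    (L : Finset (Fin (64 * s))) : ℕ := ∏ t ∈ L, p ((j, t), a (j, t))

/-- product over all indices outside the part `L` of block `j` -/
def yy (p : (Fin M × Fin (64 * s)) × Bool → ℕ) (a : Fin M × Fin (64 * s) → Bool) (j : Fin M)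
    (L : Finset (Fin (64 * s))) : ℕ :=
  ∏ i ∈ univ.filter (fun i : Fin M × Fin (64 * s) => ¬ (i.1 = j ∧ i.2 ∈ L)), p (i, a i)

/-- the coordinates used by `ff` -/
def DD (a : Fin M × Fin (64 * s) → Bool) (j : Fin M) (L : Finset (Fin (64 * s))) :
    Finset ((Fin M × Fin (64 * s)) × Bool) :=
  L.map ⟨fun t => ((j, t), a (j, t)), fun t t' h => by simpa using (congrArg (fun x => x.1.2) h)⟩

lemma mem_DD {a : Fin M × Fin (64 * s) → Bool} {j : Fin M} {L : Finset (Fin (64 * s))}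
    {x : (Fin M × Fin (64 * s)) × Bool} :
    x ∈ DD a j L ↔ x.1.1 = j ∧ x.1.2 ∈ L ∧ x.2 = a x.1 := by
  unfold DD
  rw [mem_map]
  constructor
  · rintro ⟨t, ht, rfl⟩
    exact ⟨rfl, ht, rfl⟩
  · rintro ⟨h1, h2, h3⟩
    obtain ⟨⟨x1, x2⟩, x3⟩ := x
    simp only at h1 h2 h3
    subst h1
    exact ⟨x2, h2, by rw [h3]; rfl⟩

lemma card_DD (a : Fin M × Fin (64 * s) → Bool) (j : Fin M) (L : Finset (Fin (64 * s))) :
    (DD a j L).card = L.card := card_map _

lemma prod_DD (q : (Fin M × Fin (64 * s)) × Bool → ℕ) (a : Fin M × Fin (64 * s) → Bool) (j : Fin M)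
    (L : Finset (Fin (64 * s))) : ∏ x ∈ DD a j L, q x = ff q a j L := by
  unfold DD ff
  rw [prod_map]
  rfl

lemma vv_eq (p : (Fin M × Fin (64 * s)) × Bool → ℕ) (a : Fin M × Fin (64 * s) → Bool) (j : Fin M)
    (L : Finset (Fin (64 * s))) : vv p a = yy p a j L * ff p a j L := by
  unfold vv yy ff
  rw [← prod_filter_mul_prod_filter_not univ
    (fun i : Fin M × Fin (64 * s) => ¬ (i.1 = j ∧ i.2 ∈ L))]
  congr 1
  symm
  refine prod_bij (fun t _ => (j, t)) ?_ ?_ ?_ ?_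
  · intro t ht
    simp [ht]
  · intro t _ t' _ h
    simpa using h
  · rintro ⟨b1, b2⟩ hb
    simp only [not_not, mem_filter, mem_univ, true_and] at hb
    obtain ⟨rfl, hb2⟩ := hb
    exact ⟨b2, hb2, rfl⟩
  · intro t _
    rfl

/-- the condition `C_j` -/
def CC (w z D h : ℕ) (a0 aj : Fin M × Fin (64 * s) → Bool) (j : Fin M)
    (L : Finset (Fin (64 * s))) (p : (Fin M × Fin (64 * s)) × Bool → ℕ) : Prop :=
  nd ((h : ℝ) * vv p aj / D - (h : ℝ) * vv p a0 / D) ≤ 2 * (1 / (w : ℝ) ^ (80 * s)) ∧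
    ∀ r : ℕ, 1 ≤ r → r ≤ w ^ (25 * s) →
      1 / ((w : ℝ) ^ (26 * s) * (3 * (z : ℝ) ^ s)) < nd ((r : ℝ) * ((h : ℝ) * yy p aj j L / D))

lemma yy_congr {p q : (Fin M × Fin (64 * s)) × Bool → ℕ} {a : Fin M × Fin (64 * s) → Bool}
    {j : Fin M} {L : Finset (Fin (64 * s))} (U : Finset ((Fin M × Fin (64 * s)) × Bool))
    (hpq : ∀ i, i ∉ U → p i = q i)
    (h : ∀ i, ¬ (i.1 = j ∧ i.2 ∈ L) → (i, a i) ∉ U) : yy p a j L = yy q a j L := by
  unfold yy
  refine prod_congr rfl fun i hi => ?_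
  rw [mem_filter] at hi
  exact hpq _ (h i hi.2)

lemma vv_congr {p q : (Fin M × Fin (64 * s)) × Bool → ℕ} {a : Fin M × Fin (64 * s) → Bool}
    (U : Finset ((Fin M × Fin (64 * s)) × Bool))
    (hpq : ∀ i, i ∉ U → p i = q i) (h : ∀ i, (i, a i) ∉ U) : vv p a = vv q a := by
  unfold vv
  exact prod_congr rfl fun i _ => hpq _ (h i)

lemma pow_succ_le (w s : ℕ) (hw : 1 ≤ w) (hs : s ≤ w) : (w + 1) ^ s ≤ 3 * w ^ s := by
  have hw0 : (0 : ℝ) < w := by exact_mod_cast hw
  have h1 : (1 + 1 / (w : ℝ)) ^ s ≤ 3 := by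
    calc (1 + 1 / (w : ℝ)) ^ s ≤ (Real.exp (1 / (w : ℝ))) ^ s := by
          apply pow_le_pow_left₀ (by positivity)
          have := Real.add_one_le_exp (1 / (w : ℝ))
          linarith
      _ = Real.exp (s * (1 / (w : ℝ))) := by rw [Real.exp_nat_mul]
      _ ≤ Real.exp 1 := by
          apply Real.exp_le_exp.mpr
          rw [mul_one_div, div_le_one hw0]
          exact_mod_cast hs
      _ ≤ 3 := by
          have := Real.exp_one_lt_d9
          linarith
  have h2 : ((w : ℝ) + 1) ^ s ≤ 3 * (w : ℝ) ^ s := by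
    have : (w : ℝ) + 1 = (1 + 1 / (w : ℝ)) * w := by
      field_simp
    rw [this, mul_pow]
    exact mul_le_mul_of_nonneg_right h1 (by positivity)
  exact_mod_cast h2

lemma ff_bounds {w z : ℕ} {P : Finset ℕ} (hw : 1 ≤ w) (hsw : s ≤ w)
    (hP : ∀ p ∈ P, p.Prime ∧ z ≤ p ∧ p * w ≤ z * (w + 1))
    {q : (Fin M × Fin (64 * s)) × Bool → ℕ} (hq : ∀ i, q i ∈ P) (a : Fin M × Fin (64 * s) → Bool)
    (j : Fin M) (L : Finset (Fin (64 * s))) (hL : L.card = s) :
    z ^ s ≤ ff q a j L ∧ ff q a j L ≤ 3 * z ^ s := by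
  constructor
  · unfold ff
    calc z ^ s = z ^ L.card := by rw [hL]
      _ ≤ _ := pow_card_le_prod _ _ _ fun t _ => (hP _ (hq _)).2.1
  · have h1 : ff q a j L * w ^ s ≤ z ^ s * (w + 1) ^ s := by
      unfold ff
      calc (∏ t ∈ L, q ((j, t), a (j, t))) * w ^ s
          = (∏ t ∈ L, q ((j, t), a (j, t))) * w ^ L.card := by rw [hL]
        _ = ∏ t ∈ L, (q ((j, t), a (j, t)) * w) := by rw [prod_mul_distrib, prod_const]
        _ ≤ ∏ t ∈ L, (z * (w + 1)) := prod_le_prod' fun t _ => (hP _ (hq _)).2.2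
        _ = (z * (w + 1)) ^ L.card := prod_const _
        _ = z ^ s * (w + 1) ^ s := by rw [hL, mul_pow]
    have h2 := pow_succ_le w s hw hsw
    have h3 : ff q a j L * w ^ s ≤ (3 * z ^ s) * w ^ s := by
      calc ff q a j L * w ^ s ≤ z ^ s * (w + 1) ^ s := h1
        _ ≤ z ^ s * (3 * w ^ s) := Nat.mul_le_mul_left _ h2
        _ = _ := by ring
    exact Nat.le_of_mul_le_mul_right h3 (pow_pos (by omega) _)

/-- numerical estimate for the window -/
lemma window_num (X Y Zr : ℝ) (hX : 64 ≤ X) (hZ : 0 < Zr) (hZ2 : Zr ≤ X ^ 100) (hY : Y = X ^ 25) :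
    2 * Zr / Y + 1 + 16 * (1 / X ^ 80) * Zr +
      Y * (8 * (1 / X ^ 80) / (1 / (X ^ 26 * (3 * Zr))) + 2) ≤ X ^ 76 := by
  have hX0 : 0 < X := by linarith
  have hX1 : 1 ≤ X := by linarith
  subst hY
  have e1 : 2 * Zr / X ^ 25 ≤ 2 * X ^ 75 := by
    rw [div_le_iff₀ (by positivity)]
    calc 2 * Zr ≤ 2 * X ^ 100 := by linarith
      _ = 2 * X ^ 75 * X ^ 25 := by ring
  have e2 : 16 * (1 / X ^ 80) * Zr ≤ 16 * X ^ 75 := by
    have : 1 / X ^ 80 * Zr ≤ X ^ 75 := by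
      rw [one_div, ← div_eq_inv_mul, div_le_iff₀ (by positivity)]
      calc Zr ≤ X ^ 100 := hZ2
        _ ≤ X ^ 155 := pow_le_pow_right₀ hX1 (by norm_num)
        _ = _ := by ring
    linarith
  have e3 : X ^ 25 * (8 * (1 / X ^ 80) / (1 / (X ^ 26 * (3 * Zr))) + 2) ≤ 26 * X ^ 75 := by
    have h1 : 8 * (1 / X ^ 80) / (1 / (X ^ 26 * (3 * Zr))) = 24 * Zr / X ^ 54 := by
      field_simp
      ring
    rw [h1]
    have h2 : 24 * Zr / X ^ 54 ≤ 24 * X ^ 46 := by
      rw [div_le_iff₀ (by positivity)]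
      calc 24 * Zr ≤ 24 * X ^ 100 := by linarith
        _ = 24 * X ^ 46 * X ^ 54 := by ring
    have h3 : (2 : ℝ) ≤ 2 * X ^ 46 := by
      have := one_le_pow₀ (n := 46) hX1
      linarith
    calc X ^ 25 * (24 * Zr / X ^ 54 + 2) ≤ X ^ 25 * (24 * X ^ 46 + 2 * X ^ 46) :=
          mul_le_mul_of_nonneg_left (by linarith) (by positivity)
      _ = 26 * X ^ 71 := by ring
      _ ≤ 26 * X ^ 75 := by
          have := pow_le_pow_right₀ hX1 (show 71 ≤ 75 by norm_num)
          linarith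
  have e4 : (1 : ℝ) ≤ X ^ 75 := one_le_pow₀ hX1
  calc _ ≤ 2 * X ^ 75 + X ^ 75 + 16 * X ^ 75 + 26 * X ^ 75 := by linarith
    _ = 45 * X ^ 75 := by ring
    _ ≤ X * X ^ 75 := by
        apply mul_le_mul_of_nonneg_right _ (by positivity)
        linarith
    _ = X ^ 76 := by ring

open Classical in
lemma count_one {w z : ℕ} {P : Finset ℕ} (hs : 1 ≤ s) (hw : 64 ≤ w) (hsw : s ≤ w)
    (hz1 : w ^ 99 ≤ z) (hz2 : z ≤ w ^ 100)
    (hP : ∀ p ∈ P, p.Prime ∧ z ≤ p ∧ p * w ≤ z * (w + 1)) (hPc : w ^ 97 ≤ P.card)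
    (D h : ℕ) (a0 aj : Fin M × Fin (64 * s) → Bool) (j : Fin M) (L : Finset (Fin (64 * s)))
    (hL : L.card = s) (hdiff : ∀ t ∈ L, aj (j, t) ≠ a0 (j, t))
    (p : (Fin M × Fin (64 * s)) × Bool → ℕ) :
    (((Fintype.piFinset (fun _ : (Fin M × Fin (64 * s)) × Bool => P)).filter
      (fun q => (∀ i, i ∉ DD aj j L → q i = p i) ∧ CC w z D h a0 aj j L q)).card : ℝ) ≤
      1 / (w : ℝ) ^ (20 * s) * (P.card : ℝ) ^ (DD aj j L).card := by
  set F := (Fintype.piFinset (fun _ : (Fin M × Fin (64 * s)) × Bool => P)).filter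
      (fun q => (∀ i, i ∉ DD aj j L → q i = p i) ∧ CC w z D h a0 aj j L q) with hF
  have hw0 : (0 : ℝ) < w := by
    have : 0 < w := by omega
    exact_mod_cast this
  rcases F.eq_empty_or_nonempty with h0 | ⟨q0, hq0⟩
  · rw [h0, card_empty, Nat.cast_zero]
    positivity
  rw [hF, mem_filter] at hq0
  obtain ⟨hq0P, hq0p, hq0C⟩ := hq0
  set ζ : ℝ := (h : ℝ) * yy q0 aj j L / D with hζ
  set β : ℝ := (h : ℝ) * vv q0 a0 / D with hβ
  set S : Finset ℕ := (Icc (z ^ s) (3 * z ^ s)).filter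
    (fun N => nd (ζ * N - β) ≤ 2 * (1 / (w : ℝ) ^ (80 * s))) with hS
  have hsub : F ⊆ (Fintype.piFinset (fun _ : (Fin M × Fin (64 * s)) × Bool => P)).filter
      (fun q => (∀ i, i ∉ DD aj j L → q i = p i) ∧ ∏ i ∈ DD aj j L, q i ∈ S) := by
    intro q hq
    rw [hF, mem_filter] at hq
    obtain ⟨hqP, hqp, hqC⟩ := hq
    rw [mem_filter]
    refine ⟨hqP, hqp, ?_⟩
    have hqq0 : ∀ i, i ∉ DD aj j L → q i = q0 i := fun i hi => by rw [hqp i hi, hq0p i hi]
    have hy : yy q aj j L = yy q0 aj j L := by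
      refine yy_congr _ hqq0 fun i hi => ?_
      rw [mem_DD]
      rintro ⟨h1, h2, -⟩
      exact hi ⟨h1, h2⟩
    have hv : vv q a0 = vv q0 a0 := by
      refine vv_congr _ hqq0 fun i => ?_
      rw [mem_DD]
      rintro ⟨h1, h2, h3⟩
      obtain ⟨i1, i2⟩ := i
      simp only at h1 h2 h3
      subst h1
      exact hdiff i2 h2 h3.symm
    rw [prod_DD, hS, mem_filter, mem_Icc]
    refine ⟨ff_bounds (by omega) hsw hP (fun i => by
      rw [Fintype.mem_piFinset] at hqP; exact hqP i) aj j L hL, ?_⟩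
    have h1 := hqC.1
    rw [vv_eq q aj j L, hy, hv] at h1
    rw [hζ, hβ]
    convert h1 using 2
    push_cast
    ring
  have hcard : (F.card : ℝ) ≤ S.card * s.factorial := by
    have h1 := card_le_card hsub
    have h2 := tuple_count P (fun p hp => (hP p hp).1) (DD aj j L) S p
    rw [card_DD, hL] at h2
    exact_mod_cast h1.trans h2
  have hzpos : 0 < z := lt_of_lt_of_le (pow_pos (by omega) _) hz1
  have hδ : (1 : ℝ) / (w : ℝ) ^ (80 * s) ≤ 1 / 4 := by
    apply one_div_le_one_div_of_le (by norm_num)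
    calc (4 : ℝ) ≤ w := by
          have : (4 : ℕ) ≤ w := by omega
          exact_mod_cast this
      _ = (w : ℝ) ^ 1 := (pow_one _).symm
      _ ≤ (w : ℝ) ^ (80 * s) := by
          apply pow_le_pow_right₀
          · have : (1 : ℕ) ≤ w := by omega
            exact_mod_cast this
          · omega
  have hwin := window_count ζ β (1 / (w : ℝ) ^ (80 * s)) (1 / ((w : ℝ) ^ (26 * s) * (3 * (z : ℝ) ^ s)))
    (z ^ s) (w ^ (25 * s)) (Nat.one_le_iff_ne_zero.mpr (pow_pos hzpos _).ne')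
    (Nat.one_le_iff_ne_zero.mpr (pow_pos (by omega) _).ne') (by positivity) hδ
    (by
      have : (0 : ℝ) < z := by exact_mod_cast hzpos
      positivity)
    (fun r hr1 hr2 => by
      have := hq0C.2 r hr1 hr2
      rw [hζ]
      exact this) S
    (fun N hN => by
      rw [hS, mem_filter, mem_Icc] at hN
      exact ⟨hN.1.1, hN.1.2, hN.2⟩)
  have hX : (64 : ℝ) ≤ (w : ℝ) ^ s := by
    calc (64 : ℝ) ≤ w := by exact_mod_cast hw
      _ = (w : ℝ) ^ 1 := (pow_one _).symm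
      _ ≤ (w : ℝ) ^ s := by
          apply pow_le_pow_right₀
          · have : (1 : ℕ) ≤ w := by omega
            exact_mod_cast this
          · exact hs
  have hzr : (0 : ℝ) < (z : ℝ) ^ s := by
    have : (0 : ℝ) < z := by exact_mod_cast hzpos
    positivity
  have hnum := window_num ((w : ℝ) ^ s) (((w : ℝ) ^ s) ^ 25) ((z : ℝ) ^ s) hX hzr (by
    rw [← pow_mul, mul_comm s 100, pow_mul]
    apply pow_le_pow_left₀ (by positivity)
    exact_mod_cast hz2) rfl
  have hScard : (S.card : ℝ) ≤ ((w : ℝ) ^ s) ^ 76 := by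
    refine le_trans ?_ hnum
    have pw : ∀ k : ℕ, (w : ℝ) ^ (k * s) = ((w : ℝ) ^ s) ^ k := fun k => by
      rw [mul_comm, pow_mul]
    push_cast at hwin
    rw [pw 25, pw 80, pw 26] at hwin
    exact hwin
  have hfac : ((s.factorial : ℕ) : ℝ) ≤ (w : ℝ) ^ s := by
    have h1 : s.factorial ≤ s ^ s := Nat.factorial_le_pow s
    have h2 : s ^ s ≤ w ^ s := Nat.pow_le_pow_left hsw s
    exact_mod_cast h1.trans h2
  have hPs : ((w : ℝ) ^ s) ^ 97 ≤ (P.card : ℝ) ^ s := by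
    rw [← pow_mul, mul_comm s 97, pow_mul]
    apply pow_le_pow_left₀ (by positivity)
    exact_mod_cast hPc
  rw [card_DD, hL]
  calc (F.card : ℝ) ≤ S.card * s.factorial := hcard
    _ ≤ ((w : ℝ) ^ s) ^ 76 * (w : ℝ) ^ s := by
        apply mul_le_mul hScard hfac (by positivity) (by positivity)
    _ = 1 / (w : ℝ) ^ (20 * s) * ((w : ℝ) ^ s) ^ 97 := by
        rw [mul_comm 20 s, pow_mul]
        field_simp
    _ ≤ _ := mul_le_mul_of_nonneg_left hPs (by positivity)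

open Classical in
/-- deep blocks -/
noncomputable def Deep (w z D h : ℕ) (p : (Fin M × Fin (64 * s)) × Bool → ℕ)
    (a : Fin M × Fin (64 * s) → Bool) : Finset (Fin M) :=
  univ.filter (fun j => ∃ L : Finset (Fin (64 * s)), L.card = s ∧ ∃ r : ℕ, 1 ≤ r ∧
    r ≤ w ^ (25 * s) ∧
    nd ((r : ℝ) * ((h : ℝ) * yy p a j L / D)) ≤ 1 / ((w : ℝ) ^ (26 * s) * (3 * (z : ℝ) ^ s)))

lemma deep_card {w z : ℕ} {P : Finset ℕ} (hs : 1 ≤ s) (hw : 64 ≤ w) (hsw : s ≤ w)
    (hz1 : w ^ 99 ≤ z) (hP : ∀ p ∈ P, p.Prime ∧ z ≤ p ∧ p * w ≤ z * (w + 1))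
    {p : (Fin M × Fin (64 * s)) × Bool → ℕ} (hp : ∀ i, p i ∈ P) (hinj : Function.Injective p)
    {D h : ℕ} (hD1 : w ^ (25 * s) < D) (hD2 : D ≤ w ^ (M * s)) (hcop : ∀ i, Nat.Coprime (p i) D)
    (hh : Nat.Coprime h D) (a : Fin M × Fin (64 * s) → Bool) :
    74 * (Deep w z D h p a).card ≤ M := by
  classical
  have hw0 : (0 : ℝ) < w := by
    have : 0 < w := by omega
    exact_mod_cast this
  have hzpos : 0 < z := lt_of_lt_of_le (pow_pos (by omega) _) hz1
  have hz0 : (0 : ℝ) < z := by exact_mod_cast hzpos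
  have hex : ∀ j, ∃ (L : Finset (Fin (64 * s))) (r : ℕ), j ∈ Deep w z D h p a → (L.card = s ∧
      1 ≤ r ∧ r ≤ w ^ (25 * s) ∧
      nd ((r : ℝ) * ((h : ℝ) * yy p a j L / D)) ≤ 1 / ((w : ℝ) ^ (26 * s) * (3 * (z : ℝ) ^ s))) := by
    intro j
    by_cases hj : j ∈ Deep w z D h p a
    · have hj' := hj
      unfold Deep at hj'
      rw [mem_filter] at hj'
      obtain ⟨-, L, hL, r, h1, h2, h3⟩ := hj'
      exact ⟨L, r, fun _ => ⟨hL, h1, h2, h3⟩⟩
    · exact ⟨∅, 0, fun hj' => absurd hj' hj⟩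
  choose L r hLr using hex
  have hffpos : ∀ j, 0 < ff p a j (L j) := fun j => by
    unfold ff
    exact prod_pos fun t _ => (hP _ (hp _)).1.pos
  have key := deep_bound D h (vv p a) (w ^ (25 * s)) (z ^ s) (3 * z ^ s)
    (1 / ((w : ℝ) ^ (26 * s) * (3 * (z : ℝ) ^ s))) (Deep w z D h p a) (fun j => ff p a j (L j)) r
    (Nat.one_le_iff_ne_zero.mpr (pow_pos (by omega) _).ne') hD1
    (Nat.Coprime.mul_left hh (Nat.Coprime.prod_left fun i _ => hcop _))
    (fun j hj => ⟨Dvd.intro_left _ (vv_eq p a j (L j)).symm,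
      ff_bounds (by omega) hsw hP hp a j (L j) (hLr j hj).1⟩)
    (fun j hj => ⟨(hLr j hj).2.1, (hLr j hj).2.2.1⟩)
    (fun j hj j' hj' hne => by
      refine Nat.Coprime.prod_left fun t _ => Nat.Coprime.prod_right fun t' _ => ?_
      rw [Nat.coprime_primes (hP _ (hp _)).1 (hP _ (hp _)).1]
      intro heq
      have := hinj heq
      simp only [Prod.mk.injEq] at this
      exact hne this.1.1)
    (by positivity)
    (by
      push_cast
      have h1 : 2 * (1 / ((w : ℝ) ^ (26 * s) * (3 * (z : ℝ) ^ s))) * (3 * (z : ℝ) ^ s) *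
          (w : ℝ) ^ (25 * s) = 2 / (w : ℝ) ^ s := by
        have : (w : ℝ) ^ (26 * s) = (w : ℝ) ^ (25 * s) * (w : ℝ) ^ s := by
          rw [← pow_add]
          congr 1
          ring
        rw [this]
        field_simp
      rw [h1, div_lt_one (by positivity)]
      calc (2 : ℝ) < 64 := by norm_num
        _ ≤ w := by exact_mod_cast hw
        _ = (w : ℝ) ^ 1 := (pow_one _).symm
        _ ≤ (w : ℝ) ^ s := by
          apply pow_le_pow_right₀
          · have : (1 : ℕ) ≤ w := by omega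
            exact_mod_cast this
          · exact hs)
    (Nat.one_le_iff_ne_zero.mpr (pow_pos hzpos _).ne')
    (fun j hj => by
      have h1 : vv p a / ff p a j (L j) = yy p a j (L j) :=
        Nat.div_eq_of_eq_mul_left (hffpos j) (vv_eq p a j (L j))
      rw [h1, mul_div_assoc]
      exact (hLr j hj).2.2.2)
  have h2 : (w : ℝ) ^ (74 * s) ≤ ((z ^ s : ℕ) : ℝ) / ((w ^ (25 * s) : ℕ) : ℝ) := by
    push_cast
    rw [le_div_iff₀ (by positivity), ← pow_add]
    calc (w : ℝ) ^ (74 * s + 25 * s) = ((w : ℝ) ^ 99) ^ s := by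
          rw [← pow_mul]
          congr 1
          ring
      _ ≤ (z : ℝ) ^ s := by
          apply pow_le_pow_left₀ (by positivity)
          exact_mod_cast hz1
  have h3 : ((w : ℝ) ^ (74 * s)) ^ (Deep w z D h p a).card ≤ (w : ℝ) ^ (M * s) := by
    calc ((w : ℝ) ^ (74 * s)) ^ (Deep w z D h p a).card
        ≤ (((z ^ s : ℕ) : ℝ) / ((w ^ (25 * s) : ℕ) : ℝ)) ^ (Deep w z D h p a).card :=
          pow_le_pow_left₀ (by positivity) h2 _
      _ ≤ D := key
      _ ≤ (w : ℝ) ^ (M * s) := by exact_mod_cast hD2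
  rw [← pow_mul] at h3
  have h4 : w ^ (74 * s * (Deep w z D h p a).card) ≤ w ^ (M * s) := by exact_mod_cast h3
  have h5 := (Nat.pow_le_pow_iff_right (by omega : 1 < w)).mp h4
  have h6 : (74 * (Deep w z D h p a).card) * s ≤ M * s := by
    calc _ = 74 * s * (Deep w z D h p a).card := by ring
      _ ≤ _ := h5
  exact Nat.le_of_mul_le_mul_right h6 (by omega)

open Classical in
lemma cert_exists {w z : ℕ} {P : Finset ℕ} (hM : 100 ≤ M) (hs : 1 ≤ s) (hw : w = 2 ^ (16 * M))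
    (hw' : 64 ≤ w) (hsw : s ≤ w)
    (hz1 : w ^ 99 ≤ z) (hP : ∀ p ∈ P, p.Prime ∧ z ≤ p ∧ p * w ≤ z * (w + 1))
    {p : (Fin M × Fin (64 * s)) × Bool → ℕ} (hp : ∀ i, p i ∈ P) (hinj : Function.Injective p)
    {D h : ℕ} (hD1 : w ^ (25 * s) < D) (hD2 : D ≤ w ^ (M * s)) (hcop : ∀ i, Nat.Coprime (p i) D)
    (hh : Nat.Coprime h D) (β : ℝ)
    (hA : (w : ℝ) ^ (3 * s) < ((univ.filter (fun a : Fin M × Fin (64 * s) → Bool =>
            nd ((h : ℝ) * vv p a / D - β) ≤ 1 / (w : ℝ) ^ (80 * s))).card : ℝ)) :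
    ∃ (a0 : Fin M × Fin (64 * s) → Bool) (J : Finset (Fin M))
      (a : Fin M → Fin M × Fin (64 * s) → Bool) (L : Fin M → Finset (Fin (64 * s))),
      M ≤ 2 * J.card ∧ ∀ j ∈ J, (∀ i : Fin M × Fin (64 * s), i.1 < j → a j i = a0 i) ∧
        (∀ t ∈ L j, a j (j, t) ≠ a0 (j, t)) ∧ (L j).card = s ∧
        CC w z D h a0 (a j) j (L j) p := by
  set A := univ.filter (fun a : Fin M × Fin (64 * s) → Bool =>
            nd ((h : ℝ) * vv p a / D - β) ≤ 1 / (w : ℝ) ^ (80 * s)) with hAdef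
  have hA2 : 2 ^ (48 * M * s) < A.card := by
    have : ((2 ^ (48 * M * s) : ℕ) : ℝ) < (A.card : ℝ) := by
      refine lt_of_eq_of_lt ?_ hA
      rw [hw]
      push_cast
      rw [← pow_mul]
      congr 1
      ring
    exact_mod_cast this
  obtain ⟨a0, ha0, J, hJ, a, ha⟩ := tree_lemma M s (by omega) hs A (Deep w z D h p)
    (fun a _ => deep_card hs hw' hsw hz1 hP hp hinj hD1 hD2 hcop hh a) hA2
  have hex : ∀ j, ∃ L : Finset (Fin (64 * s)), j ∈ J →
      ((∀ t ∈ L, a j (j, t) ≠ a0 (j, t)) ∧ L.card = s) := by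
    intro j
    by_cases hj : j ∈ J
    · obtain ⟨L, hL1, hL2⟩ := exists_subset_card_eq (ha j hj).2.2.1
      exact ⟨L, fun _ => ⟨fun t ht => (mem_filter.mp (hL1 ht)).2, hL2⟩⟩
    · exact ⟨∅, fun h => absurd h hj⟩
  choose L hL using hex
  refine ⟨a0, J, a, L, hJ, fun j hj => ?_⟩
  obtain ⟨haA, hpre, -, hdeep⟩ := ha j hj
  refine ⟨hpre, (hL j hj).1, (hL j hj).2, ?_, ?_⟩
  · rw [hAdef, mem_filter] at haA ha0
    have h1 : (h : ℝ) * vv p (a j) / D - (h : ℝ) * vv p a0 / D =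
        ((h : ℝ) * vv p (a j) / D - β) - ((h : ℝ) * vv p a0 / D - β) := by ring
    rw [h1]
    have := nd_sub ((h : ℝ) * vv p (a j) / D - β) ((h : ℝ) * vv p a0 / D - β)
    linarith [haA.2, ha0.2]
  · intro r hr1 hr2
    by_contra hcon
    rw [not_lt] at hcon
    apply hdeep
    unfold Deep
    rw [mem_filter]
    exact ⟨mem_univ _, L j, (hL j hj).2, r, hr1, hr2, hcon⟩

open Classical in
lemma count_cert {w z : ℕ} {P : Finset ℕ} (hs : 1 ≤ s) (hw : 64 ≤ w) (hsw : s ≤ w)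
    (hz1 : w ^ 99 ≤ z) (hz2 : z ≤ w ^ 100)
    (hP : ∀ p ∈ P, p.Prime ∧ z ≤ p ∧ p * w ≤ z * (w + 1)) (hPc : w ^ 97 ≤ P.card)
    (D h : ℕ) (a0 : Fin M × Fin (64 * s) → Bool) (J : Finset (Fin M))
    (a : Fin M → Fin M × Fin (64 * s) → Bool) (L : Fin M → Finset (Fin (64 * s)))
    (hval : ∀ j ∈ J, (∀ i : Fin M × Fin (64 * s), i.1 < j → a j i = a0 i) ∧
        (∀ t ∈ L j, a j (j, t) ≠ a0 (j, t)) ∧ (L j).card = s) :
    (((Fintype.piFinset (fun _ : (Fin M × Fin (64 * s)) × Bool => P)).filter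
      (fun p => ∀ j ∈ J, CC w z D h a0 (a j) j (L j) p)).card : ℝ) ≤
      (1 / (w : ℝ) ^ (20 * s)) ^ J.card *
        (P.card : ℝ) ^ (Fintype.card ((Fin M × Fin (64 * s)) × Bool)) := by
  refine tri_count P (1 / (w : ℝ) ^ (20 * s)) (by positivity) J (fun j => DD (a j) j (L j))
    (fun j p => CC w z D h a0 (a j) j (L j) p) ?_ ?_
  · intro j hj j' hj' hlt p q hpq
    have hne : ∀ i : Fin M × Fin (64 * s), (i, a0 i) ∉ DD (a j) j (L j) := by
      rintro ⟨i1, i2⟩
      rw [mem_DD]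
      rintro ⟨h1, h2, h3⟩
      simp only at h1 h2 h3
      subst h1
      exact (hval i1 hj).2.1 i2 h2 h3.symm
    have hne' : ∀ i : Fin M × Fin (64 * s), (i, a j' i) ∉ DD (a j) j (L j) := by
      intro i hi
      have h1 : i.1 = j := (mem_DD.mp hi).1
      have h2 : a j' i = a0 i := (hval j' hj').1 i (by rw [h1]; exact hlt)
      rw [h2] at hi
      exact hne i hi
    have e1 : vv p (a j') = vv q (a j') := vv_congr _ hpq hne'
    have e2 : vv p a0 = vv q a0 := vv_congr _ hpq hne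
    have e3 : yy p (a j') j' (L j') = yy q (a j') j' (L j') :=
      yy_congr _ hpq fun i _ => hne' i
    unfold CC
    rw [e1, e2, e3]
  · intro j hj p _
    exact count_one hs hw hsw hz1 hz2 hP hPc D h a0 (a j) j (L j) (hval j hj).2.2
      (hval j hj).2.1 p

open Classical in
lemma count_noninj {ι : Type*} [Fintype ι] [DecidableEq ι] (P : Finset ℕ) (hP : 0 < P.card)
    (x y : ι) (hxy : x ≠ y) :
    (((Fintype.piFinset (fun _ : ι => P)).filter (fun p => p x = p y)).card : ℝ) ≤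
      1 / (P.card : ℝ) * (P.card : ℝ) ^ (Fintype.card ι) := by
  have hP0 : (0 : ℝ) < P.card := by exact_mod_cast hP
  have key := tri_count (M := 1) P (1 / (P.card : ℝ)) (by positivity) (univ : Finset (Fin 1))
    (fun _ => ({x} : Finset ι)) (fun _ p => p x = p y)
    (by
      intro j _ j' _ hlt
      exact absurd hlt (by rw [Subsingleton.elim j j']; exact lt_irrefl _))
    (by
      intro j _ p _
      rw [card_singleton, pow_one, one_div, inv_mul_cancel₀ hP0.ne']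
      refine Nat.cast_le_one.mpr (card_le_one.mpr ?_)
      intro q hq q' hq'
      simp only [mem_filter] at hq hq'
      funext i
      have hy : ∀ i, i ≠ x → q i = q' i := fun i hi => by
        rw [hq.2.1 i (by simpa using hi), hq'.2.1 i (by simpa using hi)]
      rcases eq_or_ne i x with rfl | hi
      · rw [hq.2.2, hq'.2.2, hy y hxy.symm]
      · exact hy i hi)
  simpa using key

lemma card_univ_cert (M s : ℕ) : Fintype.card ((Fin M × Fin (64 * s) → Bool) × Finset (Fin M) ×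
    (Fin M → Fin M × Fin (64 * s) → Bool) × (Fin M → Finset (Fin (64 * s)))) =
    2 ^ (M * (64 * s)) * (2 ^ M * ((2 ^ (M * (64 * s))) ^ M * (2 ^ (64 * s)) ^ M)) := by
  simp only [Fintype.card_prod, Fintype.card_fun, Fintype.card_bool, Fintype.card_finset,
    Fintype.card_fin]

lemma cert_pow (X : ℝ) (M : ℕ) :
    (X ^ M * X ^ M) * (X ^ 4 * (X * ((X ^ 4) ^ M * X ^ 4))) = X ^ (6 * M + 9) := by
  ring

end PoolAux

theorem scale_pool (M s w z : ℕ) (P : Finset ℕ) (hM : 100 ≤ M) (hs : 1 ≤ s) (hw : w = 2 ^ (16 * M))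
    (hsw : 128 * M * s ≤ w) (hz1 : w ^ 99 ≤ z) (hz2 : z ≤ w ^ 100)
    (hP : ∀ p ∈ P, p.Prime ∧ z ≤ p ∧ p * w ≤ z * (w + 1)) (hPc : w ^ 97 ≤ P.card) :
    ∃ p : (Fin M × Fin (64 * s)) × Bool → ℕ, (∀ i, p i ∈ P) ∧
      ∀ D : ℕ, w ^ (25 * s) < D → D ≤ w ^ (M * s) → (∀ i, Nat.Coprime (p i) D) →
        ∀ h : ℕ, Nat.Coprime h D → ∀ β : ℝ,
          ((univ.filter (fun a : Fin M × Fin (64 * s) → Bool =>
            nd ((h : ℝ) * vv p a / D - β) ≤ 1 / (w : ℝ) ^ (80 * s))).card : ℝ) ≤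
            (w : ℝ) ^ (3 * s) := by
  classical
  have hw64 : 64 ≤ w := by
    rw [hw]
    calc 64 = 2 ^ 6 := by norm_num
      _ ≤ 2 ^ (16 * M) := Nat.pow_le_pow_right (by norm_num) (by omega)
  have hsw' : s ≤ w := by
    refine le_trans ?_ hsw
    exact Nat.le_mul_of_pos_left _ (by omega)
  have hwr : (64 : ℝ) ≤ w := by exact_mod_cast hw64
  have hw0 : (0 : ℝ) < w := by linarith
  have hw1 : (1 : ℝ) ≤ w := by linarith
  have hPpos : 0 < P.card := lt_of_lt_of_le (pow_pos (by omega) _) hPc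
  have hP0 : (0 : ℝ) < P.card := by exact_mod_cast hPpos
  by_contra hcon
  push Not at hcon
  set ι := (Fin M × Fin (64 * s)) × Bool with hι
  set T : ℝ := (P.card : ℝ) ^ (Fintype.card ι) with hT
  have hTpos : 0 < T := by positivity
  set N : ℕ := w ^ (M * s) with hN
  set Valid : (ℕ × ℕ) × (Fin M × Fin (64 * s) → Bool) × Finset (Fin M) ×
      (Fin M → Fin M × Fin (64 * s) → Bool) × (Fin M → Finset (Fin (64 * s))) → Prop :=
    fun c => M ≤ 2 * c.2.2.1.card ∧ ∀ j ∈ c.2.2.1,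
      (∀ i : Fin M × Fin (64 * s), i.1 < j → c.2.2.2.1 j i = c.2.1 i) ∧
        (∀ t ∈ c.2.2.2.2 j, c.2.2.2.1 j (j, t) ≠ c.2.1 (j, t)) ∧ (c.2.2.2.2 j).card = s with hVal
  set Certs := ((Icc 1 N ×ˢ range N) ×ˢ
    (univ : Finset ((Fin M × Fin (64 * s) → Bool) × Finset (Fin M) ×
      (Fin M → Fin M × Fin (64 * s) → Bool) × (Fin M → Finset (Fin (64 * s)))))).filter Valid
    with hCerts
  set Pairs := (univ : Finset (ι × ι)).filter (fun xy => xy.1 ≠ xy.2) with hPairs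
  set U := Fintype.piFinset (fun _ : ι => P) with hU
  have hcover : U ⊆ Pairs.biUnion (fun xy => U.filter (fun p => p xy.1 = p xy.2)) ∪
      Certs.biUnion (fun c => U.filter
        (fun p => ∀ j ∈ c.2.2.1, PoolAux.CC w z c.1.1 c.1.2 c.2.1 (c.2.2.2.1 j) j (c.2.2.2.2 j) p)) := by
    intro p hp
    have hpP : ∀ i, p i ∈ P := by
      rw [hU, Fintype.mem_piFinset] at hp
      exact hp
    rw [mem_union]
    by_cases hinj : Function.Injective p
    · right
      obtain ⟨D, hD1, hD2, hcop, h, hh, β, hA⟩ := hcon p hpP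
      have hDpos : 0 < D := by omega
      have hD0 : (D : ℝ) ≠ 0 := by exact_mod_cast hDpos.ne'
      have hh' : Nat.Coprime (h % D) D := by
        have := Nat.gcd_rec D h
        rw [Nat.Coprime, ← this, Nat.gcd_comm]
        exact hh
      have hmod : ∀ a : Fin M × Fin (64 * s) → Bool,
          nd (((h % D : ℕ) : ℝ) * vv p a / D - β) = nd ((h : ℝ) * vv p a / D - β) := by
        intro a
        obtain ⟨k, hk⟩ : ∃ k, h = h % D + D * k := ⟨h / D, (Nat.mod_add_div h D).symm⟩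
        have h1 : (h : ℝ) = ((h % D : ℕ) : ℝ) + (D : ℝ) * (k : ℝ) := by
          exact_mod_cast hk
        have h2 : (h : ℝ) * vv p a / D - β = (((h % D : ℕ) : ℝ) * vv p a / D - β) +
            (((k * vv p a : ℕ) : ℤ) : ℝ) := by
          rw [h1]
          push_cast
          field_simp
          ring
        rw [h2, nd_add_int]
      have hA' : (w : ℝ) ^ (3 * s) < ((univ.filter (fun a : Fin M × Fin (64 * s) → Bool =>
            nd (((h % D : ℕ) : ℝ) * vv p a / D - β) ≤ 1 / (w : ℝ) ^ (80 * s))).card : ℝ) := by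
        simp_rw [hmod]
        exact hA
      obtain ⟨a0, J, a, L, hJ, hall⟩ := PoolAux.cert_exists hM hs hw hw64 hsw' hz1 hP hpP hinj
        hD1 hD2 hcop hh' β hA'
      rw [mem_biUnion]
      refine ⟨((D, h % D), a0, J, a, L), ?_, ?_⟩
      · rw [hCerts, mem_filter, mem_product, mem_product, mem_Icc, mem_range]
        refine ⟨⟨⟨⟨hDpos, hD2⟩, ?_⟩, mem_univ _⟩, hJ, fun j hj => ?_⟩
        · exact lt_of_lt_of_le (Nat.mod_lt _ hDpos) hD2
        · exact ⟨(hall j hj).1, (hall j hj).2.1, (hall j hj).2.2.1⟩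
      · rw [mem_filter]
        exact ⟨hp, fun j hj => (hall j hj).2.2.2⟩
    · left
      rw [Function.Injective] at hinj
      push Not at hinj
      obtain ⟨x, y, hxy, hne⟩ := hinj
      rw [mem_biUnion]
      refine ⟨(x, y), ?_, ?_⟩
      · rw [hPairs, mem_filter]
        exact ⟨mem_univ _, hne⟩
      · rw [mem_filter]
        exact ⟨hp, hxy⟩
  have hUcard : (U.card : ℝ) = T := by
    rw [hU, Fintype.card_piFinset, prod_const, card_univ, hT]
    push_cast
    rfl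
  set X : ℝ := (w : ℝ) ^ s with hX
  have hX64 : 64 ≤ X := by
    calc (64 : ℝ) ≤ w := hwr
      _ = (w : ℝ) ^ 1 := (pow_one _).symm
      _ ≤ (w : ℝ) ^ s := pow_le_pow_right₀ hw1 hs
  have hX0 : 0 < X := by linarith
  have hX1 : 1 ≤ X := by linarith
  -- non-injective pools
  have hcardι : Fintype.card ι = 128 * M * s := by
    show Fintype.card ((Fin M × Fin (64 * s)) × Bool) = 128 * M * s
    simp only [Fintype.card_prod, Fintype.card_fin, Fintype.card_bool]
    ring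
  have hb1 : ((Pairs.biUnion (fun xy => U.filter (fun p => p xy.1 = p xy.2))).card : ℝ) ≤
      1 / 64 * T := by
    have h1 : ((Pairs.biUnion (fun xy => U.filter (fun p => p xy.1 = p xy.2))).card : ℝ) ≤
        ∑ xy ∈ Pairs, ((U.filter (fun p => p xy.1 = p xy.2)).card : ℝ) := by
      exact_mod_cast card_biUnion_le
    have h2 : ∑ xy ∈ Pairs, ((U.filter (fun p => p xy.1 = p xy.2)).card : ℝ) ≤
        Pairs.card • (1 / (P.card : ℝ) * T) := by
      refine sum_le_card_nsmul _ _ _ fun xy hxy => ?_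
      rw [hPairs, mem_filter] at hxy
      exact PoolAux.count_noninj P hPpos xy.1 xy.2 hxy.2
    have h3 : (Pairs.card : ℝ) ≤ (w : ℝ) ^ 2 := by
      have : Pairs.card ≤ w ^ 2 := by
        calc Pairs.card ≤ (univ : Finset (ι × ι)).card := card_filter_le _ _
          _ = (128 * M * s) ^ 2 := by
              rw [card_univ, Fintype.card_prod, hcardι]
              ring
          _ ≤ w ^ 2 := Nat.pow_le_pow_left hsw 2
      exact_mod_cast this
    have h4 : (w : ℝ) ^ 97 ≤ P.card := by exact_mod_cast hPc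
    have h5 : (w : ℝ) ^ 2 * (1 / (P.card : ℝ)) ≤ 1 / 64 := by
      rw [mul_one_div, div_le_iff₀ hP0]
      calc (w : ℝ) ^ 2 ≤ 1 / 64 * (w : ℝ) ^ 3 := by
            have : (w : ℝ) ^ 3 = w ^ 2 * w := by ring
            rw [this]
            nlinarith [pow_pos hw0 2]
        _ ≤ 1 / 64 * (w : ℝ) ^ 97 := by
            apply mul_le_mul_of_nonneg_left _ (by norm_num)
            exact pow_le_pow_right₀ hw1 (by norm_num)
        _ ≤ 1 / 64 * P.card := by linarith
    calc _ ≤ _ := h1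
      _ ≤ _ := h2
      _ = (Pairs.card : ℝ) * (1 / (P.card : ℝ)) * T := by
          rw [nsmul_eq_mul]
          ring
      _ ≤ (w : ℝ) ^ 2 * (1 / (P.card : ℝ)) * T := by
          apply mul_le_mul_of_nonneg_right _ hTpos.le
          exact mul_le_mul_of_nonneg_right h3 (by positivity)
      _ ≤ 1 / 64 * T := mul_le_mul_of_nonneg_right h5 hTpos.le
  have hb2 : ((Certs.biUnion (fun c => U.filter
        (fun p => ∀ j ∈ c.2.2.1, PoolAux.CC w z c.1.1 c.1.2 c.2.1 (c.2.2.2.1 j) j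
          (c.2.2.2.2 j) p))).card : ℝ) ≤ 1 / 64 * T := by
    have h1 : ((Certs.biUnion (fun c => U.filter
        (fun p => ∀ j ∈ c.2.2.1, PoolAux.CC w z c.1.1 c.1.2 c.2.1 (c.2.2.2.1 j) j
          (c.2.2.2.2 j) p))).card : ℝ) ≤
        ∑ c ∈ Certs, ((U.filter
        (fun p => ∀ j ∈ c.2.2.1, PoolAux.CC w z c.1.1 c.1.2 c.2.1 (c.2.2.2.1 j) j
          (c.2.2.2.2 j) p)).card : ℝ) := by
      exact_mod_cast card_biUnion_le
    have h2 : ∑ c ∈ Certs, ((U.filter
        (fun p => ∀ j ∈ c.2.2.1, PoolAux.CC w z c.1.1 c.1.2 c.2.1 (c.2.2.2.1 j) j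
          (c.2.2.2.2 j) p)).card : ℝ) ≤ Certs.card • (1 / X ^ (10 * M) * T) := by
      refine sum_le_card_nsmul _ _ _ fun c hc => ?_
      rw [hCerts, mem_filter] at hc
      have hc2 := hc.2
      rw [hVal] at hc2
      refine (PoolAux.count_cert hs hw64 hsw' hz1 hz2 hP hPc c.1.1 c.1.2 c.2.1 c.2.2.1 c.2.2.2.1
        c.2.2.2.2 hc2.2).trans ?_
      apply mul_le_mul_of_nonneg_right _ hTpos.le
      rw [one_div_pow]
      apply one_div_le_one_div_of_le (by positivity)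
      have : ((w : ℝ) ^ (20 * s)) ^ c.2.2.1.card = X ^ (20 * c.2.2.1.card) := by
        rw [hX, ← pow_mul, ← pow_mul]
        congr 1
        ring
      rw [this]
      exact pow_le_pow_right₀ hX1 (by omega)
    have hXN : (N : ℝ) = X ^ M := by
      rw [hN, hX]
      push_cast
      rw [← pow_mul]
      congr 1
      ring
    have hXw : X = 2 ^ (16 * M * s) := by
      rw [hX, hw]
      push_cast
      rw [← pow_mul]
    have h3 : (Certs.card : ℝ) ≤ X ^ (6 * M + 9) := by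
      have h31 : Certs.card ≤ (N * N) * (2 ^ (M * (64 * s)) * (2 ^ M *
          ((2 ^ (M * (64 * s))) ^ M * (2 ^ (64 * s)) ^ M))) := by
        calc Certs.card ≤ _ := card_filter_le _ _
          _ = _ := by
            rw [card_product, card_product, Nat.card_Icc, card_range, card_univ,
              PoolAux.card_univ_cert, Nat.add_sub_cancel]
      have h32 : (Certs.card : ℝ) ≤ (X ^ M * X ^ M) * (X ^ 4 * (2 ^ M * ((X ^ 4) ^ M * X ^ 4))) := by
        have : ((2 : ℝ) ^ (M * (64 * s))) = X ^ 4 := by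
          rw [hXw, ← pow_mul]
          congr 1
          ring
        have h' : (((2 : ℝ) ^ (64 * s)) ^ M) = X ^ 4 := by
          rw [hXw, ← pow_mul, ← pow_mul]
          congr 1
          ring
        have h31' : (Certs.card : ℝ) ≤ ((N : ℝ) * N) * (2 ^ (M * (64 * s)) * (2 ^ M *
          ((2 ^ (M * (64 * s))) ^ M * (2 ^ (64 * s)) ^ M))) := by exact_mod_cast h31
        rw [hXN, h', this] at h31'
        exact h31'
      have h33 : (2 : ℝ) ^ M ≤ X := by
        rw [hXw]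
        apply pow_le_pow_right₀ (by norm_num)
        nlinarith
      calc (Certs.card : ℝ) ≤ _ := h32
        _ ≤ (X ^ M * X ^ M) * (X ^ 4 * (X * ((X ^ 4) ^ M * X ^ 4))) := by gcongr
        _ = X ^ (6 * M + 9) := PoolAux.cert_pow X M
    have h4 : X ^ (6 * M + 9) * (1 / X ^ (10 * M)) ≤ 1 / 64 := by
      rw [mul_one_div, div_le_iff₀ (by positivity)]
      calc X ^ (6 * M + 9) ≤ 1 / 64 * (X * X ^ (6 * M + 9)) := by
            have : 0 < X ^ (6 * M + 9) := by positivity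
            nlinarith
        _ = 1 / 64 * X ^ (6 * M + 10) := by rw [← pow_succ']
        _ ≤ 1 / 64 * X ^ (10 * M) := by
            apply mul_le_mul_of_nonneg_left _ (by norm_num)
            exact pow_le_pow_right₀ hX1 (by omega)
    calc _ ≤ _ := h1
      _ ≤ _ := h2
      _ = (Certs.card : ℝ) * (1 / X ^ (10 * M)) * T := by
          rw [nsmul_eq_mul]
          ring
      _ ≤ X ^ (6 * M + 9) * (1 / X ^ (10 * M)) * T := by
          apply mul_le_mul_of_nonneg_right _ hTpos.le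
          exact mul_le_mul_of_nonneg_right h3 (by positivity)
      _ ≤ 1 / 64 * T := mul_le_mul_of_nonneg_right h4 hTpos.le
  have hfin : T ≤ 1 / 64 * T + 1 / 64 * T := by
    have h1 := (card_le_card hcover).trans (card_union_le _ _)
    have h2 : (U.card : ℝ) ≤
        ((Pairs.biUnion (fun xy => U.filter (fun p => p xy.1 = p xy.2))).card : ℝ) +
        ((Certs.biUnion (fun c => U.filter
        (fun p => ∀ j ∈ c.2.2.1, PoolAux.CC w z c.1.1 c.1.2 c.2.1 (c.2.2.2.1 j) j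
          (c.2.2.2.2 j) p))).card : ℝ) := by
      exact_mod_cast h1
    rw [hUcard] at h2
    exact h2.trans (add_le_add hb1 hb2)
  linarith

end Vale.Agent.EgyptF
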