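import Mathlib
import Vale.Agent.EgyptF.Defs
import Vale.Agent.EgyptF.Pool

/-!
# Piece B0. The family `v : Ω → ℕ` good at all scales `s = 2^i` (product of the pools of `scale_pool`).

Induction on the number of scales: `Ω_{I+1} = Ω_I × (Fin M × Fin (64·2^{I+1}) → Bool)`, `v = v_I · vv p`.
`Anti` is inherited by products with a factor whose values are coprime to `D` (fix the other
coordinate `y`: `h v(x) v'(y) = (h v'(y)) v(x)` and `h v'(y)` is coprime to `D`).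
Size: every `v x` is a product of `t ≤ w/2` pool primes, so lies in `[z^t, z^t (1+1/w)^t] ⊆ [z^t, 3 z^t]`
(keep the exact statement `v x * w^t ≤ Z * (w+1)^t` in the induction); `Z = z^t`.
`l` = list of all pool primes (length `2·∑ 64 M 2^i ≤ 256 M 2^I ≤ w`), each `≤ 2 w^100`.
`PP` = set of all pool primes.
-/

open Finset

namespace Vale.Agent.EgyptF

/-- anti-concentration of `h v_x / D` mod 1 at scale `δ`: probability at most `κ` -/
def Anti {Ω : Type} [Fintype Ω] (v : Ω → ℕ) (D : ℕ) (κ δ : ℝ) : Prop :=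
  ∀ h : ℕ, Nat.Coprime h D → ∀ β : ℝ,
    ((univ.filter (fun x : Ω => nd ((h : ℝ) * v x / D - β) ≤ δ)).card : ℝ) ≤ κ * Fintype.card Ω

lemma anti_prod_left {Ω Ω' : Type} [Fintype Ω] [Fintype Ω'] (v : Ω → ℕ) (v' : Ω' → ℕ) (D : ℕ)
    (κ δ : ℝ) (hv : Anti v D κ δ) (hv' : ∀ y, Nat.Coprime (v' y) D) :
    Anti (fun x : Ω × Ω' => v x.1 * v' x.2) D κ δ := by
  classical
  intro h hh β
  have h1 : ∀ x ∈ univ.filter (fun x : Ω × Ω' => nd ((h : ℝ) * ((v x.1 * v' x.2 : ℕ) : ℝ) / D - β) ≤ δ),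
      x.2 ∈ (univ : Finset Ω') := fun _ _ => mem_univ _
  rw [card_eq_sum_card_fiberwise h1]
  push_cast
  calc ∑ y : Ω', (((univ.filter (fun x : Ω × Ω' => nd ((h : ℝ) * ((v x.1 : ℝ) * (v' x.2 : ℝ)) / D - β) ≤ δ)).filter
        (fun x => x.2 = y)).card : ℝ)
      ≤ ∑ y : Ω', κ * Fintype.card Ω := by
        refine sum_le_sum fun y _ => ?_
        have h2 := hv (h * v' y) (hh.mul_left (hv' y)) β
        refine le_trans ?_ h2
        have h3 : ((univ.filter (fun x : Ω × Ω' => nd ((h : ℝ) * ((v x.1 : ℝ) * (v' x.2 : ℝ)) / D - β) ≤ δ)).filter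
            (fun x => x.2 = y)).card ≤
            (univ.filter (fun x : Ω => nd (((h * v' y : ℕ) : ℝ) * v x / D - β) ≤ δ)).card := by
          refine card_le_card_of_injOn Prod.fst ?_ ?_
          · intro x hx
            simp only [coe_filter, mem_filter, mem_univ, true_and, Set.mem_ofPred_eq] at hx ⊢
            obtain ⟨hx1, rfl⟩ := hx
            push_cast
            rw [show (h : ℝ) * (v' x.2 : ℝ) * (v x.1 : ℝ) = (h : ℝ) * ((v x.1 : ℝ) * (v' x.2 : ℝ)) by ring]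
            exact hx1
          · intro x hx x' hx' hxx
            simp only [coe_filter, mem_filter, mem_univ, true_and, Set.mem_ofPred_eq] at hx hx'
            exact Prod.ext hxx (hx.2.trans hx'.2.symm)
        exact_mod_cast h3
    _ = κ * Fintype.card (Ω × Ω') := by
        rw [sum_const, card_univ, Fintype.card_prod, nsmul_eq_mul]
        push_cast
        ring

lemma anti_equiv {Ω Ω' : Type} [Fintype Ω] [Fintype Ω'] (e : Ω' ≃ Ω) (v : Ω → ℕ) (v' : Ω' → ℕ)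
    (hvv : ∀ x, v' x = v (e x)) (D : ℕ)
    (κ δ : ℝ) (hv : Anti v D κ δ) : Anti v' D κ δ := by
  classical
  intro h hh β
  have h1 := hv h hh β
  rw [Fintype.card_congr e]
  refine le_trans (le_of_eq ?_) h1
  norm_cast
  refine card_bij (fun x _ => e x) ?_ ?_ ?_
  · intro x hx
    rw [mem_filter] at hx ⊢
    rw [← hvv]
    exact ⟨mem_univ _, hx.2⟩
  · intro x _ y _ hxy
    exact e.injective hxy
  · intro y hy
    refine ⟨e.symm y, ?_, e.apply_symm_apply y⟩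
    rw [mem_filter] at hy ⊢
    rw [hvv, e.apply_symm_apply]
    exact ⟨mem_univ _, hy.2⟩

lemma anti_prod_right {Ω Ω' : Type} [Fintype Ω] [Fintype Ω'] (v : Ω → ℕ) (v' : Ω' → ℕ) (D : ℕ)
    (κ δ : ℝ) (hv : ∀ x, Nat.Coprime (v x) D) (hv' : Anti v' D κ δ) :
    Anti (fun x : Ω × Ω' => v x.1 * v' x.2) D κ δ := by
  refine anti_equiv (Equiv.prodComm Ω Ω') (fun y : Ω' × Ω => v' y.1 * v y.2) _ ?_ D κ δ
    (anti_prod_left v' v D κ δ hv' hv)
  intro x
  exact mul_comm _ _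

/-- one scale -/
lemma one_scale (M s w z : ℕ) (P : Finset ℕ) (hM : 100 ≤ M) (hs : 1 ≤ s) (hw : w = 2 ^ (16 * M))
    (hsw : 128 * M * s ≤ w) (hz1 : w ^ 99 ≤ z) (hz2 : z ≤ w ^ 100)
    (hP : ∀ p ∈ P, p.Prime ∧ z ≤ p ∧ p * w ≤ z * (w + 1)) (hPc : w ^ 97 ≤ P.card) :
    ∃ (v : (Fin M × Fin (64 * s) → Bool) → ℕ) (l : List ℕ),
      (∀ x, z ^ (64 * M * s) ≤ v x ∧ v x * w ^ (64 * M * s) ≤ z ^ (64 * M * s) * (w + 1) ^ (64 * M * s)) ∧
      (∀ x, v x ∣ l.prod) ∧ (∀ y ∈ l, y ∈ P) ∧ l.length = 128 * M * s ∧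
      ∀ D : ℕ, (∀ p ∈ l, Nat.Coprime p D) → w ^ (25 * s) < D → D ≤ w ^ (M * s) →
        Anti v D (1 / (w : ℝ) ^ s) (1 / (w : ℝ) ^ (80 * s)) := by
  obtain ⟨p, hp, hD⟩ := scale_pool M s w z P hM hs hw hsw hz1 hz2 hP hPc
  have hcard : Fintype.card (Fin M × Fin (64 * s)) = 64 * M * s := by
    rw [Fintype.card_prod, Fintype.card_fin, Fintype.card_fin]
    ring
  have hw0 : 0 < w := by rw [hw]; positivity
  have hwr : (0 : ℝ) < w := by exact_mod_cast hw0
  refine ⟨vv p, (univ : Finset ((Fin M × Fin (64 * s)) × Bool)).toList.map p, ?_, ?_, ?_, ?_, ?_⟩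
  · intro x
    rw [← hcard]
    constructor
    · unfold vv
      calc z ^ Fintype.card (Fin M × Fin (64 * s)) = ∏ _i : Fin M × Fin (64 * s), z := by
            rw [prod_const, card_univ]
        _ ≤ ∏ i : Fin M × Fin (64 * s), p (i, x i) := prod_le_prod' fun i _ => (hP _ (hp _)).2.1
    · unfold vv
      calc (∏ i : Fin M × Fin (64 * s), p (i, x i)) * w ^ Fintype.card (Fin M × Fin (64 * s))
          = ∏ i : Fin M × Fin (64 * s), (p (i, x i) * w) := by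
            rw [prod_mul_distrib, prod_const, card_univ]
        _ ≤ ∏ _i : Fin M × Fin (64 * s), (z * (w + 1)) := prod_le_prod' fun i _ => (hP _ (hp _)).2.2
        _ = _ := by rw [prod_const, card_univ, mul_pow]
  · intro x
    rw [prod_map_toList]
    rw [Fintype.prod_prod_type]
    unfold vv
    refine prod_dvd_prod_of_dvd _ _ fun i _ => ?_
    exact dvd_prod_of_mem (fun b => p (i, b)) (mem_univ (x i))
  · intro y hy
    rw [List.mem_map] at hy
    obtain ⟨i, _, rfl⟩ := hy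
    exact hp i
  · rw [List.length_map, length_toList, card_univ, Fintype.card_prod, hcard, Fintype.card_bool]
    ring
  · intro D hcop h1 h2 h hh β
    have h3 := hD D h1 h2 (fun i => hcop (p i) (List.mem_map.2 ⟨i, by simp, rfl⟩)) h hh β
    refine h3.trans (le_of_eq ?_)
    rw [Fintype.card_fun, hcard, Fintype.card_bool]
    have h4 : ((2 ^ (64 * M * s) : ℕ) : ℝ) = (w : ℝ) ^ (4 * s) := by
      rw [hw]
      push_cast
      rw [← pow_mul]
      congr 1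
      ring
    rw [h4]
    have h5 : (w : ℝ) ^ (4 * s) = (w : ℝ) ^ s * (w : ℝ) ^ (3 * s) := by
      rw [← pow_add]
      congr 1
      ring
    rw [h5]
    have h6 : (w : ℝ) ^ s ≠ 0 := by positivity
    field_simp

lemma coprime_of_dvd_prod {l : List ℕ} {a n : ℕ} (h : a ∣ l.prod) (hl : ∀ p ∈ l, Nat.Coprime p n) :
    Nat.Coprime a n :=
  Nat.Coprime.coprime_dvd_left h (Nat.coprime_list_prod_left_iff.2 hl)

lemma family_aux (M w z : ℕ) (P : Finset ℕ) (hM : 100 ≤ M) (hw : w = 2 ^ (16 * M))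
    (hz1 : w ^ 99 ≤ z) (hz2 : z ≤ w ^ 100)
    (hP : ∀ p ∈ P, p.Prime ∧ z ≤ p ∧ p * w ≤ z * (w + 1)) (hPc : w ^ 97 ≤ P.card) (I : ℕ) :
    256 * M * 2 ^ I ≤ w →
    ∃ (Ω : Type) (_ : Fintype Ω) (_ : Nonempty Ω) (v : Ω → ℕ) (t : ℕ) (l : List ℕ),
      t + 64 * M ≤ 128 * M * 2 ^ I ∧
      (∀ x, z ^ t ≤ v x ∧ v x * w ^ t ≤ z ^ t * (w + 1) ^ t) ∧ (∀ x, v x ∣ l.prod) ∧
      (∀ y ∈ l, y ∈ P) ∧ l.length + 128 * M ≤ 256 * M * 2 ^ I ∧
      ∀ D : ℕ, (∀ p ∈ l, Nat.Coprime p D) → ∀ i, i ≤ I → w ^ (25 * 2 ^ i) < D →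
        D ≤ w ^ (M * 2 ^ i) → Anti v D (1 / (w : ℝ) ^ (2 ^ i)) (1 / (w : ℝ) ^ (80 * 2 ^ i)) := by
  induction I with
  | zero =>
    intro hI
    obtain ⟨v, l, h1, h2, h3, h4, h5⟩ := one_scale M 1 w z P hM le_rfl hw (by omega) hz1 hz2 hP hPc
    refine ⟨_, inferInstance, ⟨fun _ => true⟩, v, 64 * M * 1, l, ?_, h1, h2, h3, ?_, ?_⟩
    · omega
    · omega
    · intro D hD i hi
      obtain rfl : i = 0 := by omega
      rw [pow_zero]
      exact h5 D hD
  | succ I ih =>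
    intro hI
    have hI2 : 256 * M * 2 ^ (I + 1) = 2 * (256 * M * 2 ^ I) := by ring
    have hI3 : 128 * M * 2 ^ (I + 1) = 256 * M * 2 ^ I := by ring
    have hI4 : 64 * M * 2 ^ (I + 1) = 128 * M * 2 ^ I := by ring
    obtain ⟨Ω, i1, i2, v, t, l, h1, h2, h3, h4, h5, h6⟩ := ih (by omega)
    obtain ⟨v', l', g1, g2, g3, g4, g5⟩ := one_scale M (2 ^ (I + 1)) w z P hM Nat.one_le_two_pow hw
      (by omega) hz1 hz2 hP hPc
    refine ⟨Ω × (Fin M × Fin (64 * 2 ^ (I + 1)) → Bool), inferInstance, ⟨(i2.some, fun _ => true)⟩,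
      fun x => v x.1 * v' x.2, t + 64 * M * 2 ^ (I + 1), l ++ l', ?_, ?_, ?_, ?_, ?_, ?_⟩
    · rw [hI3, hI4]
      linarith
    · intro x
      constructor
      · rw [pow_add]
        exact Nat.mul_le_mul (h2 x.1).1 (g1 x.2).1
      · have key := Nat.mul_le_mul (h2 x.1).2 (g1 x.2).2
        beta_reduce
        generalize v x.1 = a at key ⊢
        generalize v' x.2 = b at key ⊢
        generalize 64 * M * 2 ^ (I + 1) = e at key ⊢
        calc a * b * w ^ (t + e) = (a * w ^ t) * (b * w ^ e) := by rw [pow_add]; ring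
          _ ≤ (z ^ t * (w + 1) ^ t) * (z ^ e * (w + 1) ^ e) := key
          _ = z ^ (t + e) * (w + 1) ^ (t + e) := by rw [pow_add, pow_add]; ring
    · intro x
      rw [List.prod_append]
      exact mul_dvd_mul (h3 x.1) (g2 x.2)
    · intro y hy
      rw [List.mem_append] at hy
      exact hy.elim (h4 y) (g3 y)
    · rw [List.length_append, g4, hI3, hI2]
      linarith
    · intro D hD i hi hD1 hD2
      have hDl : ∀ p ∈ l, Nat.Coprime p D := fun p hp => hD p (List.mem_append.2 (Or.inl hp))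
      have hDl' : ∀ p ∈ l', Nat.Coprime p D := fun p hp => hD p (List.mem_append.2 (Or.inr hp))
      rcases Nat.lt_or_ge I i with h | h
      · obtain rfl : i = I + 1 := by omega
        exact anti_prod_right v v' D _ _ (fun x => coprime_of_dvd_prod (h3 x) hDl) (g5 D hDl' hD1 hD2)
      · exact anti_prod_left v v' D _ _ (h6 D hDl i h hD1 hD2) (fun x => coprime_of_dvd_prod (g2 x) hDl')

theorem family (M w z I : ℕ) (P : Finset ℕ) (hM : 100 ≤ M) (hw : w = 2 ^ (16 * M))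
    (hI : 256 * M * 2 ^ I ≤ w) (hz1 : w ^ 99 ≤ z) (hz2 : z ≤ w ^ 100)
    (hP : ∀ p ∈ P, p.Prime ∧ z ≤ p ∧ p * w ≤ z * (w + 1)) (hPc : w ^ 97 ≤ P.card) :
    ∃ (Ω : Type) (_ : Fintype Ω) (_ : Nonempty Ω) (v : Ω → ℕ) (Z : ℕ) (PP : Finset ℕ) (l : List ℕ),
      1 ≤ Z ∧ (∀ x, Z ≤ v x ∧ v x ≤ 3 * Z) ∧ (∀ x, v x ∣ l.prod) ∧
      (∀ y ∈ l, 1 ≤ y ∧ y ≤ 2 * w ^ 100) ∧ l.length ≤ w ∧
      (∀ p ∈ PP, p.Prime ∧ w < p) ∧ PP.card ≤ w ∧
      (∀ n : ℕ, (∀ p ∈ PP, Nat.Coprime p n) → ∀ x, Nat.Coprime (v x) n) ∧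
      ∀ D : ℕ, (∀ p ∈ PP, Nat.Coprime p D) → ∀ i, i ≤ I → w ^ (25 * 2 ^ i) < D →
        D ≤ w ^ (M * 2 ^ i) → Anti v D (1 / (w : ℝ) ^ (2 ^ i)) (1 / (w : ℝ) ^ (80 * 2 ^ i)) := by
  obtain ⟨Ω, i1, i2, v, t, l, h1, h2, h3, h4, h5, h6⟩ :=
    family_aux M w z P hM hw hz1 hz2 hP hPc I hI
  have hw2 : 2 ≤ w := by
    rw [hw]
    calc 2 = 2 ^ 1 := by norm_num
      _ ≤ 2 ^ (16 * M) := Nat.pow_le_pow_right (by norm_num) (by omega)
  have hw0 : 0 < w := by omega
  have hz0 : 0 < z := lt_of_lt_of_le (pow_pos hw0 _) hz1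
  have htw : t ≤ w := by
    have : 128 * M * 2 ^ I ≤ 256 * M * 2 ^ I := by
      apply Nat.mul_le_mul_right
      omega
    omega
  have h3' : (w + 1) ^ t ≤ 3 * w ^ t := by
    have hwr : (0 : ℝ) < w := by exact_mod_cast hw0
    have e1 : ((w : ℝ) + 1) ^ t ≤ 3 * (w : ℝ) ^ t := by
      have e2 : ((w : ℝ) + 1) = w * (1 + 1 / w) := by field_simp
      rw [e2, mul_pow, mul_comm]
      apply mul_le_mul_of_nonneg_right _ (by positivity)
      calc (1 + 1 / (w : ℝ)) ^ t ≤ (Real.exp (1 / w)) ^ t := by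
            apply pow_le_pow_left₀ (by positivity)
            rw [add_comm]
            exact Real.add_one_le_exp _
        _ = Real.exp (t * (1 / w)) := by rw [← Real.exp_nat_mul]
        _ ≤ Real.exp 1 := by
            apply Real.exp_le_exp.2
            rw [mul_one_div, div_le_one hwr]
            exact_mod_cast htw
        _ ≤ 3 := by
            have := Real.exp_one_lt_d9
            linarith
    exact_mod_cast e1
  refine ⟨Ω, i1, i2, v, z ^ t, l.toFinset, l, Nat.one_le_pow _ _ hz0, ?_, h3, ?_, ?_, ?_, ?_, ?_, ?_⟩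
  · intro x
    refine ⟨(h2 x).1, ?_⟩
    have hwt : 0 < w ^ t := pow_pos hw0 _
    refine Nat.le_of_mul_le_mul_right ?_ hwt
    calc v x * w ^ t ≤ z ^ t * (w + 1) ^ t := (h2 x).2
      _ ≤ z ^ t * (3 * w ^ t) := Nat.mul_le_mul_left _ h3'
      _ = 3 * z ^ t * w ^ t := by ring
  · intro y hy
    have hy' := hP y (h4 y hy)
    refine ⟨hy'.1.one_lt.le, ?_⟩
    refine Nat.le_of_mul_le_mul_right ?_ hw0
    calc y * w ≤ z * (w + 1) := hy'.2.2
      _ ≤ w ^ 100 * (w + w) := Nat.mul_le_mul hz2 (by omega)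
      _ = 2 * w ^ 100 * w := by ring
  · omega
  · intro p hp
    rw [List.mem_toFinset] at hp
    have hy' := hP p (h4 p hp)
    refine ⟨hy'.1, ?_⟩
    calc w = w ^ 1 := (pow_one w).symm
      _ < w ^ 99 := Nat.pow_lt_pow_right (by omega) (by norm_num)
      _ ≤ z := hz1
      _ ≤ p := hy'.2.1
  · exact (List.toFinset_card_le l).trans (by omega)
  · intro n hn x
    exact coprime_of_dvd_prod (h3 x) fun p hp => hn p (List.mem_toFinset.2 hp)
  · intro D hD i hi hD1 hD2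
    exact h6 D (fun p hp => hD p (List.mem_toFinset.2 hp)) i hi hD1 hD2

end Vale.Agent.EgyptF
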