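import Mathlib
import Vale.Agent.EgyptF.Defs
import Vale.Agent.EgyptF.Family

open Finset
open scoped InnerProductSpace

namespace Vale.Agent.EgyptF

/-- normalised exponential sum over `{u b * v x}` -/
noncomputable def phi {Ω : Type} [Fintype Ω] (v : Ω → ℕ) (u : Bool → ℕ) (ξ : ℝ) : ℝ :=
  ‖∑ b : Bool, ∑ x : Ω, e (ξ * ((u b * v x : ℕ) : ℝ))‖ / (2 * Fintype.card Ω)

/-- the multiplier interval -/
def mS (Y : ℕ) : Finset ℕ := Ico Y (2 * Y)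

lemma mS_card (Y : ℕ) : (mS Y).card = Y := by
  unfold mS
  rw [Nat.card_Ico]
  omega

/-- exponential sum over `v` -/
noncomputable def mA {Ω : Type} [Fintype Ω] (v : Ω → ℕ) (ξ : ℝ) (u : ℕ) : ℂ :=
  ∑ x : Ω, e (ξ * ((u * v x : ℕ) : ℝ))

lemma phi_eq {Ω : Type} [Fintype Ω] (v : Ω → ℕ) (g : Bool → ℕ) (ξ : ℝ) :
    phi v g ξ = ‖mA v ξ (g true) + mA v ξ (g false)‖ / (2 * Fintype.card Ω) := by
  unfold phi mA
  rw [Fintype.sum_bool]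

lemma m_geom (x : ℝ) (Y : ℕ) : ‖∑ u ∈ mS Y, e (u * x)‖ * (2 * nd x) ≤ 1 := by
  have h1 : ∑ u ∈ mS Y, e (u * x) = e (Y * x) * ∑ l ∈ range Y, e (l * x) := by
    unfold mS
    rw [Finset.sum_Ico_eq_sum_range, Finset.mul_sum]
    have h2 : 2 * Y - Y = Y := by omega
    rw [h2]
    refine Finset.sum_congr rfl fun l _ => ?_
    rw [← e_add]
    congr 1
    push_cast
    ring
  rw [h1, norm_mul, norm_e, one_mul]
  exact geom_bound x Y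

lemma m_triv (x : ℝ) (Y : ℕ) : ‖∑ u ∈ mS Y, e (u * x)‖ ≤ Y := by
  calc ‖∑ u ∈ mS Y, e (u * x)‖ ≤ ∑ u ∈ mS Y, ‖e (u * x)‖ := norm_sum_le _ _
    _ = ∑ u ∈ mS Y, (1 : ℝ) := Finset.sum_congr rfl fun u _ => norm_e _
    _ = Y := by rw [Finset.sum_const, mS_card, nsmul_eq_mul, mul_one]

lemma m_inner_e (s t : ℝ) : ⟪e s, e t⟫_ℝ = (e (t - s)).re := by
  rw [Complex.inner, ← e_neg, ← e_add]
  congr 2

lemma mA_norm_le {Ω : Type} [Fintype Ω] (v : Ω → ℕ) (ξ : ℝ) (u : ℕ) :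
    ‖mA v ξ u‖ ≤ Fintype.card Ω := by
  unfold mA
  calc ‖∑ x : Ω, e (ξ * ((u * v x : ℕ) : ℝ))‖ ≤ ∑ x : Ω, ‖e (ξ * ((u * v x : ℕ) : ℝ))‖ :=
        norm_sum_le _ _
    _ = ∑ x : Ω, (1 : ℝ) := Finset.sum_congr rfl fun u _ => norm_e _
    _ = Fintype.card Ω := by simp

/-- second moment -/
lemma mA_second {Ω : Type} [Fintype Ω] (v : Ω → ℕ) (ξ : ℝ) (Y : ℕ) (κ δ : ℝ) (hδ : 0 < δ)
    (hanti : ∀ β : ℝ, ((univ.filter (fun x : Ω => nd (ξ * v x - β) ≤ δ)).card : ℝ)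
      ≤ κ * Fintype.card Ω) :
    ∑ u ∈ mS Y, ‖mA v ξ u‖ ^ 2 ≤ (Fintype.card Ω : ℝ) ^ 2 * (κ * Y + 1 / (2 * δ)) := by
  have h1 : ∀ u, ‖mA v ξ u‖ ^ 2
      = ∑ x : Ω, ∑ x' : Ω, (e ((u : ℝ) * (ξ * v x' - ξ * v x))).re := by
    intro u
    rw [← real_inner_self_eq_norm_sq]
    unfold mA
    rw [sum_inner]
    refine Finset.sum_congr rfl fun x _ => ?_
    rw [inner_sum]
    refine Finset.sum_congr rfl fun x' _ => ?_
    rw [m_inner_e]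
    congr 2
    push_cast
    ring
  have h2 : ∑ u ∈ mS Y, ‖mA v ξ u‖ ^ 2
      = ∑ x : Ω, ∑ x' : Ω, (∑ u ∈ mS Y, e ((u : ℝ) * (ξ * v x' - ξ * v x))).re := by
    simp_rw [h1]
    rw [Finset.sum_comm]
    refine Finset.sum_congr rfl fun x _ => ?_
    rw [Finset.sum_comm]
    refine Finset.sum_congr rfl fun x' _ => ?_
    rw [Complex.re_sum]
  rw [h2]
  have h3 : ∀ x x' : Ω, (∑ u ∈ mS Y, e ((u : ℝ) * (ξ * v x' - ξ * v x))).re
      ≤ (if nd (ξ * v x' - ξ * v x) ≤ δ then (Y : ℝ) else 0) + 1 / (2 * δ) := by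
    intro x x'
    refine (Complex.re_le_norm _).trans ?_
    by_cases h : nd (ξ * v x' - ξ * v x) ≤ δ
    · rw [if_pos h]
      have h4 := m_triv (ξ * v x' - ξ * v x) Y
      have : 0 ≤ 1 / (2 * δ) := by positivity
      linarith
    · rw [if_neg h, zero_add]
      push Not at h
      have h4 := m_geom (ξ * v x' - ξ * v x) Y
      rw [le_div_iff₀ (by positivity)]
      refine le_trans ?_ h4
      refine mul_le_mul_of_nonneg_left ?_ (norm_nonneg _)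
      linarith
  calc ∑ x : Ω, ∑ x' : Ω, (∑ u ∈ mS Y, e ((u : ℝ) * (ξ * v x' - ξ * v x))).re
      ≤ ∑ x : Ω, ∑ x' : Ω, ((if nd (ξ * v x' - ξ * v x) ≤ δ then (Y : ℝ) else 0)
          + 1 / (2 * δ)) :=
        Finset.sum_le_sum fun x _ => Finset.sum_le_sum fun x' _ => h3 x x'
    _ ≤ ∑ x : Ω, (κ * Fintype.card Ω * Y + Fintype.card Ω * (1 / (2 * δ))) := by
        refine Finset.sum_le_sum fun x _ => ?_
        rw [Finset.sum_add_distrib, Finset.sum_const, Finset.card_univ, nsmul_eq_mul]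
        refine add_le_add ?_ le_rfl
        rw [← Finset.sum_filter, Finset.sum_const, nsmul_eq_mul]
        exact mul_le_mul_of_nonneg_right (hanti (ξ * v x)) (Nat.cast_nonneg _)
    _ = (Fintype.card Ω : ℝ) ^ 2 * (κ * Y + 1 / (2 * δ)) := by
        rw [Finset.sum_const, Finset.card_univ, nsmul_eq_mul]
        ring

/-- sum over pairs -/
lemma m_pairs {Ω : Type} [Fintype Ω] (v : Ω → ℕ) (ξ : ℝ) (Y : ℕ) :
    ∑ a ∈ mS Y, ∑ b ∈ mS Y, ‖mA v ξ a + mA v ξ b‖ ^ 2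
      = 2 * Y * (∑ u ∈ mS Y, ‖mA v ξ u‖ ^ 2) + 2 * ‖∑ u ∈ mS Y, mA v ξ u‖ ^ 2 := by
  simp_rw [norm_add_sq_real, Finset.sum_add_distrib, Finset.sum_const, mS_card, nsmul_eq_mul]
  simp_rw [← Finset.mul_sum]
  have h : ∑ a ∈ mS Y, ∑ b ∈ mS Y, ⟪mA v ξ a, mA v ξ b⟫_ℝ = ‖∑ u ∈ mS Y, mA v ξ u‖ ^ 2 := by
    rw [← real_inner_self_eq_norm_sq, sum_inner]
    refine Finset.sum_congr rfl fun a _ => ?_
    rw [inner_sum]
  rw [h]
  ring

lemma m_pi_sum (Y : ℕ) (F : ℕ → ℕ → ℝ) :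
    ∑ g ∈ Fintype.piFinset (fun _ : Bool => mS Y), F (g true) (g false)
      = ∑ a ∈ mS Y, ∑ b ∈ mS Y, F a b := by
  rw [← Finset.sum_product']
  refine Finset.sum_nbij' (fun g => (g true, g false)) (fun p b => if b then p.1 else p.2)
    ?_ ?_ ?_ ?_ ?_
  · intro g hg
    rw [Fintype.mem_piFinset] at hg
    exact Finset.mem_product.2 ⟨hg true, hg false⟩
  · intro p hp
    rw [Finset.mem_product] at hp
    rw [Fintype.mem_piFinset]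
    intro b
    cases b
    · simpa using hp.2
    · simpa using hp.1
  · intro g _
    funext b
    cases b <;> simp
  · intro p _
    simp
  · intro g _
    rfl

/-- from the second moment of `phi` to its mean -/
lemma m_mean {Ω : Type} [Fintype Ω] [Nonempty Ω] (v : Ω → ℕ) (ξ : ℝ) (Y : ℕ) (θ : ℝ)
    (hθ : 0 ≤ θ)
    (h : 2 * Y * (∑ u ∈ mS Y, ‖mA v ξ u‖ ^ 2) + 2 * ‖∑ u ∈ mS Y, mA v ξ u‖ ^ 2
      ≤ 4 * (Fintype.card Ω : ℝ) ^ 2 * ((Y : ℝ) ^ 2 * θ)) :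
    ∑ g ∈ Fintype.piFinset (fun _ : Bool => mS Y), phi v g ξ ≤ (Y : ℝ) ^ 2 * Real.sqrt θ := by
  have hc : (0 : ℝ) < Fintype.card Ω := by exact_mod_cast Fintype.card_pos
  have h1 : ∑ g ∈ Fintype.piFinset (fun _ : Bool => mS Y), phi v g ξ ^ 2
      ≤ (Y : ℝ) ^ 2 * θ := by
    have h2 : ∀ g : Bool → ℕ, phi v g ξ ^ 2 = ‖mA v ξ (g true) + mA v ξ (g false)‖ ^ 2 /
        (4 * (Fintype.card Ω : ℝ) ^ 2) := by
      intro g
      rw [phi_eq, div_pow]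
      congr 1
      ring
    simp_rw [h2]
    rw [← Finset.sum_div, m_pi_sum Y (fun a b => ‖mA v ξ a + mA v ξ b‖ ^ 2), m_pairs,
      div_le_iff₀ (by positivity)]
    linarith
  have hcard : ((Fintype.piFinset (fun _ : Bool => mS Y)).card : ℝ) = (Y : ℝ) ^ 2 := by
    rw [Fintype.card_piFinset, Fintype.prod_bool, mS_card]
    push_cast
    ring
  have h3 := sq_sum_le_card_mul_sum_sq (s := Fintype.piFinset (fun _ : Bool => mS Y))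
    (f := fun g => phi v g ξ)
  rw [hcard] at h3
  have h4 : (∑ g ∈ Fintype.piFinset (fun _ : Bool => mS Y), phi v g ξ) ^ 2
      ≤ ((Y : ℝ) ^ 2 * Real.sqrt θ) ^ 2 := by
    rw [mul_pow, Real.sq_sqrt hθ]
    calc _ ≤ _ := h3
      _ ≤ (Y : ℝ) ^ 2 * ((Y : ℝ) ^ 2 * θ) := mul_le_mul_of_nonneg_left h1 (by positivity)
      _ = _ := by ring
  exact le_of_sq_le_sq h4 (by positivity)

/-- rough bound: small denominators -/
lemma m_small {Ω : Type} [Fintype Ω] [Nonempty Ω] (v : Ω → ℕ) (D h Y : ℕ) (hD : 2 ≤ D)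
    (hh : Nat.Coprime h D) (hv : ∀ x, Nat.Coprime (v x) D) (hY : 10 * D ≤ Y) :
    ∑ g ∈ Fintype.piFinset (fun _ : Bool => mS Y), phi v g ((h : ℝ) / D)
      ≤ (Y : ℝ) ^ 2 * Real.sqrt (51 / 100) := by
  refine m_mean v _ Y (51 / 100) (by norm_num) ?_
  have hD0 : (0 : ℝ) < D := by positivity
  have hc : (0 : ℝ) < Fintype.card Ω := by exact_mod_cast Fintype.card_pos
  have h1 : ∑ u ∈ mS Y, ‖mA v ((h : ℝ) / D) u‖ ^ 2 ≤ Y * (Fintype.card Ω : ℝ) ^ 2 := by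
    calc ∑ u ∈ mS Y, ‖mA v ((h : ℝ) / D) u‖ ^ 2 ≤ ∑ u ∈ mS Y, (Fintype.card Ω : ℝ) ^ 2 :=
          Finset.sum_le_sum fun u _ => pow_le_pow_left₀ (norm_nonneg _) (mA_norm_le v _ u) 2
      _ = Y * (Fintype.card Ω : ℝ) ^ 2 := by rw [Finset.sum_const, mS_card, nsmul_eq_mul]
  have hnd : ∀ x, 1 / (D : ℝ) ≤ nd ((h : ℝ) / D * v x) := by
    intro x
    obtain ⟨k, hk⟩ := exists_int ((h : ℝ) / D * v x)
    rw [hk]
    have h2 : (h : ℝ) / D * v x - k = (((h * v x : ℕ) : ℤ) - k * (D : ℤ) : ℤ) / (D : ℝ) := by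
      push_cast
      field_simp
    rw [h2, abs_div, abs_of_pos hD0]
    refine div_le_div_of_nonneg_right ?_ hD0.le
    rw [← Int.cast_abs]
    have h3 : (((h * v x : ℕ) : ℤ) - k * (D : ℤ)) ≠ 0 := by
      intro h4
      have h5 : (D : ℤ) ∣ ((h * v x : ℕ) : ℤ) := ⟨k, by linarith⟩
      have h6 : D ∣ h * v x := by exact_mod_cast h5
      have h7 : Nat.Coprime (h * v x) D := Nat.Coprime.mul_left hh (hv x)
      have h8 := Nat.Coprime.eq_one_of_dvd h7.symm h6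
      omega
    exact_mod_cast Int.one_le_abs h3
  have h4 : ‖∑ u ∈ mS Y, mA v ((h : ℝ) / D) u‖ ≤ Fintype.card Ω * (D / 2) := by
    have h5 : ∑ u ∈ mS Y, mA v ((h : ℝ) / D) u
        = ∑ x : Ω, ∑ u ∈ mS Y, e ((u : ℝ) * ((h : ℝ) / D * v x)) := by
      unfold mA
      rw [Finset.sum_comm]
      refine Finset.sum_congr rfl fun x _ => Finset.sum_congr rfl fun u _ => ?_
      congr 1
      push_cast
      ring
    rw [h5]
    calc ‖∑ x : Ω, ∑ u ∈ mS Y, e ((u : ℝ) * ((h : ℝ) / D * v x))‖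
        ≤ ∑ x : Ω, ‖∑ u ∈ mS Y, e ((u : ℝ) * ((h : ℝ) / D * v x))‖ := norm_sum_le _ _
      _ ≤ ∑ x : Ω, ((D : ℝ) / 2) := by
          refine Finset.sum_le_sum fun x _ => ?_
          have h6 := m_geom ((h : ℝ) / D * v x) Y
          have h7 := hnd x
          have h8 : ‖∑ u ∈ mS Y, e ((u : ℝ) * ((h : ℝ) / D * v x))‖ * (2 * (1 / D)) ≤ 1 :=
            (mul_le_mul_of_nonneg_left (by linarith) (norm_nonneg _)).trans h6
          have h9 : ‖∑ u ∈ mS Y, e ((u : ℝ) * ((h : ℝ) / D * v x))‖ * (2 * (1 / D))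
            = ‖∑ u ∈ mS Y, e ((u : ℝ) * ((h : ℝ) / D * v x))‖ * 2 / D := by ring
          rw [h9, div_le_one hD0] at h8
          linarith
      _ = Fintype.card Ω * (D / 2) := by
          rw [Finset.sum_const, Finset.card_univ, nsmul_eq_mul]
  have h5 : ‖∑ u ∈ mS Y, mA v ((h : ℝ) / D) u‖ ^ 2 ≤ (Fintype.card Ω * ((D : ℝ) / 2)) ^ 2 :=
    pow_le_pow_left₀ (norm_nonneg _) h4 2
  have hY' : (10 : ℝ) * D ≤ Y := by exact_mod_cast hY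
  have h6 : ((D : ℝ)) ^ 2 ≤ (Y : ℝ) ^ 2 / 100 := by
    have : (10 * (D : ℝ)) ^ 2 ≤ (Y : ℝ) ^ 2 := pow_le_pow_left₀ (by positivity) hY' 2
    nlinarith
  have h7 : 2 * (Y : ℝ) * (∑ u ∈ mS Y, ‖mA v ((h : ℝ) / D) u‖ ^ 2)
      ≤ 2 * Y * (Y * (Fintype.card Ω : ℝ) ^ 2) :=
    mul_le_mul_of_nonneg_left h1 (by positivity)
  have h8 : (Fintype.card Ω : ℝ) ^ 2 * (D : ℝ) ^ 2
      ≤ (Fintype.card Ω : ℝ) ^ 2 * ((Y : ℝ) ^ 2 / 100) :=
    mul_le_mul_of_nonneg_left h6 (by positivity)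
  have h9 : 0 ≤ (Fintype.card Ω : ℝ) ^ 2 * (Y : ℝ) ^ 2 := by positivity
  nlinarith

/-- large denominators -/
lemma m_large {Ω : Type} [Fintype Ω] [Nonempty Ω] (v : Ω → ℕ) (D h Y : ℕ)
    (hh : Nat.Coprime h D) (κ δ : ℝ) (hκ : 0 ≤ κ) (hδ : 0 < δ) (ha : Anti v D κ δ)
    (hY : 1 / (2 * δ) ≤ κ * Y) :
    ∑ g ∈ Fintype.piFinset (fun _ : Bool => mS Y), phi v g ((h : ℝ) / D)
      ≤ (Y : ℝ) ^ 2 * Real.sqrt (2 * κ) := by
  refine m_mean v _ Y (2 * κ) (by positivity) ?_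
  have h1 := mA_second v ((h : ℝ) / D) Y κ δ hδ (by
    intro β
    have h2 := ha h hh β
    have h3 : ∀ x : Ω, (h : ℝ) / D * v x - β = (h : ℝ) * v x / D - β := by
      intro x; ring
    simp_rw [h3]
    exact h2)
  have h2 : ∑ u ∈ mS Y, ‖mA v ((h : ℝ) / D) u‖ ^ 2
      ≤ (Fintype.card Ω : ℝ) ^ 2 * (2 * κ * Y) := by
    refine h1.trans (mul_le_mul_of_nonneg_left ?_ (by positivity))
    linarith
  have h3 : ‖∑ u ∈ mS Y, mA v ((h : ℝ) / D) u‖ ^ 2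
      ≤ Y * ∑ u ∈ mS Y, ‖mA v ((h : ℝ) / D) u‖ ^ 2 := by
    have h4 : ‖∑ u ∈ mS Y, mA v ((h : ℝ) / D) u‖ ^ 2
        ≤ (∑ u ∈ mS Y, ‖mA v ((h : ℝ) / D) u‖) ^ 2 :=
      pow_le_pow_left₀ (norm_nonneg _) (norm_sum_le _ _) 2
    have h5 := sq_sum_le_card_mul_sum_sq (s := mS Y) (f := fun u => ‖mA v ((h : ℝ) / D) u‖)
    rw [mS_card] at h5
    exact h4.trans h5
  have h4 : (Y : ℝ) * ∑ u ∈ mS Y, ‖mA v ((h : ℝ) / D) u‖ ^ 2
      ≤ Y * ((Fintype.card Ω : ℝ) ^ 2 * (2 * κ * Y)) :=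
    mul_le_mul_of_nonneg_left h2 (Nat.cast_nonneg _)
  nlinarith

end Vale.Agent.EgyptF
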