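import Mathlib
import Vale.Agent.EgyptF.Defs
import Vale.Agent.EgyptF.Family
import Vale.Agent.EgyptF.MultAux

/-!
# Piece B1-B2. Existence of good multipliers `u i b` (`T = 2000 M` digits, two multipliers each).

Put `Y_i = 8^i w^{81·2^I}`, `u i b ∈ [Y_i, 2 Y_i)`.  For `ξ = h/D` (`2 ≤ D ≤ w^{M 2^I}`, `D` coprime to `PP`,
`h` coprime to `D`), `a(u) = E_x e(ξ u v_x)`.  Average over all pairs `(u, u') ∈ [Y_i,2Y_i)^2`:
`E φ^2 = (1/4) E|a(u) + a(u')|^2 ≤ (1/2) E|a(u)|^2 + (1/2)|E a(u)|^2`.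
* `|E_u e(ξ u v_x)| ≤ 1/(2 Y_i ‖ξ v_x‖) ≤ D/(2 Y_i)`  (as `D ∤ h v_x`), so
  `E φ^2 ≤ 1/2 + (1/2)(D/(2Y_i))^2 ≤ 0.51` for `D ≤ w^25`.
* for `w^{25·2^i} < D ≤ w^{M 2^i}`: `E|a|^2 = E_{x,x'} E_u e(ξ u (v_x - v_x')) ≤ P(‖ξ(v_x - v_x')‖ ≤ δ) + 1/(2 Y δ)
  ≤ w^{-2^i} + w^{-2^i}`, `δ = w^{-80·2^i}`; `|E a|^2 ≤ E|a|^2`; so `E φ^2 ≤ 2 w^{-2^i}`.
By independence of the `T` digits and Cauchy-Schwarz the average over all `(u i b)` of
`∑_{(D,h)} ∏_i φ_i(h/D)` is at most `∑_{(D,h)} ∏_i (E φ_i^2)^{1/2}`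
`≤ w^{50} (0.51)^{1000 M} + ∑_{i ≤ I} w^{100·2^i} (2 w^{-2^i})^{1000 M} + w^{2 M 2^I} (2 w^{-2^I})^{1000 M} < 1`
(scales `w^{25·2^i} < D ≤ w^{50·2^i}`, `i ≤ I`, and `D > w^{50·2^I}`).  So some choice of `u` has
`∑_{(D,h)} ∏_i φ_i(h/D) < 1`.  For given `n`: `h/n = h'/D` in lowest terms, `h ↦ (D, h')` is injective.
-/

open Finset

namespace Vale.Agent.EgyptF

/-- the choice of the scale -/
lemma m_scale (M w : ℕ) (hM : 50 ≤ M) (hw : 1 ≤ w) (I D : ℕ) (h1 : w ^ 25 < D)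
    (h2 : D ≤ w ^ (M * 2 ^ I)) :
    ∃ i, i ≤ I ∧ w ^ (25 * 2 ^ i) < D ∧ D ≤ w ^ (M * 2 ^ i) := by
  induction I with
  | zero => exact ⟨0, le_rfl, by simpa using h1, h2⟩
  | succ I ih =>
    by_cases h : w ^ (25 * 2 ^ (I + 1)) < D
    · exact ⟨I + 1, le_rfl, h, h2⟩
    · push Not at h
      have h3 : D ≤ w ^ (M * 2 ^ I) := by
        refine h.trans (Nat.pow_le_pow_right hw ?_)
        calc 25 * 2 ^ (I + 1) = 50 * 2 ^ I := by ring
          _ ≤ M * 2 ^ I := Nat.mul_le_mul_right _ hM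
      obtain ⟨i, hi, h4, h5⟩ := ih h3
      exact ⟨i, hi.trans (Nat.le_succ _), h4, h5⟩

lemma m_sqrt_pow (θ : ℝ) (hθ : 0 ≤ θ) (M : ℕ) :
    Real.sqrt θ ^ (2000 * M) = θ ^ (1000 * M) := by
  have : 2000 * M = 2 * (1000 * M) := by ring
  rw [this, pow_mul, Real.sq_sqrt hθ]

/-- small numerics -/
lemma m_num1 (M w : ℕ) (hM : 100 ≤ M) (hw : w = 2 ^ (16 * M)) :
    ((51 : ℝ) / 100) ^ (1000 * M) * (w : ℝ) ^ 50 ≤ 1 / 4 := by
  have h1 : ((51 : ℝ) / 100) ^ 10 ≤ (1 / 2) ^ 9 := by norm_num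
  have h2 : ((51 : ℝ) / 100) ^ (1000 * M) ≤ (1 / 2) ^ (900 * M) := by
    have e1 : 1000 * M = 10 * (100 * M) := by ring
    have e2 : 900 * M = 9 * (100 * M) := by ring
    rw [e1, e2, pow_mul ((51 : ℝ) / 100) 10, pow_mul ((1 : ℝ) / 2) 9]
    exact pow_le_pow_left₀ (by positivity) h1 _
  have h3 : (w : ℝ) ^ 50 = 2 ^ (800 * M) := by
    rw [hw]
    push_cast
    rw [← pow_mul]
    congr 1
    ring
  have h4 : ((1 : ℝ) / 2) ^ (900 * M) * 2 ^ (800 * M) = (1 / 2) ^ (100 * M) := by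
    have e1 : 900 * M = 100 * M + 800 * M := by ring
    rw [e1, pow_add, mul_assoc, ← mul_pow]
    norm_num
  calc ((51 : ℝ) / 100) ^ (1000 * M) * (w : ℝ) ^ 50
      ≤ (1 / 2) ^ (900 * M) * (w : ℝ) ^ 50 := mul_le_mul_of_nonneg_right h2 (by positivity)
    _ = (1 / 2) ^ (100 * M) := by rw [h3, h4]
    _ ≤ (1 / 2) ^ 2 := pow_le_pow_of_le_one (by norm_num) (by norm_num) (by omega)
    _ = 1 / 4 := by norm_num

lemma m_num2 (M w i D : ℕ) (hM : 100 ≤ M) (hw : w = 2 ^ (16 * M)) (hD0 : 0 < D)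
    (hD : D ≤ w ^ (M * 2 ^ i)) :
    (2 * (1 / (w : ℝ) ^ (2 ^ i))) ^ (1000 * M) ≤ 1 / (D : ℝ) ^ 3 := by
  have hw4 : (4 : ℝ) ≤ w := by
    have h1 : 2 ^ 2 ≤ 2 ^ (16 * M) := Nat.pow_le_pow_right (by norm_num) (by omega)
    rw [← hw] at h1
    exact_mod_cast h1
  have hw0 : (0 : ℝ) < w := by linarith
  have hpos : (0 : ℝ) < (w : ℝ) ^ (2 ^ i) := by positivity
  have h2i : 1 ≤ 2 ^ i := Nat.one_le_two_pow
  have hw4' : (4 : ℝ) ≤ (w : ℝ) ^ (2 ^ i) := by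
    calc (4 : ℝ) ≤ w := hw4
      _ = (w : ℝ) ^ 1 := (pow_one _).symm
      _ ≤ (w : ℝ) ^ (2 ^ i) := pow_le_pow_right₀ (by linarith) h2i
  have h1 : (2 * (1 / (w : ℝ) ^ (2 ^ i))) ^ 2 ≤ 1 / (w : ℝ) ^ (2 ^ i) := by
    rw [mul_pow, div_pow, one_pow]
    rw [mul_one_div, div_le_div_iff₀ (by positivity) (by positivity), one_mul]
    nlinarith
  have h2 : (2 * (1 / (w : ℝ) ^ (2 ^ i))) ^ (1000 * M) ≤ (1 / (w : ℝ) ^ (2 ^ i)) ^ (500 * M) := by
    have e1 : 1000 * M = 2 * (500 * M) := by ring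
    rw [e1, pow_mul]
    exact pow_le_pow_left₀ (by positivity) h1 _
  refine h2.trans ?_
  rw [div_pow, one_pow, ← pow_mul]
  have hD' : (D : ℝ) ≤ (w : ℝ) ^ (M * 2 ^ i) := by exact_mod_cast hD
  have hD0' : (0 : ℝ) < D := by exact_mod_cast hD0
  refine one_div_le_one_div_of_le (by positivity) ?_
  calc (D : ℝ) ^ 3 ≤ ((w : ℝ) ^ (M * 2 ^ i)) ^ 3 := pow_le_pow_left₀ hD0'.le hD' 3
    _ = (w : ℝ) ^ (M * 2 ^ i * 3) := by rw [← pow_mul]
    _ ≤ (w : ℝ) ^ (2 ^ i * (500 * M)) := by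
        refine pow_le_pow_right₀ (by linarith) ?_
        have : M * 2 ^ i * 3 = 2 ^ i * (3 * M) := by ring
        rw [this]
        exact Nat.mul_le_mul_left _ (by omega)

/-- the fractions in lowest terms -/
noncomputable def mL (PP : Finset ℕ) (X : ℕ) : Finset ((_ : ℕ) × ℕ) := by
  classical
  exact ((Icc 2 X).filter (fun D => ∀ p ∈ PP, Nat.Coprime p D)).sigma
    (fun D => (Ico 1 D).filter (fun h => Nat.Coprime h D))

lemma mem_mL {PP : Finset ℕ} {X : ℕ} {q : (_ : ℕ) × ℕ} :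
    q ∈ mL PP X ↔ (2 ≤ q.1 ∧ q.1 ≤ X ∧ ∀ p ∈ PP, Nat.Coprime p q.1) ∧
      (1 ≤ q.2 ∧ q.2 < q.1 ∧ Nat.Coprime q.2 q.1) := by
  classical
  unfold mL
  rw [Finset.mem_sigma, Finset.mem_filter, Finset.mem_filter, Finset.mem_Icc, Finset.mem_Ico]
  tauto

/-- from all fractions with denominator `n` to fractions in lowest terms -/
lemma m_reduce (PP : Finset ℕ) (X n : ℕ) (hnX : n ≤ X)
    (hn : ∀ p ∈ PP, Nat.Coprime p n) (F : ℝ → ℝ) (hF : ∀ x, 0 ≤ F x) :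
    ∑ h ∈ Ico 1 n, F ((h : ℝ) / n) ≤ ∑ q ∈ mL PP X, F ((q.2 : ℝ) / q.1) := by
  classical
  set f : ℕ → (_ : ℕ) × ℕ := fun h => ⟨n / Nat.gcd h n, h / Nat.gcd h n⟩ with hf
  have hfac : ∀ h ∈ Ico 1 n, 0 < Nat.gcd h n := by
    intro h hh
    rw [Finset.mem_Ico] at hh
    exact Nat.gcd_pos_of_pos_left _ (by omega)
  have hval : ∀ h ∈ Ico 1 n, ((f h).2 : ℝ) / (f h).1 = (h : ℝ) / n := by
    intro h hh
    have hg := hfac h hh
    have hg' : ((Nat.gcd h n : ℕ) : ℝ) ≠ 0 := by exact_mod_cast hg.ne'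
    simp only [hf]
    rw [Nat.cast_div (Nat.gcd_dvd_left h n) hg', Nat.cast_div (Nat.gcd_dvd_right h n) hg',
      div_div_div_cancel_right₀ hg']
  have hinj : Set.InjOn f (Ico 1 n : Finset ℕ) := by
    intro h hh h' hh' heq
    have h1 := hval h hh
    have h2 := hval h' hh'
    rw [heq, h2] at h1
    have hn0 : (n : ℝ) ≠ 0 := by
      have := Finset.mem_Ico.1 (Finset.mem_coe.1 hh)
      have : n ≠ 0 := by omega
      exact_mod_cast this
    have h3 : (h' : ℝ) = h := by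
      field_simp at h1
      exact h1
    exact_mod_cast h3.symm
  have hmem : ∀ h ∈ Ico 1 n, f h ∈ mL PP X := by
    intro h hh
    have hg := hfac h hh
    rw [Finset.mem_Ico] at hh
    rw [mem_mL]
    simp only [hf]
    have hgh : Nat.gcd h n ≤ h := Nat.gcd_le_left _ (by omega)
    have hdvd : n / Nat.gcd h n ∣ n := Nat.div_dvd_of_dvd (Nat.gcd_dvd_right h n)
    refine ⟨⟨?_, ?_, ?_⟩, ?_, ?_, ?_⟩
    · rw [Nat.le_div_iff_mul_le hg]
      obtain ⟨k, hk⟩ := Nat.gcd_dvd_right h n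
      have hk2 : 2 ≤ k := by
        by_contra hk2
        have : k ≤ 1 := by omega
        have : n ≤ Nat.gcd h n := by
          calc n = Nat.gcd h n * k := hk
            _ ≤ Nat.gcd h n * 1 := Nat.mul_le_mul_left _ this
            _ = Nat.gcd h n := mul_one _
        omega
      calc 2 * Nat.gcd h n ≤ k * Nat.gcd h n := Nat.mul_le_mul_right _ hk2
        _ = n := by rw [mul_comm]; exact hk.symm
    · exact (Nat.div_le_self _ _).trans hnX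
    · intro p hp
      exact Nat.Coprime.coprime_dvd_right hdvd (hn p hp)
    · exact Nat.div_pos hgh hg
    · exact Nat.div_lt_div_of_lt_of_dvd (Nat.gcd_dvd_right h n) hh.2
    · exact Nat.coprime_div_gcd_div_gcd hg
  calc ∑ h ∈ Ico 1 n, F ((h : ℝ) / n) = ∑ h ∈ Ico 1 n, F (((f h).2 : ℝ) / (f h).1) :=
        Finset.sum_congr rfl fun h hh => by rw [hval h hh]
    _ = ∑ q ∈ (Ico 1 n).image f, F ((q.2 : ℝ) / q.1) := by
        rw [Finset.sum_image hinj]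
    _ ≤ ∑ q ∈ mL PP X, F ((q.2 : ℝ) / q.1) := by
        refine Finset.sum_le_sum_of_subset_of_nonneg ?_ fun q _ _ => hF _
        intro q hq
        obtain ⟨h, hh, rfl⟩ := Finset.mem_image.1 hq
        exact hmem h hh

/-- total weight -/
lemma m_total (PP : Finset ℕ) (X W : ℕ) (hW : 4 ≤ W) (c : ℕ → ℝ) (c0 : ℝ) (hc0 : 0 ≤ c0)
    (h1 : ∀ D, D ≤ W → c D ≤ c0) (h2 : ∀ D, W < D → D ≤ X → c D ≤ 1 / (D : ℝ) ^ 3)
    (h3 : c0 * (W : ℝ) ^ 2 ≤ 1 / 4) :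
    ∑ q ∈ mL PP X, c q.1 < 1 := by
  classical
  -- replace `c` by its maximum with 0
  set c' : ℕ → ℝ := fun D => if D ≤ W then c0 else 1 / (D : ℝ) ^ 3 with hc'
  have hc'0 : ∀ D, 0 ≤ c' D := by
    intro D
    simp only [hc']
    split_ifs
    · exact hc0
    · positivity
  have hcc' : ∀ D, D ≤ X → c D ≤ c' D := by
    intro D hDX
    simp only [hc']
    split_ifs with h
    · exact h1 D h
    · exact h2 D (by omega) hDX
  have hle : ∑ q ∈ mL PP X, c q.1 ≤ ∑ q ∈ mL PP X, c' q.1 :=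
    Finset.sum_le_sum fun q hq => hcc' _ (mem_mL.1 hq).1.2.1
  have hle2 : ∑ q ∈ mL PP X, c' q.1 ≤ ∑ q ∈ (Icc 2 X).sigma (fun D => Ico 1 D), c' q.1 := by
    refine Finset.sum_le_sum_of_subset_of_nonneg ?_ fun q _ _ => hc'0 _
    intro q hq
    have := mem_mL.1 hq
    rw [Finset.mem_sigma, Finset.mem_Icc, Finset.mem_Ico]
    exact ⟨⟨this.1.1, this.1.2.1⟩, this.2.1, this.2.2.1⟩
  have heq : ∑ q ∈ (Icc 2 X).sigma (fun D => Ico 1 D), c' q.1
      = ∑ D ∈ Icc 2 X, ((D - 1 : ℕ) : ℝ) * c' D := by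
    rw [Finset.sum_sigma]
    refine Finset.sum_congr rfl fun D _ => ?_
    change ∑ s ∈ Ico 1 D, c' D = _
    rw [Finset.sum_const, Nat.card_Ico, nsmul_eq_mul]
  have hbound : ∑ D ∈ Icc 2 X, ((D - 1 : ℕ) : ℝ) * c' D
      ≤ ∑ D ∈ Icc 1 W, (W : ℝ) * c0 + ∑ D ∈ Ioc W X, ((D : ℝ) ^ 2)⁻¹ := by
    have hsub : Icc 2 X ⊆ (Icc 1 W) ∪ (Ioc W X) := by
      intro D hD
      rw [Finset.mem_Icc] at hD
      rw [Finset.mem_union, Finset.mem_Icc, Finset.mem_Ioc]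
      omega
    have hdisj : Disjoint (Icc 1 W) (Ioc W X) := by
      rw [Finset.disjoint_left]
      intro D hD hD'
      rw [Finset.mem_Icc] at hD
      rw [Finset.mem_Ioc] at hD'
      omega
    calc ∑ D ∈ Icc 2 X, ((D - 1 : ℕ) : ℝ) * c' D
        ≤ ∑ D ∈ (Icc 1 W) ∪ (Ioc W X), ((D - 1 : ℕ) : ℝ) * c' D :=
          Finset.sum_le_sum_of_subset_of_nonneg hsub fun D _ _ =>
            mul_nonneg (Nat.cast_nonneg _) (hc'0 D)
      _ = ∑ D ∈ Icc 1 W, ((D - 1 : ℕ) : ℝ) * c' D + ∑ D ∈ Ioc W X, ((D - 1 : ℕ) : ℝ) * c' D :=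
          Finset.sum_union hdisj
      _ ≤ _ := by
          refine add_le_add ?_ ?_
          · refine Finset.sum_le_sum fun D hD => ?_
            rw [Finset.mem_Icc] at hD
            simp only [hc', if_pos hD.2]
            refine mul_le_mul_of_nonneg_right ?_ hc0
            exact_mod_cast (show D - 1 ≤ W by omega)
          · refine Finset.sum_le_sum fun D hD => ?_
            rw [Finset.mem_Ioc] at hD
            simp only [hc', if_neg (show ¬ D ≤ W by omega)]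
            have hD0 : (0 : ℝ) < D := by
              have : 0 < D := by omega
              exact_mod_cast this
            have h5 : ((D - 1 : ℕ) : ℝ) ≤ D := by exact_mod_cast Nat.sub_le _ _
            calc ((D - 1 : ℕ) : ℝ) * (1 / (D : ℝ) ^ 3) ≤ D * (1 / (D : ℝ) ^ 3) :=
                  mul_le_mul_of_nonneg_right h5 (by positivity)
              _ = ((D : ℝ) ^ 2)⁻¹ := by field_simp
  have hsum1 : ∑ D ∈ Icc 1 W, (W : ℝ) * c0 = c0 * (W : ℝ) ^ 2 := by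
    rw [Finset.sum_const, Nat.card_Icc, nsmul_eq_mul]
    simp only [Nat.add_sub_cancel]
    ring
  have hsum2 : ∑ D ∈ Ioc W X, ((D : ℝ) ^ 2)⁻¹ ≤ 1 / 4 := by
    by_cases hWX : W ≤ X
    · have h5 := sum_Ioc_inv_sq_le_sub (α := ℝ) (k := W) (n := X) (by omega) hWX
      have h6 : (W : ℝ)⁻¹ ≤ 1 / 4 := by
        rw [inv_eq_one_div]
        exact one_div_le_one_div_of_le (by norm_num) (by exact_mod_cast hW)
      have h7 : (0 : ℝ) ≤ (X : ℝ)⁻¹ := by positivity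
      linarith
    · rw [Finset.Ioc_eq_empty (by omega), Finset.sum_empty]
      norm_num
  linarith

theorem multipliers (M w I : ℕ) (hM : 100 ≤ M) (hw : w = 2 ^ (16 * M))
    (hI : 256 * M * 2 ^ I ≤ w) {Ω : Type} [Fintype Ω] [Nonempty Ω] (v : Ω → ℕ) (PP : Finset ℕ)
    (hcop : ∀ n : ℕ, (∀ p ∈ PP, Nat.Coprime p n) → ∀ x, Nat.Coprime (v x) n)
    (hanti : ∀ D : ℕ, (∀ p ∈ PP, Nat.Coprime p D) → ∀ i, i ≤ I → w ^ (25 * 2 ^ i) < D →
        D ≤ w ^ (M * 2 ^ i) → Anti v D (1 / (w : ℝ) ^ (2 ^ i)) (1 / (w : ℝ) ^ (80 * 2 ^ i))) :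
    ∃ u : Fin (2000 * M) → Bool → ℕ,
      (∀ (i : Fin (2000 * M)) (b : Bool), 8 ^ (i : ℕ) * w ^ (81 * 2 ^ I) ≤ u i b ∧
        u i b < 2 * (8 ^ (i : ℕ) * w ^ (81 * 2 ^ I))) ∧
      ∀ n : ℕ, 1 ≤ n → n ≤ w ^ (M * 2 ^ I) → (∀ p ∈ PP, Nat.Coprime p n) →
        ∑ h ∈ Ico 1 n, ∏ i, phi v (u i) ((h : ℝ) / n) < 1 := by
  classical
  have hw4 : 4 ≤ w := by
    have h1 : 2 ^ 2 ≤ 2 ^ (16 * M) := Nat.pow_le_pow_right (by norm_num) (by omega)
    rw [← hw] at h1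
    exact h1
  have hw1 : 1 ≤ w := by omega
  have hw10 : 10 ≤ w := by
    have h1 : 2 ^ 4 ≤ 2 ^ (16 * M) := Nat.pow_le_pow_right (by norm_num) (by omega)
    rw [← hw] at h1
    omega
  set Y : Fin (2000 * M) → ℕ := fun i => 8 ^ (i : ℕ) * w ^ (81 * 2 ^ I) with hY
  have hYge : ∀ i, w ^ (81 * 2 ^ I) ≤ Y i := by
    intro i
    simp only [hY]
    exact Nat.le_mul_of_pos_left _ (by positivity)
  have hYpos : ∀ i, 0 < Y i := fun i => lt_of_lt_of_le (by positivity) (hYge i)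
  set X : ℕ := w ^ (M * 2 ^ I) with hX
  set U : Finset (Fin (2000 * M) → Bool → ℕ) :=
    Fintype.piFinset (fun i => Fintype.piFinset (fun _ : Bool => mS (Y i))) with hU
  have hphi0 : ∀ (g : Bool → ℕ) (ξ : ℝ), 0 ≤ phi v g ξ := by
    intro g ξ
    unfold phi
    positivity
  have hUcard : (U.card : ℝ) = ∏ i, ((Y i : ℝ) ^ 2) := by
    rw [hU, Fintype.card_piFinset]
    push_cast
    refine Finset.prod_congr rfl fun i _ => ?_
    rw [Fintype.card_piFinset, Fintype.prod_bool, mS_card]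
    push_cast
    ring
  have hUpos : (0 : ℝ) < U.card := by
    rw [hUcard]
    refine Finset.prod_pos fun i _ => ?_
    have := hYpos i
    positivity
  -- independence
  have hprod : ∀ (θ : ℝ), 0 ≤ θ → ∀ ξ : ℝ,
      (∀ i, ∑ g ∈ Fintype.piFinset (fun _ : Bool => mS (Y i)), phi v g ξ
        ≤ (Y i : ℝ) ^ 2 * Real.sqrt θ) →
      ∑ u ∈ U, ∏ i, phi v (u i) ξ ≤ U.card * θ ^ (1000 * M) := by
    intro θ hθ ξ h
    have hps := Finset.prod_univ_sum (fun i => Fintype.piFinset fun _ : Bool => mS (Y i))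
      (fun (_ : Fin (2000 * M)) g => phi v g ξ)
    rw [← hU] at hps
    rw [← hps, hUcard, ← m_sqrt_pow θ hθ M]
    calc ∏ i, ∑ g ∈ Fintype.piFinset (fun _ : Bool => mS (Y i)), phi v g ξ
        ≤ ∏ i, ((Y i : ℝ) ^ 2 * Real.sqrt θ) :=
          Finset.prod_le_prod (fun i _ => Finset.sum_nonneg fun g _ => hphi0 g ξ) fun i _ => h i
      _ = (∏ i, ((Y i : ℝ) ^ 2)) * Real.sqrt θ ^ (2000 * M) := by
          rw [Finset.prod_mul_distrib, Finset.prod_const, Finset.card_univ, Fintype.card_fin]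
  set c : ℕ → ℝ := fun D => if D ≤ w ^ 25 then (51 / 100 : ℝ) ^ (1000 * M) else 1 / (D : ℝ) ^ 3
    with hc
  have hterm : ∀ q ∈ mL PP X, ∑ u ∈ U, ∏ i, phi v (u i) ((q.2 : ℝ) / q.1) ≤ U.card * c q.1 := by
    rintro ⟨D, h⟩ hq
    have hq' := mem_mL.1 hq
    simp only at hq' ⊢
    obtain ⟨⟨hD2, hDX, hDP⟩, hh1, hhD, hcopr⟩ := hq'
    by_cases hD : D ≤ w ^ 25
    · simp only [hc, if_pos hD]
      refine hprod (51 / 100) (by norm_num) _ fun i => ?_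
      refine m_small v D h (Y i) hD2 hcopr (hcop D hDP) ?_
      refine le_trans ?_ (hYge i)
      calc 10 * D ≤ w * w ^ 25 := Nat.mul_le_mul hw10 hD
        _ = w ^ 26 := by ring
        _ ≤ w ^ (81 * 2 ^ I) := by
            refine Nat.pow_le_pow_right hw1 ?_
            have : 1 ≤ 2 ^ I := Nat.one_le_two_pow
            omega
    · simp only [hc, if_neg hD]
      push Not at hD
      obtain ⟨j, hj, hj1, hj2⟩ := m_scale M w (by omega) hw1 I D hD hDX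
      have hanti' := hanti D hDP j hj hj1 hj2
      have hwpos : (0 : ℝ) < w := by exact_mod_cast hw1
      have h5 := hprod (2 * (1 / (w : ℝ) ^ (2 ^ j))) (by positivity) ((h : ℝ) / D) fun i => by
        refine m_large v D h (Y i) hcopr _ _ (by positivity) (by positivity) hanti' ?_
        have h6 : (w : ℝ) ^ (81 * 2 ^ I) ≤ Y i := by exact_mod_cast hYge i
        have h7 : (w : ℝ) ^ (81 * 2 ^ j) ≤ (w : ℝ) ^ (81 * 2 ^ I) := by
          refine pow_le_pow_right₀ (by exact_mod_cast hw1) ?_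
          exact Nat.mul_le_mul_left _ (Nat.pow_le_pow_right (by norm_num) hj)
        have h8 : (w : ℝ) ^ (81 * 2 ^ j) = (w : ℝ) ^ (80 * 2 ^ j) * (w : ℝ) ^ (2 ^ j) := by
          rw [← pow_add]
          congr 1
          ring
        have h9 : 1 / (2 * (1 / (w : ℝ) ^ (80 * 2 ^ j))) = (w : ℝ) ^ (80 * 2 ^ j) / 2 := by
          field_simp
        rw [h9, div_mul_eq_mul_div, one_mul, div_le_div_iff₀ (by norm_num) (by positivity)]
        have h10 : (0 : ℝ) < (w : ℝ) ^ (80 * 2 ^ j) := by positivity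
        nlinarith
      refine h5.trans (mul_le_mul_of_nonneg_left ?_ hUpos.le)
      exact m_num2 M w j D hM hw (by omega) hj2
  have htot : ∑ q ∈ mL PP X, c q.1 < 1 := by
    refine m_total PP X (w ^ 25) ?_ c ((51 / 100 : ℝ) ^ (1000 * M)) (by positivity) ?_ ?_ ?_
    · calc 4 ≤ w := hw4
        _ = w ^ 1 := (pow_one _).symm
        _ ≤ w ^ 25 := Nat.pow_le_pow_right hw1 (by norm_num)
    · intro D hD
      simp only [hc, if_pos hD]
      exact le_rfl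
    · intro D hD _
      simp only [hc, if_neg (not_le.2 hD)]
      exact le_rfl
    · have h5 := m_num1 M w hM hw
      have h6 : (((w ^ 25 : ℕ) : ℝ)) ^ 2 = (w : ℝ) ^ 50 := by
        push_cast
        ring
      rw [h6]
      exact h5
  have hfinal : ∑ u ∈ U, ∑ q ∈ mL PP X, ∏ i, phi v (u i) ((q.2 : ℝ) / q.1)
      < ∑ u ∈ U, (1 : ℝ) := by
    rw [Finset.sum_comm, Finset.sum_const, nsmul_eq_mul, mul_one]
    calc ∑ q ∈ mL PP X, ∑ u ∈ U, ∏ i, phi v (u i) ((q.2 : ℝ) / q.1)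
        ≤ ∑ q ∈ mL PP X, U.card * c q.1 := Finset.sum_le_sum hterm
      _ = U.card * ∑ q ∈ mL PP X, c q.1 := by rw [Finset.mul_sum]
      _ < U.card * 1 := mul_lt_mul_of_pos_left htot hUpos
      _ = U.card := mul_one _
  obtain ⟨u, hu, hlt⟩ := Finset.exists_lt_of_sum_lt hfinal
  refine ⟨u, ?_, ?_⟩
  · intro i b
    rw [hU, Fintype.mem_piFinset] at hu
    have h1 := hu i
    rw [Fintype.mem_piFinset] at h1
    have h2 := h1 b
    unfold mS at h2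
    exact Finset.mem_Ico.1 h2
  · intro n _ hn hnP
    refine lt_of_le_of_lt ?_ hlt
    exact m_reduce PP X n hn hnP (fun ξ => ∏ i, phi v (u i) ξ)
      fun ξ => Finset.prod_nonneg fun i _ => hphi0 _ _

end Vale.Agent.EgyptF
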