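import Mathlib
import Vale.Agent.EgyptF.Defs
import Vale.Agent.EgyptF.Primes
import Vale.Agent.EgyptF.Family
import Vale.Agent.EgyptF.Mult

/-!
# Piece B3-B4. Resolution theorem: one integer `W = l.prod` such that for all `n ≤ 2^{M w / 32}` coprime to
the pool primes, `n` divides a nonempty sum of at most `2000 M` distinct divisors of `W`.

Proof.  `exists_primes`, `I` maximal with `256 M 2^I ≤ w` (so `w < 512 M 2^I`, `w^{M 2^I} ≥ 2^{M w/32}`),
`family`, `multipliers`.  The number of `(b_i, x_i)_i` with `n ∣ ∑_i u i (b_i) v(x_i)` is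
`(1/n) ∑_{h<n} ∏_i (∑_b ∑_x e((h/n) u i b v x))`; the term `h = 0` is `∏_i (2|Ω|)`, the others are
smaller in total by `multipliers`; so it is positive.  The numbers `d_i = u i b_i · v x_i` lie in the
disjoint ranges `[8^i Y Z, 6·8^i Y Z)`, so they are distinct divisors of
`W = l₀.prod · ∏_i (u i true · u i false)`.
-/

open Finset

namespace Vale.Agent.EgyptF

lemma e_eq_one {x : ℝ} (h : e x = 1) : ∃ k : ℤ, x = k := by
  unfold e at h
  rw [Complex.exp_eq_one_iff] at h
  obtain ⟨k, hk⟩ := h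
  refine ⟨k, ?_⟩
  have hpi : (2 * Real.pi * Complex.I : ℂ) ≠ 0 := Complex.two_pi_I_ne_zero
  have h1 : ((x : ℂ) - k) * (2 * Real.pi * Complex.I) = 0 := by
    push_cast at hk
    linear_combination hk
  have h2 : (x : ℂ) - k = 0 := (mul_eq_zero.1 h1).resolve_right hpi
  have h3 : (x : ℂ) = ((k : ℝ) : ℂ) := by
    push_cast
    linear_combination h2
  exact_mod_cast h3

lemma sum_e_eq_zero {n s : ℕ} (hn : 1 ≤ n) (hs : ¬ n ∣ s) :
    ∑ h ∈ range n, e ((h : ℝ) / n * s) = 0 := by
  have hn' : (n : ℝ) ≠ 0 := by exact_mod_cast (by omega : n ≠ 0)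
  have h1 : ∀ h ∈ range n, e ((h : ℝ) / n * s) = e ((s : ℝ) / n) ^ h := by
    intro h _
    rw [← e_nat_mul]
    congr 1
    field_simp
  rw [Finset.sum_congr rfl h1]
  have h2 : (∑ h ∈ range n, e ((s : ℝ) / n) ^ h) * (e ((s : ℝ) / n) - 1) = 0 := by
    rw [geom_sum_mul, ← e_nat_mul]
    have : (n : ℝ) * ((s : ℝ) / n) = ((s : ℤ) : ℝ) := by
      field_simp
      simp
    rw [this, e_int, sub_self]
  refine (mul_eq_zero.1 h2).resolve_right fun h3 => hs ?_
  obtain ⟨k, hk⟩ := e_eq_one (sub_eq_zero.1 h3)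
  have h4 : (s : ℝ) = ((n : ℤ) * k : ℤ) := by
    push_cast
    rw [← hk]
    field_simp
  have h5 : (s : ℤ) = (n : ℤ) * k := by exact_mod_cast h4
  exact Int.natCast_dvd_natCast.1 ⟨k, h5⟩

lemma e_sum {ι : Type*} (s : Finset ι) (f : ι → ℝ) : e (∑ i ∈ s, f i) = ∏ i ∈ s, e (f i) := by
  classical
  induction s using Finset.induction_on with
  | empty => simp [e_zero]
  | insert a s ha ih => rw [Finset.sum_insert ha, Finset.prod_insert ha, e_add, ih]

/-- orthogonality: if the nontrivial frequencies contribute less than the trivial one then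
some choice of digits gives a multiple of `n` -/
theorem exists_digits {Ω : Type} [Fintype Ω] [Nonempty Ω] (v : Ω → ℕ) {T : ℕ}
    (u : Fin T → Bool → ℕ) {n : ℕ} (hn : 1 ≤ n)
    (hphi : ∑ h ∈ Ico 1 n, ∏ i, phi v (u i) ((h : ℝ) / n) < 1) :
    ∃ (b : Fin T → Bool) (x : Fin T → Ω), n ∣ ∑ i, u i (b i) * v (x i) := by
  classical
  by_contra hcon
  push Not at hcon
  set c : ℝ := 2 * Fintype.card Ω with hc
  have hcpos : 0 < c := by
    have : 0 < Fintype.card Ω := Fintype.card_pos
    rw [hc]; positivity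
  let S : Fin T → ℕ → ℂ := fun i h => ∑ p : Bool × Ω, e ((h : ℝ) / n * ((u i p.1 * v p.2 : ℕ) : ℝ))
  have hprod : ∀ h : ℕ, ∏ i, S i h =
      ∑ f : Fin T → Bool × Ω, e ((h : ℝ) / n * ((∑ i, u i (f i).1 * v (f i).2 : ℕ) : ℝ)) := by
    intro h
    have h1 := Finset.prod_univ_sum (fun _ : Fin T => (Finset.univ : Finset (Bool × Ω)))
      (fun i p => e ((h : ℝ) / n * ((u i p.1 * v p.2 : ℕ) : ℝ)))
    rw [Fintype.piFinset_univ] at h1
    rw [h1]
    refine Finset.sum_congr rfl fun f _ => ?_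
    rw [Nat.cast_sum, Finset.mul_sum, e_sum]
  have htot : ∑ h ∈ range n, ∏ i, S i h = 0 := by
    rw [Finset.sum_congr rfl fun h _ => hprod h, Finset.sum_comm]
    refine Finset.sum_eq_zero fun f _ => ?_
    exact sum_e_eq_zero hn (hcon (fun i => (f i).1) (fun i => (f i).2))
  have hzero : ∏ i, S i 0 = ((c ^ T : ℝ) : ℂ) := by
    have : ∀ i, S i 0 = ((c : ℝ) : ℂ) := by
      intro i
      simp only [S, Nat.cast_zero, zero_div, zero_mul, e_zero, Finset.sum_const,
        Finset.card_univ, Fintype.card_prod, Fintype.card_bool, nsmul_eq_mul, mul_one, hc]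
      push_cast
      ring
    rw [Finset.prod_congr rfl fun i _ => this i, Finset.prod_const, Finset.card_univ,
      Fintype.card_fin]
    push_cast
    rfl
  have hnorm : ∀ i (h : ℕ), ‖S i h‖ = c * phi v (u i) ((h : ℝ) / n) := by
    intro i h
    unfold phi
    rw [← hc, mul_div_cancel₀ _ hcpos.ne']
    simp only [S]
    rw [Fintype.sum_prod_type]
  have hsplit : ∑ h ∈ range n, ∏ i, S i h = ∏ i, S i 0 + ∑ h ∈ Ico 1 n, ∏ i, S i h := by
    rw [Finset.range_eq_Ico, Finset.sum_eq_sum_Ico_succ_bot (by omega)]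
  rw [htot, hzero] at hsplit
  have h1 : ‖∑ h ∈ Ico 1 n, ∏ i, S i h‖ = c ^ T := by
    have : ∑ h ∈ Ico 1 n, ∏ i, S i h = -((c ^ T : ℝ) : ℂ) := by
      linear_combination -hsplit
    rw [this, norm_neg, Complex.norm_real, Real.norm_of_nonneg (by positivity)]
  have h2 : ‖∑ h ∈ Ico 1 n, ∏ i, S i h‖ ≤
      c ^ T * ∑ h ∈ Ico 1 n, ∏ i, phi v (u i) ((h : ℝ) / n) := by
    rw [Finset.mul_sum]
    refine (norm_sum_le _ _).trans (Finset.sum_le_sum fun h _ => le_of_eq ?_)
    rw [norm_prod, Finset.prod_congr rfl fun i _ => hnorm i h, Finset.prod_mul_distrib,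
      Finset.prod_const, Finset.card_univ, Fintype.card_fin]
  have h3 : c ^ T * ∑ h ∈ Ico 1 n, ∏ i, phi v (u i) ((h : ℝ) / n) < c ^ T * 1 :=
    mul_lt_mul_of_pos_left hphi (by positivity)
  linarith

theorem resolution (M w : ℕ) (hM : 100 ≤ M) (hw : w = 2 ^ (16 * M)) :
    ∃ (l : List ℕ) (PP : Finset ℕ), (∀ y ∈ l, 1 ≤ y ∧ y ≤ 2 ^ (M * w)) ∧
      l.prod ≤ 2 ^ (60000 * M * w) ∧ (∀ p ∈ PP, p.Prime ∧ w < p) ∧ PP.card ≤ w ∧
      ∀ n : ℕ, 1 ≤ n → n ≤ 2 ^ (M * w / 32) → (∀ p ∈ PP, Nat.Coprime p n) →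
        ∃ DD : Finset ℕ, DD.Nonempty ∧ DD.card ≤ 2000 * M ∧ (∀ d ∈ DD, 0 < d ∧ d ∣ l.prod) ∧
          n ∣ ∑ d ∈ DD, d := by
  classical
  have hw1600 : 2 ^ 1600 ≤ w := by
    rw [hw]; exact Nat.pow_le_pow_right (by norm_num) (by omega)
  have hwM : 65536 * M ≤ w := by
    rw [hw, pow_mul]
    exact Nat.mul_le_pow (by norm_num) M
  have hwpos : 0 < w := by omega
  obtain ⟨z, P, hz1, hz2, hP, hPc⟩ := exists_primes w hw1600
  -- the scale
  obtain ⟨I, hI, hI'⟩ : ∃ I, 256 * M * 2 ^ I ≤ w ∧ w < 512 * M * 2 ^ I := by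
    refine ⟨Nat.log 2 (w / (256 * M)), ?_, ?_⟩
    · have h1 : w / (256 * M) ≠ 0 := by
        have : 1 ≤ w / (256 * M) := (Nat.one_le_div_iff (by positivity)).2 (by omega)
        omega
      have h2 := Nat.pow_log_le_self 2 h1
      calc 256 * M * 2 ^ Nat.log 2 (w / (256 * M)) ≤ 256 * M * (w / (256 * M)) :=
            Nat.mul_le_mul_left _ h2
        _ ≤ w := Nat.mul_div_le _ _
    · have h2 : w / (256 * M) < 2 ^ (Nat.log 2 (w / (256 * M)) + 1) :=
        Nat.lt_pow_succ_log_self (by norm_num) _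
      have h3 := (Nat.div_lt_iff_lt_mul (by positivity)).1 h2
      rw [pow_succ] at h3
      calc w < 2 ^ Nat.log 2 (w / (256 * M)) * 2 * (256 * M) := h3
        _ = 512 * M * 2 ^ Nat.log 2 (w / (256 * M)) := by ring
  obtain ⟨Ω, hΩ, hΩne, v, Z, PP, l₀, hZ, hv, hvl, hl₀, hlen, hPP, hPPc, hcop, hanti⟩ :=
    family M w z I P hM hw hI hz1 hz2 hP hPc
  obtain ⟨u, hu, hmul⟩ := multipliers M w I hM hw hI v PP hcop hanti
  set J := 2 ^ I with hJ
  -- bound for the multipliers
  have hwJ : w ^ (81 * J) = 2 ^ (1296 * M * J) := by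
    rw [hw, ← pow_mul]; congr 1; ring
  have hub : ∀ (i : Fin (2000 * M)) (b : Bool), 1 ≤ u i b ∧ u i b ≤ 2 ^ (1 + 6000 * M + 6 * w) := by
    intro i b
    obtain ⟨h1, h2⟩ := hu i b
    constructor
    · refine le_trans ?_ h1
      exact Nat.one_le_iff_ne_zero.2 (by positivity)
    · refine h2.le.trans ?_
      rw [hwJ]
      have h3 : (8 : ℕ) ^ (i : ℕ) ≤ 2 ^ (6000 * M) := by
        calc (8 : ℕ) ^ (i : ℕ) ≤ 8 ^ (2000 * M) := Nat.pow_le_pow_right (by norm_num) i.2.le
          _ = 2 ^ (6000 * M) := by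
            have : (8 : ℕ) = 2 ^ 3 := by norm_num
            rw [this, ← pow_mul]; congr 1; omega
      have h4 : 1296 * M * J ≤ 6 * w := by
        calc 1296 * M * J ≤ 1536 * M * J :=
              Nat.mul_le_mul_right _ (Nat.mul_le_mul_right _ (by norm_num))
          _ = 6 * (256 * M * J) := by ring
          _ ≤ 6 * w := Nat.mul_le_mul_left _ hI
      calc 2 * (8 ^ (i : ℕ) * 2 ^ (1296 * M * J))
          ≤ 2 * (2 ^ (6000 * M) * 2 ^ (6 * w)) :=
            Nat.mul_le_mul_left _ (Nat.mul_le_mul h3 (Nat.pow_le_pow_right (by norm_num) h4))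
        _ = 2 ^ (1 + 6000 * M + 6 * w) := by rw [pow_add, pow_add, pow_one]; ring
  have hMw : 100 * w ≤ M * w := Nat.mul_le_mul_right _ hM
  have hw1 : 1 ≤ w := by omega
  have hdec1 : (List.ofFn (fun i : Fin (2000 * M) => u i true)).prod = ∏ i, u i true := List.prod_ofFn
  have hdec2 : (List.ofFn (fun i : Fin (2000 * M) => u i false)).prod = ∏ i, u i false := List.prod_ofFn
  refine ⟨l₀ ++ (List.ofFn (fun i : Fin (2000 * M) => u i true) ++ List.ofFn (fun i : Fin (2000 * M) => u i false)),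
    PP, ?_, ?_, hPP, hPPc, ?_⟩
  · intro y hy
    rw [List.mem_append, List.mem_append] at hy
    have hexp : 1 + 6000 * M + 6 * w ≤ M * w := by omega
    rcases hy with hy | hy | hy
    · obtain ⟨h1, h2⟩ := hl₀ y hy
      refine ⟨h1, h2.trans ?_⟩
      calc 2 * w ^ 100 = 2 ^ (1 + 1600 * M) := by
            rw [hw, ← pow_mul, pow_add, pow_one]; congr 2; ring
        _ ≤ 2 ^ (M * w) := Nat.pow_le_pow_right (by norm_num) (by omega)
    · rw [List.mem_ofFn] at hy
      obtain ⟨i, rfl⟩ := hy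
      exact ⟨(hub i true).1, (hub i true).2.trans (Nat.pow_le_pow_right (by norm_num) hexp)⟩
    · rw [List.mem_ofFn] at hy
      obtain ⟨i, rfl⟩ := hy
      exact ⟨(hub i false).1, (hub i false).2.trans (Nat.pow_le_pow_right (by norm_num) hexp)⟩
  · rw [List.prod_append, List.prod_append, hdec1, hdec2]
    have h1 : l₀.prod ≤ 2 ^ ((1 + 1600 * M) * w) := by
      calc l₀.prod ≤ (2 * w ^ 100) ^ l₀.length :=
            List.prod_le_pow_card l₀ _ fun y hy => (hl₀ y hy).2
        _ ≤ (2 * w ^ 100) ^ w := Nat.pow_le_pow_right (by positivity) hlen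
        _ = 2 ^ ((1 + 1600 * M) * w) := by
            have : 2 * w ^ 100 = 2 ^ (1 + 1600 * M) := by
              rw [hw, ← pow_mul, pow_add, pow_one]; congr 2; ring
            rw [this, ← pow_mul]
    have h2 : ∀ b, ∏ i, u i b ≤ 2 ^ ((1 + 6000 * M + 6 * w) * (2000 * M)) := by
      intro b
      calc ∏ i, u i b ≤ ∏ i : Fin (2000 * M), 2 ^ (1 + 6000 * M + 6 * w) :=
            Finset.prod_le_prod' fun i _ => (hub i b).2
        _ = 2 ^ ((1 + 6000 * M + 6 * w) * (2000 * M)) := by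
            rw [Finset.prod_const, Finset.card_univ, Fintype.card_fin, ← pow_mul]
    calc l₀.prod * ((∏ i, u i true) * ∏ i, u i false)
        ≤ 2 ^ ((1 + 1600 * M) * w) * (2 ^ ((1 + 6000 * M + 6 * w) * (2000 * M)) *
          2 ^ ((1 + 6000 * M + 6 * w) * (2000 * M))) :=
          Nat.mul_le_mul h1 (Nat.mul_le_mul (h2 true) (h2 false))
      _ = 2 ^ ((1 + 1600 * M) * w + ((1 + 6000 * M + 6 * w) * (2000 * M) + (1 + 6000 * M + 6 * w) * (2000 * M))) := by
          rw [← pow_add, ← pow_add]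
      _ ≤ 2 ^ (60000 * M * w) := by
          apply Nat.pow_le_pow_right (by norm_num)
          have e1 : (1 + 1600 * M) * w ≤ 1700 * (M * w) := by
            calc (1 + 1600 * M) * w ≤ (1700 * M) * w := Nat.mul_le_mul_right _ (by omega)
              _ = 1700 * (M * w) := by ring
          have e2 : (1 + 6000 * M + 6 * w) * (2000 * M) ≤ 20000 * (M * w) := by
            have : 1 + 6000 * M + 6 * w ≤ 10 * w := by omega
            calc (1 + 6000 * M + 6 * w) * (2000 * M) ≤ (10 * w) * (2000 * M) :=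
                  Nat.mul_le_mul_right _ this
              _ = 20000 * (M * w) := by ring
          have e3 : 60000 * M * w = 60000 * (M * w) := by ring
          rw [e3]
          omega
  · intro n hn1 hn2 hnc
    have hnle : n ≤ w ^ (M * J) := by
      refine hn2.trans ?_
      rw [hw, ← pow_mul, ← hw]
      apply Nat.pow_le_pow_right (by norm_num)
      have : M * w ≤ M * (512 * M * J) := Nat.mul_le_mul_left _ hI'.le
      have e : M * (512 * M * J) = 32 * (16 * M * (M * J)) := by ring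
      omega
    obtain ⟨b, x, hdvd⟩ := exists_digits v u hn1 (hmul n hn1 hnle hnc)
    -- the divisors
    let d : Fin (2000 * M) → ℕ := fun i => u i (b i) * v (x i)
    set Y := w ^ (81 * J) with hY
    have hYpos : 0 < Y := by positivity
    have hdlow : ∀ i : Fin (2000 * M), 8 ^ (i : ℕ) * (Y * Z) ≤ d i := by
      intro i
      calc 8 ^ (i : ℕ) * (Y * Z) = (8 ^ (i : ℕ) * Y) * Z := by ring
        _ ≤ d i := Nat.mul_le_mul (hu i (b i)).1 (hv (x i)).1
    have hdup : ∀ i : Fin (2000 * M), d i < 8 ^ ((i : ℕ) + 1) * (Y * Z) := by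
      intro i
      calc d i ≤ (2 * (8 ^ (i : ℕ) * Y)) * (3 * Z) :=
            Nat.mul_le_mul (hu i (b i)).2.le (hv (x i)).2
        _ = 6 * (8 ^ (i : ℕ) * (Y * Z)) := by ring
        _ < 8 * (8 ^ (i : ℕ) * (Y * Z)) := by
            have : 0 < 8 ^ (i : ℕ) * (Y * Z) := by positivity
            omega
        _ = 8 ^ ((i : ℕ) + 1) * (Y * Z) := by rw [pow_succ]; ring
    have hmono : ∀ i j : Fin (2000 * M), i < j → d i < d j := by
      intro i j hij
      refine (hdup i).trans_le (le_trans ?_ (hdlow j))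
      exact Nat.mul_le_mul_right _ (Nat.pow_le_pow_right (by norm_num) hij)
    have hinj : Function.Injective d := (show StrictMono d from fun i j h => hmono i j h).injective
    refine ⟨Finset.univ.image d, ?_, ?_, ?_, ?_⟩
    · refine Finset.Nonempty.image ?_ _
      exact ⟨⟨0, by omega⟩, Finset.mem_univ _⟩
    · refine Finset.card_image_le.trans ?_
      rw [Finset.card_univ, Fintype.card_fin]
    · intro y hy
      obtain ⟨i, -, rfl⟩ := Finset.mem_image.1 hy
      constructor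
      · refine lt_of_lt_of_le ?_ (hdlow i)
        positivity
      · rw [List.prod_append, List.prod_append, hdec1, hdec2]
        have h : u i (b i) ∣ (∏ i, u i true) * ∏ i, u i false := by
          cases b i
          · exact Dvd.dvd.mul_left (Finset.dvd_prod_of_mem (fun i => u i false)
              (Finset.mem_univ i)) _
          · exact Dvd.dvd.mul_right (Finset.dvd_prod_of_mem (fun i => u i true)
              (Finset.mem_univ i)) _
        change u i (b i) * v (x i) ∣ _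
        rw [mul_comm (u i (b i))]
        exact mul_dvd_mul (hvl (x i)) h
    · rw [Finset.sum_image fun i _ j _ h => hinj h]
      exact hdvd

end Vale.Agent.EgyptF
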