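import Mathlib
import Vale.Agent.EgyptF.Defs
import Vale.Agent.EgyptF.Resid
import Vale.Agent.EgyptF.Arch
import Vale.Agent.EgyptF.AsmA
import Vale.Agent.EgyptF.AsmB
import Vale.Agent.EgyptF.AsmC

/-!
# Piece D. Assembly (helper1).
-/

open Finset

namespace Vale.Agent.EgyptF

/-- numerical facts about `w = 2^{16 M}`, `M ≥ 1000` -/
lemma num_facts (M w : ℕ) (hM : 1000 ≤ M) (hw : w = 2 ^ (16 * M)) :
    (2 ^ 27 * (w / 2 ^ 27) = w) ∧ 2 ^ 63 * M ≤ w ∧ 2 ^ 70 ≤ w := by
  refine ⟨?_, ?_, ?_⟩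
  · rw [hw]
    apply Nat.mul_div_cancel'
    exact pow_dvd_pow 2 (by omega)
  · rw [hw]
    have h1 : M < 2 ^ M := Nat.lt_two_pow_self
    calc 2 ^ 63 * M ≤ 2 ^ 63 * 2 ^ M := Nat.mul_le_mul_left _ h1.le
      _ = 2 ^ (63 + M) := by rw [pow_add]
      _ ≤ 2 ^ (16 * M) := Nat.pow_le_pow_right (by norm_num) (by omega)
  · rw [hw]
    exact Nat.pow_le_pow_right (by norm_num) (by omega)

theorem main_nat (M b : ℕ) (hM : 1000 ≤ M) (hb : 8 * b ≤ 2 ^ (2 ^ (16 * M))) :
    ∀ a, 1 ≤ a → a < b → Ex ((a : ℚ) / b) (2 ^ 50 * M) := by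
  set w := 2 ^ (16 * M) with hw
  obtain ⟨l, PP, hl, hlprod, hPP, hPPc, hres⟩ := resolution M w (by omega) hw
  obtain ⟨W3, Z, hZ, hZW, hW3, harch⟩ := arch M w (by omega) hw
  obtain ⟨hw27, hwM, hw70⟩ := num_facts M w hM hw
  have hR : Resolves l.prod (2 ^ (M * w / 32)) (2000 * M) PP := hres
  have hA : ArchP w W3 Z (w / 2 ^ 27) := harch
  set s0 := w / 2 ^ 27 with hs0
  set N := M * w with hN
  have hNw : 1000 * w ≤ N := Nat.mul_le_mul_right _ hM
  have hPP' : ∀ p ∈ PP, p.Prime ∧ PP.card < p ∧ 2 < p := by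
    intro p hp
    obtain ⟨h1, h2⟩ := hPP p hp
    refine ⟨h1, by omega, by omega⟩
  have hlp : 1 ≤ l.prod := by
    apply Nat.one_le_iff_ne_zero.mpr
    intro h0
    have := List.prod_eq_zero_iff.mp h0
    have := (hl 0 this).1
    omega
  -- PP.card + 2 ≤ 2^(16 M + 1)
  have hJ : PP.card + 2 ≤ 2 ^ (16 * M + 1) := by
    rw [pow_succ, ← hw]
    omega
  have hMN : 16 * M ≤ N / 1000000 := by
    rw [Nat.le_div_iff_mul_le (by norm_num)]
    nlinarith
  have hw1 : 1 ≤ M := by omega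
  -- base lemma
  set Λ := 2 * w ^ 60 * W3 with hΛ
  have hW31 : 1 ≤ W3 := hZ.trans hZW
  have hw0 : 0 < w := by omega
  have hΛ1 : 1 ≤ Λ := by
    have : 0 < 2 * w ^ 60 * W3 := by positivity
    exact this
  set t := 60003 * 2 ^ 27 * M with ht
  have hst : s0 * t = 60003 * N := by
    rw [ht, hN]
    calc s0 * (60003 * 2 ^ 27 * M) = 60003 * (M * (2 ^ 27 * s0)) := by ring
      _ = _ := by rw [hw27]
  have hbase : ∀ a b : ℕ, 1 ≤ a → 1 ≤ b → a * Λ ≤ b * Z → b ≤ 2 ^ (N / 60) →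
      Ex ((a : ℚ) / b) (8 * t + (2000 * M + 1)) := by
    intro a b ha hb1 hab hbB
    have := arch_iter (Bd := 2 ^ (N / 40)) hA (by omega) hZ hW31 (a := M * w) hl hR hPP'
      (by
        calc (PP.card + 1) * 2 ^ (N / 40) ≤ 2 ^ (16 * M + 1) * 2 ^ (N / 40) :=
              Nat.mul_le_mul_right _ (by omega)
          _ = 2 ^ (16 * M + 1 + N / 40) := by rw [← pow_add]
          _ ≤ 2 ^ (M * w / 32) := Nat.pow_le_pow_right (by norm_num) (by omega))
      (by
        calc 4 * (PP.card + 2) * 2 ^ (N / 40) ≤ 4 * 2 ^ (16 * M + 1) * 2 ^ (N / 40) :=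
              Nat.mul_le_mul_right _ (Nat.mul_le_mul_left _ hJ)
          _ = 2 ^ (2 + (16 * M + 1) + N / 40) := by
              rw [show (4 : ℕ) = 2 ^ 2 by norm_num, ← pow_add, ← pow_add]
          _ ≤ 2 ^ (M * w) := Nat.pow_le_pow_right (by norm_num) (by omega))
      t (a * (2 ^ (M * w) * l.prod * W3)) b hb1
      (by
        calc 2 * w ^ 60 * (a * (2 ^ (M * w) * l.prod * W3)) = a * Λ * (2 ^ (M * w) * l.prod) := by
              rw [hΛ]; ring
          _ ≤ b * Z * (2 ^ (M * w) * l.prod) := Nat.mul_le_mul_right _ hab)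
      (by
        calc 2 * w ^ 60 * (a * (2 ^ (M * w) * l.prod * W3)) = a * Λ * (2 ^ (M * w) * l.prod) := by
              rw [hΛ]; ring
          _ ≤ b * Z * (2 ^ (M * w) * l.prod) := Nat.mul_le_mul_right _ hab
          _ ≤ b * Z * (2 ^ (M * w) * 2 ^ (60000 * M * w)) := by
              apply Nat.mul_le_mul_left
              exact Nat.mul_le_mul_left _ hlprod
          _ = b * Z * 2 ^ (60001 * N) := by
              rw [← pow_add]
              congr 2
              rw [hN]; ring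
          _ < b * Z * 2 ^ (s0 * t) := by
              apply Nat.mul_lt_mul_of_pos_left _ (by positivity)
              apply Nat.pow_lt_pow_right (by norm_num)
              rw [hst]
              have : 0 < N := by omega
              omega)
      (by
        have h976 : (w ^ 61) ^ t = 2 ^ (976 * M * t) := by
          rw [hw, ← pow_mul, ← pow_mul]
          congr 1
          ring
        have hMt : 976 * M * t ≤ N / 1000 := by
          rw [Nat.le_div_iff_mul_le (by norm_num), ht, hN]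
          have : 976 * (60003 * 2 ^ 27) * 1000 ≤ 2 ^ 63 := by norm_num
          calc 976 * M * (60003 * 2 ^ 27 * M) * 1000 = (976 * (60003 * 2 ^ 27) * 1000) * M * M := by ring
            _ ≤ 2 ^ 63 * M * M := by
              apply Nat.mul_le_mul_right
              exact Nat.mul_le_mul_right _ this
            _ ≤ w * M := Nat.mul_le_mul_right _ hwM
            _ = M * w := by ring
        rw [h976]
        calc b * 2 ^ (976 * M * t) * Z ≤ 2 ^ (N / 60) * 2 ^ (N / 1000) * 2 ^ (M * w / 160) := by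
              apply Nat.mul_le_mul _ (hZW.trans hW3)
              exact Nat.mul_le_mul hbB (Nat.pow_le_pow_right (by norm_num) hMt)
          _ = 2 ^ (N / 60 + N / 1000 + N / 160) := by rw [← pow_add, ← pow_add]
          _ ≤ 2 ^ (N / 40) := Nat.pow_le_pow_right (by norm_num) (by omega))
    have e : ((a * (2 ^ (M * w) * l.prod * W3) : ℕ) : ℚ) / (b * (2 ^ (M * w) * l.prod * W3) : ℕ) =
        (a : ℚ) / b := by
      have h0 : 0 < 2 ^ (M * w) * l.prod * W3 := by positivity
      generalize 2 ^ (M * w) * l.prod * W3 = X at h0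
      have h1 : (X : ℚ) ≠ 0 := by exact_mod_cast h0.ne'
      rw [Nat.cast_mul, Nat.cast_mul]
      exact mul_div_mul_right _ _ h1
    rw [e] at this
    exact this
  -- greedy
  have hΛN : Λ ≤ 2 ^ (N / 150) := by
    have h1 : Λ = 2 ^ (1 + 960 * M) * W3 := by
      rw [hΛ, hw, pow_add, ← pow_mul]
      ring_nf
    rw [h1]
    calc 2 ^ (1 + 960 * M) * W3 ≤ 2 ^ (1 + 960 * M) * 2 ^ (M * w / 160) := Nat.mul_le_mul_left _ hW3
      _ = 2 ^ (1 + 960 * M + N / 160) := by rw [← pow_add]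
      _ ≤ 2 ^ (N / 150) := Nat.pow_le_pow_right (by norm_num) (by omega)
  have hg := greedy_iter (B1 := 2 ^ (N / 60)) hZ hΛ1 hbase (17 * M)
  have h17 : 2 ^ (17 * M) = 2 ^ M * w := by rw [hw, ← pow_add]; congr 1; ring
  have hg2 : ∀ a b : ℕ, 1 ≤ a → 4 * a < b → a ≤ 2 ^ w → b ≤ 2 ^ w →
      Ex ((a : ℚ) / b) (8 * t + (2000 * M + 1) + 17 * M) := by
    intro a b ha hab haA hbB
    apply hg a b ha hab
    · exact hbB.trans (Nat.pow_le_pow_right (by norm_num) (by omega))
    · calc a * 2 ^ (17 * M) * (2 * Λ ^ 2) ≤ 2 ^ w * 2 ^ (17 * M) * (2 * (2 ^ (N / 150)) ^ 2) := by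
            apply Nat.mul_le_mul
            · exact Nat.mul_le_mul_right _ haA
            · apply Nat.mul_le_mul_left
              exact Nat.pow_le_pow_left hΛN 2
        _ = 2 ^ (w + 17 * M + (1 + 2 * (N / 150))) := by
            rw [pow_add, pow_add, pow_add, pow_mul 2 2 (N / 150), ← pow_mul, ← pow_mul]
            ring_nf
        _ ≤ 2 ^ (N / 60) := Nat.pow_le_pow_right (by norm_num) (by omega)
    · have h1 : Λ ≤ 2 ^ (2 ^ (17 * M)) := by
        apply hΛN.trans
        apply Nat.pow_le_pow_right (by norm_num)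
        rw [h17]
        have : M ≤ 2 ^ M := Nat.lt_two_pow_self.le
        calc N / 150 ≤ N := Nat.div_le_self _ _
          _ = M * w := hN
          _ ≤ 2 ^ M * w := Nat.mul_le_mul_right _ this
      calc (2 * a) ^ (2 ^ (17 * M)) * Λ ≤ (2 * a) ^ (2 ^ (17 * M)) * 2 ^ (2 ^ (17 * M)) :=
            Nat.mul_le_mul_left _ h1
        _ = (2 * a * 2) ^ (2 ^ (17 * M)) := by rw [← mul_pow]
        _ ≤ b ^ (2 ^ (17 * M)) := Nat.pow_le_pow_left (by omega) _
  intro a ha hab
  have := greedy_start hg2 a b ha hab (by omega) hb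
  refine this.mono ?_
  rw [ht]
  have : (2 : ℕ) ^ 50 = 1125899906842624 := by norm_num
  have : (2 : ℕ) ^ 27 = 134217728 := by norm_num
  omega

theorem main_full : ∃ C : ℝ, ∀ b : ℕ, 16 ≤ b → ∀ a : ℕ, 1 ≤ a → a < b →
    ∃ s : Finset ℕ, (∀ n ∈ s, 2 ≤ n) ∧ ∑ n ∈ s, (1 : ℚ) / n = (a : ℚ) / b ∧
      (s.card : ℝ) ≤ C * Real.log (Real.log b) := by
  refine ⟨2 ^ 50 * 1010, fun b hb a ha hab => ?_⟩
  set M := 1000 + Nat.log 2 (Nat.log 2 b) with hMdef
  have hlogb4 : 4 ≤ Nat.log 2 b := by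
    exact Nat.le_log_of_pow_le (by norm_num) (by omega)
  have hbM : 8 * b ≤ 2 ^ (2 ^ (16 * M)) := by
    have h4 : Nat.log 2 b < 2 ^ (Nat.log 2 (Nat.log 2 b) + 1) := Nat.lt_pow_succ_log_self (by norm_num) _
    have h5 : b < 2 ^ (Nat.log 2 b + 1) := Nat.lt_pow_succ_log_self (by norm_num) _
    have h6 : Nat.log 2 b + 4 ≤ 2 ^ (16 * M) := by
      have h7 : 2 ^ (Nat.log 2 (Nat.log 2 b) + 1) * 2 ≤ 2 ^ (16 * M) := by
        rw [← pow_succ]
        exact Nat.pow_le_pow_right (by norm_num) (by omega)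
      have h8 : 2 ≤ 2 ^ (Nat.log 2 (Nat.log 2 b) + 1) := by
        calc 2 = 2 ^ 1 := by norm_num
          _ ≤ _ := Nat.pow_le_pow_right (by norm_num) (by omega)
      omega
    calc 8 * b ≤ 8 * 2 ^ (Nat.log 2 b + 1) := Nat.mul_le_mul_left _ h5.le
      _ = 2 ^ (Nat.log 2 b + 4) := by
        have : (8 : ℕ) = 2 ^ 3 := by norm_num
        rw [this, ← pow_add]
        congr 1
        omega
      _ ≤ 2 ^ (2 ^ (16 * M)) := Nat.pow_le_pow_right (by norm_num) h6
  obtain ⟨s, h1, h2, h3⟩ := main_nat M b (by omega) hbM a ha hab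
  have hb0 : (0 : ℚ) < b := by
    have : 0 < b := by omega
    exact_mod_cast this
  refine ⟨s, ?_, h2, ?_⟩
  · intro n hn
    have hn0 := h1 n hn
    by_contra hcon
    have hn1 : n = 1 := by omega
    have h4 : (1 : ℚ) / n ≤ (a : ℚ) / b := by
      rw [← h2]
      exact Finset.single_le_sum (f := fun n : ℕ => (1 : ℚ) / n) (fun i _ => by positivity) hn
    rw [hn1, le_div_iff₀ hb0] at h4
    have h5 : (b : ℚ) ≤ a := by simpa using h4
    have h6 : b ≤ a := by exact_mod_cast h5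
    omega
  · -- numerical part
    have hb' : (16 : ℝ) ≤ b := by exact_mod_cast hb
    have hl2 : 0.6931471803 < Real.log 2 := Real.log_two_gt_d9
    have hl2' : Real.log 2 < 0.6931471808 := Real.log_two_lt_d9
    have hlogb : (4 : ℝ) * Real.log 2 ≤ Real.log b := by
      have e1 : Real.log 16 = 4 * Real.log 2 := by
        rw [show (16 : ℝ) = 2 ^ 4 by norm_num, Real.log_pow]
        norm_num
      rw [← e1]
      exact Real.log_le_log (by norm_num) hb'
    have hlogb0 : 0 < Real.log b := by linarith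
    -- log log b ≥ 1
    have hll1 : 1 ≤ Real.log (Real.log b) := by
      rw [Real.le_log_iff_exp_le hlogb0]
      have := Real.exp_one_lt_d9
      linarith
    -- bound for M
    have hA : (Nat.log 2 (Nat.log 2 b) : ℝ) * Real.log 2 ≤ Real.log (Nat.log 2 b : ℕ) := by
      have h4 : (2 : ℝ) ^ Nat.log 2 (Nat.log 2 b) ≤ (Nat.log 2 b : ℕ) := by
        exact_mod_cast Nat.pow_log_le_self 2 (by omega)
      have := Real.log_le_log (by positivity) h4
      rwa [Real.log_pow] at this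
    have hB : ((Nat.log 2 b : ℕ) : ℝ) * Real.log 2 ≤ Real.log b := by
      have h4 : (2 : ℝ) ^ Nat.log 2 b ≤ b := by
        exact_mod_cast Nat.pow_log_le_self 2 (by omega)
      have := Real.log_le_log (by positivity) h4
      rwa [Real.log_pow] at this
    have hC : ((Nat.log 2 b : ℕ) : ℝ) ≤ (Real.log b) ^ 2 := by
      have h5 : ((Nat.log 2 b : ℕ) : ℝ) * 0.69 ≤ Real.log b := by
        have : (0 : ℝ) ≤ ((Nat.log 2 b : ℕ) : ℝ) := by positivity
        nlinarith
      nlinarith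
    have hD : Real.log ((Nat.log 2 b : ℕ) : ℝ) ≤ 2 * Real.log (Real.log b) := by
      have h6 : (0 : ℝ) < ((Nat.log 2 b : ℕ) : ℝ) := by
        have : 0 < Nat.log 2 b := by omega
        exact_mod_cast this
      have := Real.log_le_log h6 hC
      rwa [Real.log_pow] at this
    have hE : (Nat.log 2 (Nat.log 2 b) : ℝ) ≤ 3 * Real.log (Real.log b) := by
      have h7 : (Nat.log 2 (Nat.log 2 b) : ℝ) * 0.69 ≤ 2 * Real.log (Real.log b) := by
        have : (0 : ℝ) ≤ (Nat.log 2 (Nat.log 2 b) : ℝ) := by positivity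
        nlinarith
      linarith
    have hM : (M : ℝ) ≤ 1010 * Real.log (Real.log b) := by
      rw [hMdef]
      push_cast
      linarith
    calc (s.card : ℝ) ≤ ((2 ^ 50 * M : ℕ) : ℝ) := by exact_mod_cast h3
      _ = 2 ^ 50 * M := by push_cast; ring
      _ ≤ 2 ^ 50 * (1010 * Real.log (Real.log b)) := by
        apply mul_le_mul_of_nonneg_left hM (by positivity)
      _ = 2 ^ 50 * 1010 * Real.log (Real.log b) := by ring

end Vale.Agent.EgyptF
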