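import Mathlib

/-!
# The (known) lower bound `N(b-1,b) ≫ log log b`.
-/

open Finset

namespace Vale.Agent.EgyptF

lemma lower_aux : ∀ (k : ℕ) (s : Finset ℕ), s.card = k → (∀ n ∈ s, 1 ≤ n) → ∀ A B : ℕ, 1 ≤ B →
    ∑ n ∈ s, (1 : ℚ) / n < (A : ℚ) / B →
    (1 : ℚ) / (2 * (k + 1) * B) ^ (4 ^ k) ≤ (A : ℚ) / B - ∑ n ∈ s, (1 : ℚ) / n := by
  intro k
  induction k with
  | zero =>
    intro s hs _ A B hB h
    rw [Finset.card_eq_zero] at hs
    subst hs
    have hB' : (1 : ℚ) ≤ B := by exact_mod_cast hB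
    have hB0 : (0 : ℚ) < B := by linarith
    simp only [Finset.sum_empty, sub_zero] at h ⊢
    have hA : 1 ≤ A := by
      rcases Nat.eq_zero_or_pos A with h0 | h0
      · rw [h0] at h
        simp at h
      · exact h0
    have hA' : (1 : ℚ) ≤ A := by exact_mod_cast hA
    simp only [Nat.cast_zero, zero_add, mul_one, pow_zero, pow_one]
    rw [div_le_div_iff₀ (by positivity) hB0]
    nlinarith
  | succ k ih =>
    intro s hs hs1 A B hB h
    have hB' : (1 : ℚ) ≤ B := by exact_mod_cast hB
    have hB0 : (0 : ℚ) < B := by linarith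
    have hsum0 : 0 ≤ ∑ n ∈ s, (1 : ℚ) / n := Finset.sum_nonneg (fun i _ => by positivity)
    have hA : 1 ≤ A := by
      rcases Nat.eq_zero_or_pos A with h0 | h0
      · rw [h0, Nat.cast_zero, zero_div] at h
        linarith
      · exact h0
    have hA' : (1 : ℚ) ≤ A := by exact_mod_cast hA
    have hk0 : (0 : ℚ) ≤ k := Nat.cast_nonneg k
    have hX : (1 : ℚ) ≤ 2 * ((k + 1 : ℕ) + 1) * B := by
      push_cast
      nlinarith
    by_cases hall : ∀ n ∈ s, 2 * (k + 1) * B ≤ n
    · -- the sum is small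
      have h1 : ∑ n ∈ s, (1 : ℚ) / n ≤ 1 / (2 * B) := by
        calc ∑ n ∈ s, (1 : ℚ) / n ≤ ∑ _n ∈ s, (1 : ℚ) / (2 * (k + 1) * B) := by
              apply Finset.sum_le_sum
              intro n hn
              apply one_div_le_one_div_of_le (by positivity)
              exact_mod_cast hall n hn
          _ = 1 / (2 * B) := by
              rw [Finset.sum_const, hs, nsmul_eq_mul]
              push_cast
              field_simp
      have h2 : (1 : ℚ) / B ≤ (A : ℚ) / B := by
        apply div_le_div_of_nonneg_right hA' hB0.le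
      have h3 : (1 : ℚ) / B = 1 / (2 * B) + 1 / (2 * B) := by
        field_simp
        norm_num
      have h4 : (1 : ℚ) / (2 * ((k + 1 : ℕ) + 1) * B) ^ (4 ^ (k + 1)) ≤ 1 / (2 * B) := by
        apply one_div_le_one_div_of_le (by positivity)
        calc (2 : ℚ) * B ≤ 2 * ((k + 1 : ℕ) + 1) * B := by
              push_cast
              nlinarith
          _ ≤ (2 * ((k + 1 : ℕ) + 1) * B) ^ (4 ^ (k + 1)) :=
              le_self_pow₀ hX (by positivity)
      linarith
    · push Not at hall
      obtain ⟨n, hn, hnlt⟩ := hall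
      have hn1 := hs1 n hn
      have hn1' : (1 : ℚ) ≤ n := by exact_mod_cast hn1
      have hn0 : (0 : ℚ) < n := by linarith
      have hsplit : ∑ m ∈ s, (1 : ℚ) / m = ∑ m ∈ s.erase n, (1 : ℚ) / m + 1 / n := by
        rw [Finset.sum_erase_add _ _ hn]
      have hsum0' : 0 ≤ ∑ m ∈ s.erase n, (1 : ℚ) / m := Finset.sum_nonneg (fun i _ => by positivity)
      have hlt : (1 : ℚ) / n < (A : ℚ) / B := by linarith
      have hAn : B < A * n := by
        rw [div_lt_div_iff₀ hn0 hB0] at hlt
        have : (B : ℚ) < A * n := by linarith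
        exact_mod_cast this
      have hval : ((A * n - B : ℕ) : ℚ) / (B * n : ℕ) = (A : ℚ) / B - 1 / n := by
        rw [Nat.cast_sub hAn.le]
        push_cast
        field_simp
      have hrec := ih (s.erase n) (by rw [Finset.card_erase_of_mem hn, hs]; rfl)
        (fun m hm => hs1 m (Finset.mem_of_mem_erase hm)) (A * n - B) (B * n) (Nat.mul_pos hB hn1)
        (by rw [hval]; linarith)
      rw [hval] at hrec
      have h5 : (1 : ℚ) / (2 * ((k + 1 : ℕ) + 1) * B) ^ (4 ^ (k + 1)) ≤
          1 / (2 * (k + 1) * (B * n : ℕ)) ^ (4 ^ k) := by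
        apply one_div_le_one_div_of_le (by positivity)
        have e1 : (2 * ((k + 1 : ℕ) + 1) * (B : ℚ)) ^ (4 ^ (k + 1)) =
            ((2 * ((k + 1 : ℕ) + 1) * (B : ℚ)) ^ 4) ^ (4 ^ k) := by
          rw [← pow_mul]
          congr 1
          rw [pow_succ]
          ring
        rw [e1]
        apply pow_le_pow_left₀ (by positivity)
        have e2 : (n : ℚ) ≤ 2 * (k + 1) * B := by exact_mod_cast hnlt.le
        push_cast
        set x : ℚ := 2 * (k + 1) * B with hx
        have hx1 : 1 ≤ x := by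
          rw [hx]
          nlinarith
        have hxy : x ≤ 2 * (k + 1 + 1) * B := by
          rw [hx]
          nlinarith
        calc 2 * ((k : ℚ) + 1) * (B * n) = x * n := by rw [hx]; ring
          _ ≤ x * x := mul_le_mul_of_nonneg_left e2 (by linarith)
          _ = x ^ 2 := by ring
          _ ≤ x ^ 4 := pow_le_pow_right₀ hx1 (by norm_num)
          _ ≤ (2 * (k + 1 + 1) * B) ^ 4 := pow_le_pow_left₀ (by linarith) hxy 4
      linarith

/-- an expansion of `(b-1)/b` has at least `(1/4) log log b` terms -/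
theorem lower_bound (b : ℕ) (hb : 16 ≤ b) (s : Finset ℕ) (hs : ∀ n ∈ s, 2 ≤ n)
    (hsum : ∑ n ∈ s, (1 : ℚ) / n = ((b - 1 : ℕ) : ℚ) / b) :
    (1 / 4 : ℝ) * Real.log (Real.log b) ≤ s.card := by
  set k := s.card with hk
  have hb0 : (0 : ℚ) < b := by
    have : 0 < b := by omega
    exact_mod_cast this
  have hb1 : ((b - 1 : ℕ) : ℚ) / b = 1 - 1 / b := by
    rw [Nat.cast_sub (by omega)]
    push_cast
    field_simp
  have h1 := lower_aux k s rfl (fun n hn => (by norm_num : 1 ≤ 2).trans (hs n hn)) 1 1 le_rfl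
    (by
      rw [hsum, hb1]
      have : (0 : ℚ) < 1 / b := by positivity
      push_cast
      linarith)
  rw [hsum, hb1] at h1
  have h2 : (1 : ℚ) / (2 * (k + 1)) ^ (4 ^ k) ≤ 1 / b := by
    have e : (1 : ℚ) / (2 * (k + 1) * (1 : ℕ)) ^ (4 ^ k) = 1 / (2 * (k + 1)) ^ (4 ^ k) := by
      push_cast
      rw [mul_one]
    rw [← e]
    refine h1.trans (le_of_eq ?_)
    push_cast
    ring
  have h3 : (b : ℚ) ≤ (2 * (k + 1)) ^ (4 ^ k) := by
    rwa [one_div_le_one_div (by positivity) hb0] at h2
  have h3' : (b : ℝ) ≤ (2 * (k + 1)) ^ (4 ^ k) := by exact_mod_cast h3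
  have hk1 : 1 ≤ k := by
    rcases Nat.eq_zero_or_pos k with h0 | h0
    · rw [h0] at h3
      norm_num at h3
      have : b ≤ 2 := by exact_mod_cast h3
      omega
    · exact h0
  have hk1' : (1 : ℝ) ≤ k := by exact_mod_cast hk1
  have hbR : (16 : ℝ) ≤ b := by exact_mod_cast hb
  have hlogb : 0 < Real.log b := Real.log_pos (by linarith)
  have h4 : Real.log b ≤ 4 ^ k * Real.log (2 * (k + 1)) := by
    have := Real.log_le_log (by linarith) h3'
    rwa [Real.log_pow, Nat.cast_pow] at this
  have h5 : Real.log (2 * (k + 1)) ≤ 2 * (k + 1) - 1 := Real.log_le_sub_one_of_pos (by positivity)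
  have h6 : Real.log b ≤ 4 ^ k * (2 * k + 1) := by
    refine h4.trans ?_
    apply mul_le_mul_of_nonneg_left _ (by positivity)
    linarith
  have h7 : Real.log (Real.log b) ≤ k * Real.log 4 + Real.log (2 * k + 1) := by
    have := Real.log_le_log hlogb h6
    rwa [Real.log_mul (by positivity) (by positivity), Real.log_pow] at this
  have h8 : Real.log (2 * k + 1) ≤ 2 * k := by
    have := Real.log_le_sub_one_of_pos (show (0 : ℝ) < 2 * k + 1 by positivity)
    linarith
  have h9 : Real.log 4 ≤ 2 := by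
    have : Real.log 4 = 2 * Real.log 2 := by
      rw [show (4 : ℝ) = 2 ^ 2 by norm_num, Real.log_pow]
      norm_num
    have := Real.log_two_lt_d9
    linarith
  nlinarith

end Vale.Agent.EgyptF
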